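import Crest.Agent.R296.IfA_378

/-!
Row 296 (S0448), block A, leaf **A-RES** (helper70): transfer of filters and closed sets along
conservative embeddings, and in the tower.

* `consDvd`, `consR` : `ι f * x' = ι g → x' = ι x ∧ f * x = g`;
* `cmap C ι` / `isMap_cmap` : the closed set generated in a bigger monoid; `im_unique`, `im_comp`,
  `im_mem_iff`, `im_sim_iff`, `im_mem_iff'`;
* `RU ι` (right unitary: `w t ∈ P → t ∈ P`), `ru_s1`, `ru_s2`, `ru_s2all`;
* `ccomap`, `fcomap` : restriction of closed sets / filters; `isMap_ccomap` (fact (iv));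
* tower: `tGood`, `tCons`, `tRU`, `tGerm` (germs between two filters generated by `A α` have
  representatives in `A α`), `tMap`, `exists_gen`, `exists_map`.
-/

set_option autoImplicit false

universe u v w

namespace Crest.Agent.R296.Resx70

open Crest.Agent.R296.IfAx378

/-! ### good monoids -/

section good
variable {P : Type u} [Monoid P] [IsGood P]

theorem lcan {f g h : P} (e : f * g = f * h) : g = h := IsGood.lc f g h e

theorem unit_left {f g : P} (e : f * g = 1) : f = 1 := IsGood.unit f g e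


theorem dvd_one {f : P} (h : f ∣ 1) : f = 1 := by
  obtain ⟨c, hc⟩ := h
  exact unit_left hc.symm



end good

/-! ### conservative embeddings -/

section cons
variable {P : Type u} {P' : Type v} {P'' : Type w} [Monoid P] [Monoid P'] [Monoid P'']

theorem consR [IsGood P'] {ι : P →* P'} (hc : Cons ι) {f g : P} {x' : P'}
    (h : ι f * x' = ι g) : ∃ x, x' = ι x ∧ f * x = g := by
  obtain ⟨x, y, t, h1, h2, h3⟩ := hc.amal f g x' 1 (by rw [mul_one]; exact h)
  have hy : ι y = 1 := unit_left h3.symm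
  have ht : t = 1 := by
    rw [hy, one_mul] at h3; exact h3.symm
  have hy1 : y = 1 := hc.inj (by rw [hy, map_one])
  refine ⟨x, by rw [h2, ht, mul_one], by rw [h1, hy1, mul_one]⟩

theorem consDvd [IsGood P'] {ι : P →* P'} (hc : Cons ι) {f g : P} : ι f ∣ ι g ↔ f ∣ g := by
  constructor
  · rintro ⟨x', hx⟩
    obtain ⟨x, -, h2⟩ := consR hc hx.symm
    exact ⟨x, h2.symm⟩
  · rintro ⟨c, rfl⟩
    exact ⟨ι c, map_mul ι f c⟩


end cons

/-! ### generated closed sets -/

section map
variable {P : Type u} {P' : Type v} {P'' : Type w} [Monoid P] [Monoid P'] [Monoid P'']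













end map

/-! ### restriction -/

section comap
variable {P : Type u} {P' : Type v} {P'' : Type w} [Monoid P] [Monoid P'] [Monoid P'']

/-- restriction of a filter -/
def fcomap (F : Filt P') (ι : P →* P') (hc : Cons ι) : Filt P where
  S := {s | ι s ∈ F.S}
  one := by show ι 1 ∈ F.S; rw [map_one]; exact F.one
  up x s h hs := by
    obtain ⟨c, rfl⟩ := h
    exact F.up _ _ ⟨ι c, map_mul ι x c⟩ hs
  dir s t hs ht := by
    obtain ⟨m, hm, ⟨x, hx⟩, ⟨y, hy⟩⟩ := F.dir _ _ hs ht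
    obtain ⟨x0, y0, t0, h1, h2, h3⟩ := hc.amal s t x y (by rw [← hx, ← hy])
    refine ⟨s * x0, ?_, ⟨x0, rfl⟩, ⟨y0, h1⟩⟩
    refine F.up _ m ⟨t0, ?_⟩ hm
    rw [map_mul, hx, h2, mul_assoc]

/-- restriction of a closed set -/
def ccomap (C : Closed P') (ι : P →* P') (hc : Cons ι) : Closed P where
  toFilt := fcomap C.toFilt ι hc
  R s r := C.R (ι s) (ι r)
  dom s r h := C.dom _ _ h
  refl s hs := C.refl _ hs
  symm s r h := C.symm _ _ h
  trans s r q h h' := C.trans _ _ _ h h'
  act s r t h ht := by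
    show C.R (ι (s * t)) (ι (r * t))
    rw [map_mul, map_mul]
    refine C.act _ _ _ h ?_
    have : ι (r * t) ∈ C.S := ht
    rwa [map_mul] at this
  shrink s r t h := by
    have h' : C.R (ι (s * t)) (ι (r * t)) := h
    rw [map_mul, map_mul] at h'
    exact C.shrink _ _ _ h'




/-- right unitary: right factors of old elements are old -/
def RU (ι : P →* P') : Prop := ∀ w t p, w * t = ι p → ∃ t0, t = ι t0

/-- fact (iv), one step: a germ between two filters generated from below -/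
theorem germ_step {ι : P →* P'} (hru : RU ι) {F G : Set P'}
    (gF : ∀ s ∈ F, ∃ a, ι a ∈ F ∧ s ∣ ι a) (gG : ∀ s ∈ G, ∃ a, ι a ∈ G ∧ s ∣ ι a)
    {s r : P'} (hr : r ∈ F) (h : ∀ t, r * t ∈ F ↔ s * t ∈ G) :
    ∃ t a b, s * t = ι a ∧ r * t = ι b ∧ r * t ∈ F ∧ s * t ∈ G := by
  obtain ⟨b, hb, ⟨t, ht⟩⟩ := gF r hr
  have h1 : s * t ∈ G := (h t).1 (by rw [← ht]; exact hb)
  obtain ⟨a, ha, ⟨x, hx⟩⟩ := gG _ h1
  obtain ⟨x0, rfl⟩ := hru _ _ _ hx.symm
  have h2 : s * (t * ι x0) ∈ G := by rw [← mul_assoc, ← hx]; exact ha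
  refine ⟨t * ι x0, a, b * x0, ?_, ?_, (h _).2 h2, h2⟩
  · rw [← mul_assoc, hx]
  · rw [← mul_assoc, ← ht, map_mul]



end comap

/-! ### right unitarity of the two extensions -/

section ru
variable {P : Type u} {P' : Type v} [Monoid P] [Monoid P']

theorem ru_s1 {I : Type w} {J : Type*} {A : I → LAct P J} {ι : P →* P'} {κ : I → J → P'}
    (E : S1Ext A ι κ) : RU ι := by
  have := E.good
  intro w t p h
  rcases E.nf w with ⟨w0, rfl⟩ | ⟨s, i, j, w', rfl⟩
  · obtain ⟨x, hx, -⟩ := consR E.cons h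
    exact ⟨x, hx⟩
  · exfalso
    apply E.new s i j (w' * t) p
    rw [← h, ← mul_assoc]



theorem ru_s2all {ι : P →* P'} {y : Ltr P → P'} {len : P' → ℕ} (E : S2All ι y len) : RU ι := by
  have := E.good
  have key : ∀ n : ℕ, ∀ w t p, len w = n → w * t = ι p → ∃ t0, t = ι t0 := by
    intro n
    induction n using Nat.strong_induction_on with
    | _ n ih =>
      intro w t p hn h
      rcases E.nf w with ⟨w0, rfl⟩ | ⟨l, x, rfl, hx⟩
      · obtain ⟨x, hx, -⟩ := consR E.cons h
        exact ⟨x, hx⟩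
      · rw [E.len_y l x hx] at hn
        by_cases hd : ι l.d.a ∣ x * t
        · obtain ⟨z, hz⟩ := hd
          obtain ⟨q, hq⟩ := l.d.b_mem.1 _ l.hr
          have h1 : ι (l.s * q) * z = ι p := by
            rw [← E.rel l q hq, mul_assoc, ← hz, ← h, mul_assoc]
          obtain ⟨z0, rfl, -⟩ := consR E.cons h1
          rw [← map_mul] at hz
          exact ih (len x) (by omega) x t _ rfl hz
        · exact absurd (by rw [← h, mul_assoc]) (E.new l (x * t) p hd)
  intro w t p h
  exact key _ w t p rfl h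

end ru

/-! ### submonoids of a good monoid -/

section sub
variable {P : Type u} [Monoid P] [IsGood P]

/-- in a conservative submonoid, right quotients are old -/
theorem sub_right {A : Submonoid P} (hc : Cons A.subtype) {f x : P} (hf : f ∈ A)
    (h : f * x ∈ A) : x ∈ A := by
  obtain ⟨x0, hx0, -⟩ := consR hc (f := ⟨f, hf⟩) (g := ⟨f * x, h⟩) (x' := x) rfl
  rw [hx0]
  exact x0.2



end sub

/-! ### the tower -/

section tower
variable {P : Type 1} [Monoid P] (T : Tower P)



theorem mod_two (β : Ordinal.{0}) : β % 2 = 0 ∨ β % 2 = 1 := by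
  have hlt : β % 2 < 2 := Ordinal.mod_lt β two_ne_zero
  rw [← one_add_one_eq_two] at hlt ⊢
  rw [Order.lt_add_one_iff] at hlt
  exact Order.le_one_iff.1 hlt

/-- every step of the tower is right unitary -/
theorem tRU (β : Ordinal.{0}) : RU (Submonoid.inclusion (T.mono (Order.le_succ β))) := by
  rcases mod_two β with h | h
  · exact ru_s1 (T.s1 β h)
  · exact ru_s2all (T.s2 β h)

theorem tDvd {β : Ordinal.{0}} {x y : T.A β} : (x : P) ∣ y ↔ x ∣ y :=
  have := T.good
  consDvd (T.cons β)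

theorem tRight {β : Ordinal.{0}} {f x : P} (hf : f ∈ T.A β) (h : f * x ∈ T.A β) : x ∈ T.A β :=
  have := T.good
  sub_right (T.cons β) hf h

/-- germs between two filters generated by `A α` have representatives in `A α` -/
theorem tGerm {F G : Set P} {α : Ordinal.{0}}
    (gF : ∀ s ∈ F, ∃ m ∈ T.A α, m ∈ F ∧ s ∣ m) (gG : ∀ s ∈ G, ∃ m ∈ T.A α, m ∈ G ∧ s ∣ m)
    {s r : P} (hr : r ∈ F) (h : ∀ t, r * t ∈ F ↔ s * t ∈ G) :
    ∃ t, s * t ∈ T.A α ∧ r * t ∈ T.A α ∧ r * t ∈ F ∧ s * t ∈ G := by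
  have := T.good
  let B : Set Ordinal.{0} :=
    {β | α ≤ β ∧ ∃ t, s * t ∈ T.A β ∧ r * t ∈ T.A β ∧ r * t ∈ F ∧ s * t ∈ G}
  have hB : B.Nonempty := by
    obtain ⟨β1, h1⟩ := T.exh s
    obtain ⟨β2, h2⟩ := T.exh r
    refine ⟨max α (max β1 β2), le_max_left _ _, 1, ?_, ?_, ?_, ?_⟩
    · rw [mul_one]
      exact T.mono ((le_max_left _ _).trans (le_max_right _ _)) h1
    · rw [mul_one]
      exact T.mono ((le_max_right _ _).trans (le_max_right _ _)) h2
    · rwa [mul_one]
    · exact (h 1).1 (by rwa [mul_one])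
  have hmin : ∀ γ ∈ B, sInf B ≤ γ := fun γ hγ => csInf_le' hγ
  obtain ⟨h0, t, h1, h2, h3, h4⟩ : sInf B ∈ B := csInf_mem hB
  rcases h0.eq_or_lt with he | hlt
  · rw [← he] at h1 h2
    exact ⟨t, h1, h2, h3, h4⟩
  exfalso
  rcases Ordinal.zero_or_succ_or_isSuccLimit (sInf B) with hz | ⟨δ, hδ⟩ | hl
  · rw [hz] at hlt
    exact absurd hlt not_lt_zero
  · have hαδ : α ≤ δ := by
      rw [← hδ] at hlt
      exact Order.lt_succ_iff.1 hlt
    rw [← hδ] at h1 h2
    have hg := germ_step (ι := Submonoid.inclusion (T.mono (Order.le_succ δ))) (tRU T δ)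
      (F := {x | (x : P) ∈ F}) (G := {x | (x : P) ∈ G})
      (by
        intro x hx
        obtain ⟨m, hm, hmF, hd⟩ := gF x hx
        have hm' : m ∈ T.A δ := T.mono hαδ hm
        refine ⟨⟨m, hm'⟩, hmF, ?_⟩
        exact (tDvd T (x := x) (y := ⟨m, T.mono (Order.le_succ δ) hm'⟩)).1 hd)
      (by
        intro x hx
        obtain ⟨m, hm, hmF, hd⟩ := gG x hx
        have hm' : m ∈ T.A δ := T.mono hαδ hm
        refine ⟨⟨m, hm'⟩, hmF, ?_⟩
        exact (tDvd T (x := x) (y := ⟨m, T.mono (Order.le_succ δ) hm'⟩)).1 hd)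
      (s := ⟨s * t, h1⟩) (r := ⟨r * t, h2⟩) h3
      (by
        intro t'
        show r * t * t' ∈ F ↔ s * t * t' ∈ G
        rw [mul_assoc, mul_assoc]
        exact h _)
    obtain ⟨t', a, b, e1, e2, e3, e4⟩ := hg
    have e1' : s * t * t' = a := congrArg Subtype.val e1
    have e2' : r * t * t' = b := congrArg Subtype.val e2
    have hmem : δ ∈ B := by
      refine ⟨hαδ, t * t', ?_, ?_, ?_, ?_⟩
      · rw [← mul_assoc, e1']; exact a.2
      · rw [← mul_assoc, e2']; exact b.2
      · rw [← mul_assoc]; exact e3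
      · rw [← mul_assoc]; exact e4
    have := hmin δ hmem
    rw [← hδ] at this
    exact absurd this (not_le.2 (Order.lt_succ δ))
  · obtain ⟨γ1, l1, h1'⟩ := T.lim _ hl _ h1
    obtain ⟨γ2, l2, h2'⟩ := T.lim _ hl _ h2
    have hmem : max α (max γ1 γ2) ∈ B :=
      ⟨le_max_left _ _, t, T.mono ((le_max_left _ _).trans (le_max_right _ _)) h1',
        T.mono ((le_max_right _ _).trans (le_max_right _ _)) h2', h3, h4⟩
    exact absurd (hmin _ hmem) (not_le.2 (max_lt hlt (max_lt l1 l2)))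



/-- restriction of a closed set of `P` to `A α` -/
def cres (C : Closed P) (α : Ordinal.{0}) : Closed (T.A α) :=
  ccomap C (T.A α).subtype (T.cons α)








/-! ### closing off -/



end tower


section tower2
variable {P : Type 1} [Monoid P] (T : Tower P)





end tower2

end Crest.Agent.R296.Resx70
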