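import Crest.Agent.R296.IfA_378
import Crest.Agent.R296.LctSt_153
import Crest.Agent.R296.Res_70
import Mathlib

-- ▼ part R296/AProp_779
section

/-!
# Row 296, leaf A-PROP (helper779): properties of the monoid `P` of a `Tower`
-/

set_option autoImplicit false

universe u v w

namespace Crest.Agent.R296.APropx779

open Crest.Agent.R296.IfAx378

/-! ## generalities -/

section gen
variable {P : Type u} [Monoid P]

theorem unit_left [IsGood P] {f g : P} (h : f * g = 1) : f = 1 := IsGood.unit f g h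

theorem unit_right [IsGood P] {f g : P} (h : f * g = 1) : g = 1 := by
  have := unit_left h
  subst this
  simpa using h

theorem dvd_one [IsGood P] {f : P} (h : f ∣ 1) : f = 1 := by
  obtain ⟨g, hg⟩ := h
  exact unit_left hg.symm




end gen

section cons
variable {P : Type u} {P' : Type v} [Monoid P] [Monoid P'] {ι : P →* P'}

/-- `fP' ∩ P = fP` -/
theorem cons_dvd [IsGood P'] (h : Cons ι) {f g : P} {x : P'} (hx : ι f * x = ι g) :
    ∃ y, f * y = g ∧ x = ι y := by
  obtain ⟨a, b, t, h1, h2, h3⟩ := h.amal f g x 1 (by rw [hx, mul_one])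
  have hb : ι b = 1 := unit_left h3.symm
  have ht : t = 1 := unit_right h3.symm
  have hb' : b = 1 := h.inj (by rw [hb, map_one])
  subst hb'
  exact ⟨a, by rw [h1, mul_one], by rw [h2, ht, mul_one]⟩






/-- `P` good if `P'` is -/
theorem cons_good [IsGood P'] (h : Cons ι) : IsGood P where
  lc f g k hfg := h.inj (IsGood.lc (ι f) _ _ (by rw [← map_mul, ← map_mul, hfg]))
  unit f g hfg := h.inj (by
    rw [map_one]
    exact IsGood.unit (ι f) (ι g) (by rw [← map_mul, hfg, map_one]))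
  lcm f g x y hxy := by
    obtain ⟨u, v, huv, H⟩ := IsGood.lcm (ι f) (ι g) (ι x) (ι y) (by rw [← map_mul, ← map_mul, hxy])
    obtain ⟨a, b, t, h1, h2, h3⟩ := h.amal f g u v huv
    obtain ⟨s, hs1, hs2⟩ := H (ι a) (ι b) (by rw [← map_mul, ← map_mul, h1])
    have hst : t * s = 1 := IsGood.lc (ι a) _ _ (by rw [← mul_assoc, ← h2, ← hs1, mul_one])
    have ht := unit_left hst
    subst ht
    rw [mul_one] at h2 h3
    subst h2 h3
    refine ⟨a, b, h1, fun x' y' hxy' => ?_⟩
    obtain ⟨s', hs1', hs2'⟩ := H (ι x') (ι y') (by rw [← map_mul, ← map_mul, hxy'])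
    obtain ⟨r, hr, rfl⟩ := cons_dvd h hs1'.symm
    exact ⟨r, hr.symm, h.inj (by rw [hs2', map_mul])⟩

end cons

/-! ## acts: base change, transport of letters, free act -/

section act
variable {P : Type u} {P' : Type v} [Monoid P] [Monoid P'] {J : Type w}

/-- base change of an LCM act along a conservative embedding -/
def baseChange [IsGood P'] (B : LAct P J) (ι : P →* P') (h : Cons ι) : LAct P' J where
  r j x j' x' := ∃ y y' t, B.r j y j' y' ∧ x = ι y * t ∧ x' = ι y' * t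
  refl j x := ⟨1, 1, x, B.refl j 1, by rw [map_one, one_mul], by rw [map_one, one_mul]⟩
  symm j x j' x' := by
    rintro ⟨y, y', t, h1, h2, h3⟩
    exact ⟨y', y, t, B.symm _ _ _ _ h1, h3, h2⟩
  trans j x j' x' j'' x'' := by
    rintro ⟨y, y', t, h1, h2, h3⟩ ⟨z, z', u, h4, h5, h6⟩
    obtain ⟨a, b, v, h7, h8, h9⟩ := h.amal y' z t u (by rw [← h3, ← h5])
    refine ⟨y * a, z' * b, v, ?_, ?_, ?_⟩
    · refine B.trans _ _ _ _ _ _ (B.act _ _ _ _ a h1) ?_
      rw [h7]
      exact B.act _ _ _ _ b h4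
    · rw [h2, h8, map_mul, mul_assoc]
    · rw [h6, h9, map_mul, mul_assoc]
  act j x j' x' p := by
    rintro ⟨y, y', t, h1, h2, h3⟩
    exact ⟨y, y', t * p, h1, by rw [h2, mul_assoc], by rw [h3, mul_assoc]⟩
  free j x x' := by
    rintro ⟨y, y', t, h1, h2, h3⟩
    rw [h2, h3, B.free _ _ _ h1]
  lcm j x j' x' := by
    rintro ⟨y, y', t, h1, h2, h3⟩
    obtain ⟨z, z', h4, h5⟩ := B.lcm _ _ _ _ h1
    refine ⟨ι z, ι z', ⟨z, z', 1, h4, by rw [mul_one], by rw [mul_one]⟩, ?_⟩
    rintro a a' ⟨b, b', s, h6, h7, h8⟩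
    obtain ⟨q, h9, h10⟩ := h5 b b' h6
    exact ⟨ι q * s, by rw [h7, h9, map_mul, mul_assoc], by rw [h8, h10, map_mul, mul_assoc]⟩

theorem baseChange_r [IsGood P'] (B : LAct P J) (ι : P →* P') (h : Cons ι) (j j' : J) (x x' : P) :
    (baseChange B ι h).r j (ι x) j' (ι x') ↔ B.r j x j' x' := by
  constructor
  · rintro ⟨y, y', t, h1, h2, h3⟩
    obtain ⟨t', h4, rfl⟩ := cons_dvd h h2.symm
    rw [← map_mul] at h3
    rw [← h4, h.inj h3]
    exact B.act _ _ _ _ _ h1
  · intro h1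
    exact ⟨x, x', 1, h1, by rw [mul_one], by rw [mul_one]⟩

/-- more letters, the new ones are free -/
def addLetters {J' : Type*} (B : LAct P J) (φ : J → J') (hφ : Function.Injective φ) : LAct P J' where
  r k x k' x' := (k = k' ∧ x = x') ∨ ∃ j j', φ j = k ∧ φ j' = k' ∧ B.r j x j' x'
  refl k x := Or.inl ⟨rfl, rfl⟩
  symm k x k' x' := by
    rintro (⟨rfl, rfl⟩ | ⟨j, j', h1, h2, h3⟩)
    · exact Or.inl ⟨rfl, rfl⟩
    · exact Or.inr ⟨j', j, h2, h1, B.symm _ _ _ _ h3⟩
  trans k x k' x' k'' x'' := by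
    rintro (⟨rfl, rfl⟩ | ⟨j, j', h1, h2, h3⟩) H
    · exact H
    · rcases H with (⟨rfl, rfl⟩ | ⟨i, i', h4, h5, h6⟩)
      · exact Or.inr ⟨j, j', h1, h2, h3⟩
      · have : j' = i := hφ (by rw [h2, h4])
        subst this
        exact Or.inr ⟨j, i', h1, h5, B.trans _ _ _ _ _ _ h3 h6⟩
  act k x k' x' p := by
    rintro (⟨rfl, rfl⟩ | ⟨j, j', h1, h2, h3⟩)
    · exact Or.inl ⟨rfl, rfl⟩
    · exact Or.inr ⟨j, j', h1, h2, B.act _ _ _ _ _ h3⟩
  free k x x' := by
    rintro (⟨-, rfl⟩ | ⟨j, j', h1, h2, h3⟩)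
    · rfl
    · have : j = j' := hφ (by rw [h1, h2])
      subst this
      exact B.free _ _ _ h3
  lcm k x k' x' := by
    intro H
    by_cases hk : k = k'
    · subst hk
      refine ⟨1, 1, Or.inl ⟨rfl, rfl⟩, ?_⟩
      intro z z' Hz
      have : z = z' := by
        rcases Hz with (⟨-, rfl⟩ | ⟨j, j', h1, h2, h3⟩)
        · rfl
        · have : j = j' := hφ (by rw [h1, h2])
          subst this
          exact B.free _ _ _ h3
      exact ⟨z, by rw [one_mul], by rw [one_mul, this]⟩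
    · rcases H with (⟨h, -⟩ | ⟨j, j', h1, h2, h3⟩)
      · exact absurd h hk
      · obtain ⟨y, y', h4, h5⟩ := B.lcm _ _ _ _ h3
        refine ⟨y, y', Or.inr ⟨j, j', h1, h2, h4⟩, ?_⟩
        rintro z z' (⟨h, -⟩ | ⟨i, i', h6, h7, h8⟩)
        · exact absurd h hk
        · have e1 : j = i := hφ (by rw [h1, h6])
          have e2 : j' = i' := hφ (by rw [h2, h7])
          subst e1 e2
          exact h5 z z' h8

theorem addLetters_r {J' : Type*} (B : LAct P J) (φ : J → J') (hφ : Function.Injective φ)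
    (j j' : J) (x x' : P) : (addLetters B φ hφ).r (φ j) x (φ j') x' ↔ B.r j x j' x' := by
  constructor
  · rintro (⟨h1, rfl⟩ | ⟨i, i', h1, h2, h3⟩)
    · have := hφ h1
      subst this
      exact B.refl _ _
    · have e1 := hφ h1
      have e2 := hφ h2
      subst e1 e2
      exact h3
  · intro h
    exact Or.inr ⟨j, j', rfl, rfl, h⟩


/-- consistency of pairwise data `κ j * a j j' = κ j' * a j' j` (if `E j j'`) -/
structure MatOK {P : Type u} [Monoid P] {J : Type w} (E : J → J → Prop) (a : J → J → P) : Prop where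
  er : ∀ j, E j j
  es : ∀ i j, E i j → E j i
  d : ∀ j, a j j = 1
  c : ∀ i j k, i ≠ j → j ≠ k → i ≠ k → E i j → E j k → ∀ t s, a j i * t = a j k * s →
      E i k ∧ ∃ t', a i j * t = a i k * t' ∧ a k j * s = a k i * t'

/-- LCM act from pairwise data: `κ j` and `κ j'` meet (if `E j j'`) exactly in
`κ j * a j j' = κ j' * a j' j` -/
def matAct {P : Type u} [Monoid P] [IsGood P] {J : Type w} (E : J → J → Prop) (a : J → J → P)
    (H : MatOK E a) : LAct P J where
  r j x j' x' := E j j' ∧ ∃ t, x = a j j' * t ∧ x' = a j' j * t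
  refl j x := ⟨H.er j, x, by rw [H.d, one_mul], by rw [H.d, one_mul]⟩
  symm j x j' x' := by
    rintro ⟨h, t, h1, h2⟩
    exact ⟨H.es _ _ h, t, h2, h1⟩
  trans j x j' x' j'' x'' := by
    rintro ⟨h, t, h1, h2⟩ ⟨h', s, h3, h4⟩
    by_cases e1 : j = j'
    · subst e1
      rw [H.d, one_mul] at h1 h2
      exact ⟨h', s, by rw [h1, ← h2, h3], h4⟩
    by_cases e2 : j' = j''
    · subst e2
      rw [H.d, one_mul] at h3 h4
      exact ⟨h, t, h1, by rw [h4, ← h3, h2]⟩
    by_cases e3 : j = j''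
    · subst e3
      have : t = s := IsGood.lc (a j' j) _ _ (by rw [← h2, h3])
      subst this
      exact ⟨H.er _, a j j' * t, by rw [H.d, one_mul, h1], by rw [H.d, one_mul, h4]⟩
    obtain ⟨h5, t', h6, h7⟩ := H.c j j' j'' e1 e2 e3 h h' t s (by rw [← h2, h3])
    exact ⟨h5, t', by rw [h1, h6], by rw [h4, h7]⟩
  act j x j' x' p := by
    rintro ⟨h, t, h1, h2⟩
    exact ⟨h, t * p, by rw [h1, mul_assoc], by rw [h2, mul_assoc]⟩
  free j x x' := by
    rintro ⟨h, t, h1, h2⟩
    rw [h1, h2]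
  lcm j x j' x' := by
    rintro ⟨h, -⟩
    exact ⟨a j j', a j' j, ⟨h, 1, by rw [mul_one], by rw [mul_one]⟩, fun z z' hz => hz.2⟩


/-- letters of a triangle -/
inductive T3 : Type
  | k | h1 | h2

/-- entries of the triangle matrix -/
def triMat {P : Type u} [Monoid P] (c c' g g' : P) : T3 → T3 → P
  | .k, .h1 => g
  | .h1, .k => c
  | .k, .h2 => g'
  | .h2, .k => c
  | .h1, .h2 => c'
  | .h2, .h1 => c'
  | _, _ => 1

/-- `h1 c = k g`, `h2 c = k g'`, `h1 c' = h2 c'` -/
theorem triMat_ok {P : Type u} [Monoid P] {c c' x x' g g' : P} (h : IsLcm c c' x x')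
    (h' : IsLcm g g' x x) : MatOK (fun _ _ => True) (triMat c c' g g') where
  er _ := trivial
  es _ _ _ := trivial
  d := by rintro (_ | _ | _) <;> rfl
  c := by
    intro i j l e1 e2 e3 _ _ t s hts
    refine ⟨trivial, ?_⟩
    rcases i with (_ | _ | _) <;> rcases j with (_ | _ | _) <;> rcases l with (_ | _ | _) <;>
      first
      | exact absurd rfl e1
      | exact absurd rfl e2
      | exact absurd rfl e3
      | skip
    all_goals simp only [triMat] at hts ⊢
    · obtain ⟨r, rfl, rfl⟩ := h.2 _ _ hts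
      exact ⟨x * r, by rw [← mul_assoc, ← mul_assoc, h'.1], by rw [← mul_assoc, ← mul_assoc, h.1]⟩
    · obtain ⟨r, rfl, rfl⟩ := h.2 _ _ hts
      exact ⟨x * r, by rw [← mul_assoc, ← mul_assoc, h'.1], by rw [← mul_assoc, ← mul_assoc, h.1]⟩
    · obtain ⟨r, rfl, rfl⟩ := h'.2 _ _ hts
      exact ⟨x' * r, by rw [← mul_assoc, ← mul_assoc, h.1], by rw [← mul_assoc, ← mul_assoc, h.1]⟩
    · obtain ⟨r, rfl, rfl⟩ := h.2 _ _ hts.symm
      exact ⟨x * r, by rw [← mul_assoc, ← mul_assoc, h.1], by rw [← mul_assoc, ← mul_assoc, h'.1]⟩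
    · obtain ⟨r, rfl, rfl⟩ := h'.2 _ _ hts.symm
      exact ⟨x' * r, by rw [← mul_assoc, ← mul_assoc, h.1], by rw [← mul_assoc, ← mul_assoc, h.1]⟩
    · obtain ⟨r, rfl, rfl⟩ := h.2 _ _ hts.symm
      exact ⟨x * r, by rw [← mul_assoc, ← mul_assoc, h.1], by rw [← mul_assoc, ← mul_assoc, h'.1]⟩

/-- degenerate triangle: `cP ∩ c'P = ∅`, `gP ∩ g'P = ∅` -/
theorem triMat_ok0 {P : Type u} [Monoid P] {c c' g g' : P} (h : Disj c c')
    (h' : Disj g g') : MatOK (fun _ _ => True) (triMat c c' g g') where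
  er _ := trivial
  es _ _ _ := trivial
  d := by rintro (_ | _ | _) <;> rfl
  c := by
    intro i j l e1 e2 e3 _ _ t s hts
    refine ⟨trivial, ?_⟩
    rcases i with (_ | _ | _) <;> rcases j with (_ | _ | _) <;> rcases l with (_ | _ | _) <;>
      first
      | exact absurd rfl e1
      | exact absurd rfl e2
      | exact absurd rfl e3
      | exact absurd hts (h _ _)
      | exact absurd hts.symm (h _ _)
      | exact absurd hts (h' _ _)
      | exact absurd hts.symm (h' _ _)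

end act

/-! ## the tower -/

section tower
variable {P : Type 1} [Monoid P]

theorem exists_even (γ : Ordinal.{0}) : ∃ β, γ ≤ β ∧ β % 2 = 0 :=
  ⟨2 * γ, Ordinal.le_mul_right γ (by norm_num), Ordinal.mul_mod _ _⟩

theorem exists_odd (γ : Ordinal.{0}) : ∃ β, γ ≤ β ∧ β % 2 = 1 := by
  refine ⟨2 * γ + 1, (Ordinal.le_mul_right γ (by norm_num)).trans le_self_add, ?_⟩
  rw [Ordinal.mul_add_mod_self]
  exact Ordinal.mod_eq_of_lt (by norm_num)

/-- a small set is contained in some `A β` -/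
theorem exists_level (T : Tower P) (S : Set P) [Small.{0} S] : ∃ β, ∀ s ∈ S, s ∈ T.A β := by
  choose g hg using T.exh
  obtain ⟨B, hB⟩ := Ordinal.bddAbove_of_small (s := Set.range
    (fun x : Shrink.{0} S => g ((equivShrink S).symm x).1))
  refine ⟨B, fun s hs => T.mono (hB ⟨equivShrink S ⟨s, hs⟩, rfl⟩) ?_⟩
  simpa using hg s

theorem cons_incl (T : Tower P) {β γ : Ordinal.{0}} (h : β ≤ γ) :
    Cons (Submonoid.inclusion (T.mono h)) where
  inj := Submonoid.inclusion_injective _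
  amal f g x' y' hxy := by
    have := T.good
    obtain ⟨x, y, t, h1, h2, h3⟩ := (T.cons β).amal f g x'.1 y'.1 (congrArg Subtype.val hxy)
    obtain ⟨t0, -, rfl⟩ := cons_dvd (T.cons γ) (f := ⟨x.1, T.mono h x.2⟩) (g := x') h2.symm
    exact ⟨x, y, t0, h1, Subtype.ext h2, Subtype.ext h3⟩

theorem good_level (T : Tower P) (β : Ordinal.{0}) : IsGood (T.A β) := by
  have := T.good
  exact cons_good (T.cons β)

/-- `A β` is stable under right division in `P` -/
theorem mem_of_mul_mem (T : Tower P) {β : Ordinal.{0}} {f x : P} (hf : f ∈ T.A β)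
    (hfx : f * x ∈ T.A β) : x ∈ T.A β := by
  have := T.good
  obtain ⟨y, -, rfl⟩ := cons_dvd (T.cons β) (f := ⟨f, hf⟩) (g := ⟨f * x, hfx⟩) (x := x) rfl
  exact y.2

/-- **LetP**: letters of an LCM act over `A γ`, generic over a bigger stage `A γ'` -/
theorem letP (T : Tower P) (γ γ' : Ordinal.{0}) {J : Type} (B : LAct (T.A γ) J) :
    ∃ κ : J → P,
      (∀ j x j' x', B.r j x j' x' ↔ κ j * (x : P) = κ j' * (x' : P)) ∧
      (∀ j j' (w w' : P), κ j * w = κ j' * w' →
        ∃ (x x' : T.A γ) (t : P), B.r j x j' x' ∧ w = x * t ∧ w' = x' * t) ∧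
      (∀ s ∈ T.A γ', ∀ j (w p : P), p ∈ T.A γ' → (p ∣ s * κ j * w ↔ p ∣ s)) := by
  have hP := T.good
  obtain ⟨β, hβ, hβ2⟩ := exists_even (max (max γ γ') (Cardinal.mk J).ord)
  have hγ : γ ≤ β := (le_max_left _ _).trans ((le_max_left _ _).trans hβ)
  have hγ' : γ' ≤ β := (le_max_right _ _).trans ((le_max_left _ _).trans hβ)
  have hJ : Cardinal.mk J ≤ Cardinal.mk β.ToType := by
    rw [Cardinal.mk_toType]
    exact Cardinal.ord_le.1 ((le_max_right _ _).trans hβ)
  obtain ⟨φ⟩ := hJ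
  have := good_level T β
  let B1 := baseChange B _ (cons_incl T hγ)
  let B2 := addLetters B1 φ φ.injective
  have E := T.s1 β hβ2
  let e := Submonoid.inclusion (T.mono (Order.le_succ β))
  refine ⟨fun j => (T.κ β B2 (φ j) : P), fun j x j' x' => ?_, fun j j' w w' h => ?_,
    fun s hs j w p hp => ⟨?_, ?_⟩⟩
  · rw [← baseChange_r B _ (cons_incl T hγ), ← addLetters_r B1 φ φ.injective, E.rel B2 _ _ _ _,
      Subtype.ext_iff]
    rfl
  · obtain ⟨a, b, t, h1, h2, h3⟩ := (T.cons (Order.succ β)).amal _ _ w w' h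
    obtain ⟨-, x, x', t', h4, h5, h6⟩ := E.lcm _ _ _ _ _ _ h1
    rw [addLetters_r B1 φ φ.injective] at h4
    obtain ⟨y, y', u, h7, h8, h9⟩ := h4
    refine ⟨y, y', u * t' * t, h7, ?_, ?_⟩
    · rw [h2, h5, h8]
      simp [mul_assoc]
    · rw [h3, h6, h9]
      simp [mul_assoc]
  · rintro ⟨q, hq⟩
    obtain ⟨a, b, t, h1, -, -⟩ := (T.cons (Order.succ β)).amal
      (e ⟨p, T.mono hγ' hp⟩) (e ⟨s, T.mono hγ' hs⟩ * T.κ β B2 (φ j)) q w hq.symm
    obtain ⟨c, hc⟩ := (E.dvd ⟨s, T.mono hγ' hs⟩ B2 (φ j) b ⟨p, T.mono hγ' hp⟩).1 ⟨a, h1.symm⟩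
    exact ⟨c, congrArg Subtype.val hc⟩
  · rintro ⟨q, rfl⟩
    exact ⟨q * (T.κ β B2 (φ j) : P) * w, by simp [mul_assoc]⟩

/-- `k` is generic over the stage `A γ` -/
def New (T : Tower P) (γ : Ordinal.{0}) (k : P) : Prop :=
  ∀ s ∈ T.A γ, ∀ p ∈ T.A γ, ∀ w, p ∣ s * k * w → p ∣ s

theorem New.mono {T : Tower P} {γ γ' : Ordinal.{0}} {k : P} (h : New T γ' k) (hγ : γ ≤ γ') :
    New T γ k := fun s hs p hp w hw => h s (T.mono hγ hs) p (T.mono hγ hp) w hw

theorem New.disj {T : Tower P} {γ : Ordinal.{0}} {k : P} (h : New T γ k) {s : P}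
    (hs : s ∈ T.A γ) (hs1 : s ≠ 1) : Disj k s := by
  have := T.good
  intro x y hxy
  exact hs1 (dvd_one (h 1 (one_mem _) s hs x (by rw [one_mul, hxy]; exact dvd_mul_right _ _)))

theorem New.ne_one {T : Tower P} {γ : Ordinal.{0}} {k : P} (h : New T γ k) : k ≠ 1 := by
  have := T.good
  rintro rfl
  refine T.f0_ne (dvd_one (h 1 (one_mem _) T.f0 (T.mono (zero_le (a := γ)) T.f0_mem) T.f0 ?_))
  simp

/-- **matrix letters**: letters with prescribed pairwise intersections, generic over `A γ` -/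
theorem matLet (T : Tower P) (γ : Ordinal.{0}) {J : Type} (E : J → J → Prop) (a : J → J → P)
    (H : MatOK E a) : ∃ κ : J → P,
      (∀ j j', E j j' → IsLcm (κ j) (κ j') (a j j') (a j' j)) ∧
      (∀ j j', ¬ E j j' → Disj (κ j) (κ j')) ∧ ∀ j, New T γ (κ j) := by
  obtain ⟨β, hβ⟩ := exists_level T (Set.range fun q : J × J => a q.1 q.2)
  have hβ' : ∀ j j', a j j' ∈ T.A β := fun j j' => hβ _ ⟨(j, j'), rfl⟩
  have := good_level T β
  let a' : J → J → T.A β := fun j j' => ⟨a j j', hβ' j j'⟩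
  have H' : MatOK E a' :=
    { er := H.er
      es := H.es
      d := fun j => Subtype.ext (H.d j)
      c := fun i j k e1 e2 e3 h1 h2 t s hts => by
        obtain ⟨h3, t', h4, h5⟩ := H.c i j k e1 e2 e3 h1 h2 t s (congrArg Subtype.val hts)
        have ht' : t' ∈ T.A β := mem_of_mul_mem T (hβ' i k) (by
          rw [← h4]
          exact mul_mem (hβ' i j) t.2)
        exact ⟨h3, ⟨t', ht'⟩, Subtype.ext h4, Subtype.ext h5⟩ }
  obtain ⟨κ, h1, h2, h3⟩ := letP T β γ (matAct E a' H')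
  refine ⟨κ, fun j j' hE => ⟨?_, ?_⟩, fun j j' hE w w' hw => ?_, fun j s hs p hp w hw =>
    (h3 s hs j w p hp).1 hw⟩
  · exact (h1 j (a' j j') j' (a' j' j)).1 ⟨hE, 1, by rw [mul_one], by rw [mul_one]⟩
  · intro w w' hw
    obtain ⟨x, x', t, ⟨-, r, rfl, rfl⟩, rfl, rfl⟩ := h2 j j' w w' hw
    exact ⟨r * t, by simp [a', mul_assoc], by simp [a', mul_assoc]⟩
  · obtain ⟨x, x', t, ⟨h, -⟩, -, -⟩ := h2 j j' w w' hw
    exact hE h

/-- **(Tri)**, strong form -/
theorem triS (T : Tower P) (γ : Ordinal.{0}) {c c' x x' g g' : P} (h : IsLcm c c' x x')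
    (h' : IsLcm g g' x x) : ∃ k h1 h2 : P, IsLcm k h1 g c ∧ IsLcm k h2 g' c ∧ IsLcm h1 h2 c' c' ∧
      New T γ k ∧ New T γ h1 ∧ New T γ h2 := by
  obtain ⟨κ, h1, -, h3⟩ := matLet T γ _ _ (triMat_ok h h')
  exact ⟨κ .k, κ .h1, κ .h2, h1 .k .h1 trivial, h1 .k .h2 trivial, h1 .h1 .h2 trivial,
    h3 _, h3 _, h3 _⟩

/-- **(Tri)**, degenerate case, strong form -/
theorem triS0 (T : Tower P) (γ : Ordinal.{0}) {c c' g g' : P} (h : Disj c c') (h' : Disj g g') :
    ∃ k h1 h2 : P, IsLcm k h1 g c ∧ IsLcm k h2 g' c ∧ IsLcm h1 h2 c' c' ∧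
      New T γ k ∧ New T γ h1 ∧ New T γ h2 := by
  obtain ⟨κ, h1, -, h3⟩ := matLet T γ _ _ (triMat_ok0 h h')
  exact ⟨κ .k, κ .h1, κ .h2, h1 .k .h1 trivial, h1 .k .h2 trivial, h1 .h1 .h2 trivial,
    h3 _, h3 _, h3 _⟩



/-- new free letter, level form -/
theorem letL (T : Tower P) (γ : Ordinal.{0}) : ∃ k : P, New T γ k := by
  have H : MatOK (P := P) (J := Unit) (fun _ _ => True) (fun _ _ => 1) :=
    ⟨fun _ => trivial, fun _ _ _ => trivial, fun _ => rfl,
      fun i j _ h => absurd (Subsingleton.elim i j) h⟩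
  obtain ⟨κ, -, -, h⟩ := matLet T γ _ _ H
  exact ⟨κ (), h ()⟩


/-- new free letter, small sets -/
theorem letS (T : Tower P) (S : Set P) [Small.{0} S] (h1 : (1 : P) ∉ S) :
    ∃ k : P, k ≠ 1 ∧ ∀ s ∈ S, Disj k s := by
  obtain ⟨γ, hγ⟩ := exists_level T S
  obtain ⟨k, hk⟩ := letL T γ
  exact ⟨k, hk.ne_one, fun s hs => hk.disj (hγ s hs) (fun h => h1 (h ▸ hs))⟩


/-- datum of a generic letter `y a = b` -/
def genDatum {Q : Type u} [Monoid Q] [IsGood Q] (a b : Q) (ha : a ≠ 1) (hb : b ≠ 1) : Datum Q where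
  C := Closed.univ Q
  a := a
  b := b
  a_ne := ha
  b_mem := ⟨fun s hs => by rw [show s = 1 from hs]; exact one_dvd _,
    fun s r x h hx => by rw [hx, h.1, h.2]⟩
  ex_p := ⟨1, ⟨fun s hs => by rw [show s = 1 from hs], fun s r x h hx => by rw [hx, h.1, h.2]⟩,
    one_dvd _, fun h => hb (dvd_one h)⟩

/-- **Gen**, level form: `y a = b` and `y` is generic over `A γ` -/
theorem genL (T : Tower P) (γ : Ordinal.{0}) (a b : P) (ha : a ≠ 1) (hb : b ≠ 1) :
    ∃ y, y * a = b ∧ (∀ s ∈ T.A γ, ∀ p ∈ T.A γ, ∀ x, p ∣ s * y * x → p ∣ s ∨ a ∣ x) ∧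
      ∀ s ∈ T.A γ, ∀ x, s * y * x ∈ T.A γ → a ∣ x := by
  have hP := T.good
  obtain ⟨β1, hβ1⟩ := exists_level T {a, b}
  obtain ⟨β, hβ, hβ2⟩ := exists_odd (max γ β1)
  have hγ : γ ≤ β := (le_max_left _ _).trans hβ
  have ha' : a ∈ T.A β := T.mono ((le_max_right _ _).trans hβ) (hβ1 a (by simp))
  have hb' : b ∈ T.A β := T.mono ((le_max_right _ _).trans hβ) (hβ1 b (by simp))
  have := good_level T β
  have E := T.s2 β hβ2
  let d : Datum (T.A β) := genDatum ⟨a, ha'⟩ ⟨b, hb'⟩ (fun h => ha (congrArg Subtype.val h))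
    (fun h => hb (congrArg Subtype.val h))
  let e := Submonoid.inclusion (T.mono (Order.le_succ β))
  refine ⟨(T.y β (Ltr.base d) : P), ?_, fun s hs p hp x hx => ?_, fun s hs x hx => ?_⟩
  · have := E.rel (Ltr.base d) ⟨b, hb'⟩ (by simp [Ltr.base, d, genDatum])
    have := congrArg Subtype.val this
    simpa [Ltr.base, d, genDatum] using this
  · by_contra hcon
    push Not at hcon
    obtain ⟨h1, h2⟩ := hcon
    obtain ⟨q, hq⟩ := hx
    let s' : T.A β := ⟨s, T.mono hγ hs⟩
    let p' : T.A β := ⟨p, T.mono hγ hp⟩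
    obtain ⟨c, z, t, h3, h4, h5⟩ := (T.cons (Order.succ β)).amal
      (e p') (e s' * T.y β (Ltr.base d)) q x hq.symm
    have h6 : ¬ e ⟨a, ha'⟩ ∣ z := by
      rintro ⟨r, rfl⟩
      exact h2 ⟨r * t, by rw [h5]; simp [e, mul_assoc]⟩
    have h7 := E.act s' (Ltr.base d)
    have h8 : T.y β ((Ltr.base d).smul s') * z = e p' * c := by
      rw [← h7, h3]
    rcases E.nf c with ⟨c0, rfl⟩ | ⟨l, w, rfl, hw⟩
    · exact E.new _ z (p' * c0) h6 (by rw [h8, map_mul])
    · rw [← mul_assoc, E.act] at h8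
      obtain ⟨⟨h9, r, r', h10, h11⟩, -⟩ := E.uniq ((Ltr.base d).smul s') z (l.smul p') w h6 hw h8
      have h12 : r = 1 := by simpa [Ltr.smul, Ltr.base] using h11.1
      subst h12
      apply h1
      refine ⟨(l.s * r' : T.A β), ?_⟩
      have := congrArg Subtype.val h10
      simpa [Ltr.smul, Ltr.base, mul_assoc, s', p'] using this
  · by_contra hcon
    rw [mul_assoc] at hx
    have hx2 := T.mono hγ (mem_of_mul_mem T hs hx)
    obtain ⟨z, hz, rfl⟩ := cons_dvd (T.cons (Order.succ β)) (f := T.y β (Ltr.base d))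
      (g := e ⟨_, hx2⟩) (x := x) rfl
    refine E.new (Ltr.base d) z ⟨_, hx2⟩ ?_ hz
    rintro ⟨r, rfl⟩
    exact hcon ⟨r, rfl⟩

/-- **(Gen)** for small sets `S` -/
theorem genS (T : Tower P) (a b : P) (S : Set P) [Small.{0} S] (ha : a ≠ 1) (hb : b ≠ 1) :
    ∃ y, y * a = b ∧ ∀ s ∈ S, s ≠ 1 → ∀ x, s ∣ y * x → b ∣ y * x := by
  have := T.good
  obtain ⟨γ, hγ⟩ := exists_level T S
  obtain ⟨y, h1, h2, -⟩ := genL T γ a b ha hb
  refine ⟨y, h1, fun s hs hs1 x hx => ?_⟩
  rcases h2 1 (one_mem _) s (hγ s hs) x (by rwa [one_mul]) with h | ⟨c, rfl⟩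
  · exact absurd (dvd_one h) hs1
  · exact ⟨c, by rw [← mul_assoc, h1]⟩







end tower

end Crest.Agent.R296.APropx779
namespace Crest.Agent.R296.APropx779.IsLcm
end Crest.Agent.R296.APropx779.IsLcm
private theorem rz_e066a656c3 : type_of% @_root_.Crest.Agent.R296.APropx779.triMat.eq_1 := @_root_.Crest.Agent.R296.APropx779.triMat.eq_1 -- L282
end

-- ▼ part R296/AKit_779
section

/-!
# Row 296 (helper779): the `Kit` of helper153 from a `Tower` (fields gen, letr, tri, triD)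
-/

set_option autoImplicit false

namespace Crest.Agent.R296.AKitx779

open Crest.Agent.R296.IfAx378 Crest.Agent.R296.APropx779 Crest.Agent.R296.LctStx153

variable {P : Type 1} [Monoid P] (T : Tower P)

include T

theorem kit_gen : GenS P := by
  intro a b S ha hb hS h1
  obtain ⟨y, hy, h⟩ := genS T a b S ha hb
  exact ⟨y, hy, fun s hs => h s hs (fun e => h1 (e ▸ hs))⟩

theorem kit_let : LetS P := fun S _ h1 => letS T S h1

theorem kit_tri : TriX P := by
  intro c c' x x' g g' h h'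
  obtain ⟨k, h1, h2, e1, e2, e3, -⟩ := triS T 0 h h'
  exact ⟨k, h1, h2, e1.1.symm, e2.1.symm, e3.1, e1.2, e2.2, e3.2⟩

theorem kit_triD : TriXD P := by
  intro c c' g g' h h'
  obtain ⟨k, h1, h2, e1, e2, e3, -⟩ := triS0 T 0 h h'
  exact ⟨k, h1, h2, e1.1.symm, e2.1.symm, e3.1, e1.2, e2.2, e3.2⟩

end Crest.Agent.R296.AKitx779
end

-- ▼ part R296/KitT_70
section

/-! Row 296 (S0448): `Kit P T.A` (facts of block A used by block C) from a tower (helper70). -/

set_option autoImplicit false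

namespace Crest.Agent.R296.KitTx70

open Crest.Agent.R296.IfAx378 Crest.Agent.R296.Resx70 Crest.Agent.R296.LctStx153

variable {P : Type 1} [Monoid P] (T : Tower P)

theorem kit (hcap : StCap T) (hgen : GenS P) (hlet : LetS P) (htri : TriX P) (htriD : TriXD P) :
    Kit P T.A where
  good := T.good
  mono := T.mono
  small := T.small
  exh := T.exh
  lim := T.lim
  gen := hgen
  letr := hlet
  tri := htri
  triD := htriD
  cap := hcap
  germ F α hF u v hu h := by
    obtain ⟨t, h1, h2, h3, -⟩ := tGerm T (F := F.S) (G := F.S) (α := α) hF hF (s := v) (r := u) hu h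
    exact ⟨t, h2, h1, h3⟩

end Crest.Agent.R296.KitTx70
end

-- ▼ part R296/TowT_281
section

/-!
# Row 296, block A, leaf A-TOW, part 1: transport of the interface structures along isomorphisms
(helper281)
-/

set_option autoImplicit false

universe u v w u' v'

namespace Crest.Agent.R296.TowTx281

open IfAx378

section good
variable {P : Type u} {Q : Type v} [Monoid P] [Monoid Q]

theorem isGood_tr (e : P ≃* Q) (h : IsGood Q) : IsGood P where
  lc f g k hfg := e.injective (h.lc (e f) _ _ (by simpa using congrArg e hfg))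
  unit f g hfg := e.injective (by simpa using h.unit (e f) (e g) (by simpa using congrArg e hfg))
  lcm f g x y hxy := by
    obtain ⟨u, v, huv, H⟩ := h.lcm (e f) (e g) (e x) (e y) (by simpa using congrArg e hxy)
    refine ⟨e.symm u, e.symm v, e.injective (by simpa using huv), fun x' y' h' => ?_⟩
    obtain ⟨t, h1, h2⟩ := H (e x') (e y') (by simpa using congrArg e h')
    exact ⟨e.symm t, e.injective (by simpa using h1), e.injective (by simpa using h2)⟩

theorem dvd_tr (e : P ≃* Q) {x y : P} : e x ∣ e y ↔ x ∣ y := map_dvd_iff e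

end good

section cons
variable {P : Type u} {P' : Type v} {Q : Type u'} {Q' : Type v'}
  [Monoid P] [Monoid P'] [Monoid Q] [Monoid Q']

theorem cons_tr (ι : P →* P') (ι' : Q →* Q') (e : P ≃* Q) (e' : P' ≃* Q')
    (hc : ∀ p, e' (ι p) = ι' (e p)) (h : Cons ι') : Cons ι where
  inj x y hxy := e.injective (h.inj (by rw [← hc, ← hc, hxy]))
  amal f g x' y' hh := by
    obtain ⟨x, y, t, h1, h2, h3⟩ := h.amal (e f) (e g) (e' x') (e' y')
      (by rw [← hc, ← hc, ← map_mul, ← map_mul, hh])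
    refine ⟨e.symm x, e.symm y, e'.symm t, e.injective (by simpa using h1), ?_, ?_⟩
    · apply e'.injective
      rw [map_mul, hc, h2]
      simp
    · apply e'.injective
      rw [map_mul, hc, h3]
      simp

theorem cons_comp {P : Type u} {P' : Type v} {P'' : Type w} [Monoid P] [Monoid P'] [Monoid P'']
    (ι : P →* P') (ι' : P' →* P'') (h : Cons ι) (h' : Cons ι') : Cons (ι'.comp ι) where
  inj := h'.inj.comp h.inj
  amal f g x'' y'' hh := by
    obtain ⟨x', y', t, h1, h2, h3⟩ := h'.amal (ι f) (ι g) x'' y'' hh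
    obtain ⟨x, y, s, h4, h5, h6⟩ := h.amal f g x' y' h1
    refine ⟨x, y, ι' s * t, h4, ?_, ?_⟩
    · rw [h2, h5, map_mul, mul_assoc]; rfl
    · rw [h3, h6, map_mul, mul_assoc]; rfl

end cons

/-! ## (S1) -/

section s1

/-- transport of an act -/
def lmap {P : Type u} {Q : Type v} [Monoid P] [Monoid Q] {J : Type w} (e : P ≃* Q)
    (a : LAct P J) : LAct Q J where
  r j x j' x' := a.r j (e.symm x) j' (e.symm x')
  refl j x := a.refl _ _
  symm j x j' x' h := a.symm _ _ _ _ h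
  trans j x j' x' j'' x'' h h' := a.trans _ _ _ _ _ _ h h'
  act j x j' x' p h := by
    simpa using a.act _ _ _ _ (e.symm p) h
  free j x x' h := e.symm.injective (a.free _ _ _ h)
  lcm j x j' x' h := by
    obtain ⟨y, y', h1, h2⟩ := a.lcm _ _ _ _ h
    refine ⟨e y, e y', by simpa using h1, fun z z' hz => ?_⟩
    obtain ⟨t, h3, h4⟩ := h2 _ _ hz
    refine ⟨e t, ?_, ?_⟩
    · apply e.symm.injective; simpa using h3
    · apply e.symm.injective; simpa using h4

theorem lmap_r {P : Type u} {Q : Type v} [Monoid P] [Monoid Q] {J : Type w} (e : P ≃* Q)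
    (a : LAct P J) (j : J) (x : P) (j' : J) (x' : P) :
    (lmap e a).r j (e x) j' (e x') ↔ a.r j x j' x' := by
  simp [lmap]

theorem lmap_inj {P : Type u} {Q : Type v} [Monoid P] [Monoid Q] {J : Type w} (e : P ≃* Q) :
    Function.Injective (lmap (J := J) e) := by
  intro a b h
  ext j x j' x'
  rw [← lmap_r e, h, lmap_r]

/-- (S1) step with all acts on `J` letters -/
def S1Id {P : Type u} {P' : Type v} [Monoid P] [Monoid P'] (J : Type w) (ι : P →* P') : Prop :=
  ∃ κ : LAct P J → J → P', S1Ext (fun i : LAct P J => i) ι κ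

variable {P : Type u} {P' : Type v} {Q : Type u'} {Q' : Type v'}
  [Monoid P] [Monoid P'] [Monoid Q] [Monoid Q']

theorem s1_tr (J : Type w) (ι : P →* P') (ι' : Q →* Q') (e : P ≃* Q) (e' : P' ≃* Q')
    (hc : ∀ p, e' (ι p) = ι' (e p)) (h : S1Id J ι') : S1Id J ι := by
  obtain ⟨κ, h⟩ := h
  refine ⟨fun i j => e'.symm (κ (lmap e i) j), ⟨isGood_tr e' h.good, cons_tr ι ι' e e' hc h.cons,
    ?_, ?_, ?_, ?_, ?_⟩⟩
  · intro i j x j' x'
    rw [← lmap_r e, h.rel, ← hc, ← hc, ← e'.injective.eq_iff (a := e'.symm _ * ι x)]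
    simp
  · intro i j i' j' w w' hw
    obtain ⟨h1, x, x', t, h2, h3, h4⟩ := h.lcm (lmap e i) j (lmap e i') j' (e' w) (e' w')
      (by simpa using congrArg e' hw)
    refine ⟨lmap_inj e h1, e.symm x, e.symm x', e'.symm t, ?_, ?_, ?_⟩
    · exact h2
    · apply e'.injective
      rw [map_mul, hc, h3]; simp
    · apply e'.injective
      rw [map_mul, hc, h4]; simp
  · intro w
    rcases h.nf (e' w) with ⟨p, hp⟩ | ⟨s, i, j, w', hw⟩
    · left
      refine ⟨e.symm p, e'.injective ?_⟩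
      rw [hp, hc]; simp
    · right
      refine ⟨e.symm s, lmap e.symm i, j, e'.symm w', e'.injective ?_⟩
      have : lmap e (lmap e.symm i) = i := by
        ext a b c d; simp [lmap]
      rw [hw, map_mul, map_mul, hc]
      simp [this]
  · intro s i j w' p hp
    apply h.new (e s) (lmap e i) j (e' w') (e p)
    rw [← hc, ← hc, ← hp]
    simp
  · intro s i j w' p
    rw [← dvd_tr e, ← h.dvd (e s) (lmap e i) j (e' w') (e p), ← dvd_tr e', ← hc, ← hc]
    simp

end s1

/-! ## (S2) -/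

section s2

/-- transport of a closed set -/
def cmap {P : Type u} {Q : Type v} [Monoid P] [Monoid Q] (e : P ≃* Q) (C : Closed P) :
    Closed Q where
  S := {q | e.symm q ∈ C.S}
  one := by simpa using C.one
  up x s h hs := C.up (e.symm x) (e.symm s) ((dvd_tr e.symm).2 h) hs
  dir s t hs ht := by
    obtain ⟨m, hm, h1, h2⟩ := C.dir _ _ hs ht
    refine ⟨e m, by simpa using hm, ?_, ?_⟩
    · rw [← dvd_tr e.symm]; simpa using h1
    · rw [← dvd_tr e.symm]; simpa using h2
  R s r := C.R (e.symm s) (e.symm r)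
  dom s r h := C.dom _ _ h
  refl s h := C.refl _ h
  symm s r h := C.symm _ _ h
  trans s r q h h' := C.trans _ _ _ h h'
  act s r t h ht := by
    have := C.act _ _ (e.symm t) h (by simpa using ht)
    simpa using this
  shrink s r t h := C.shrink _ _ (e.symm t) (by simpa using h)

variable {P : Type u} {P' : Type v} {Q : Type u'} {Q' : Type v'}
  [Monoid P] [Monoid P'] [Monoid Q] [Monoid Q']

theorem cmap_S (e : P ≃* Q) (C : Closed P) (p : P) : e p ∈ (cmap e C).S ↔ p ∈ C.S := by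
  simp [cmap]

theorem cmap_R (e : P ≃* Q) (C : Closed P) (p q : P) : (cmap e C).R (e p) (e q) ↔ C.R p q := by
  simp [cmap]

theorem cmap_mem (e : P ≃* Q) (C : Closed P) (z : P) : (cmap e C).Mem (e z) ↔ C.Mem z := by
  constructor
  · rintro ⟨h1, h2⟩
    refine ⟨fun s hs => (dvd_tr e).1 (h1 _ ((cmap_S e C s).2 hs)), fun s r x hR hz => ?_⟩
    exact e.injective (by simpa using h2 (e s) (e r) (e x) ((cmap_R e C s r).2 hR) (by simp [hz]))
  · rintro ⟨h1, h2⟩
    refine ⟨fun s hs => ?_, fun s r x hR hz => ?_⟩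
    · have := (dvd_tr e).2 (h1 _ hs)
      simpa using this
    · have := h2 (e.symm s) (e.symm r) (e.symm x) hR
        (e.injective (by simpa using hz))
      simpa using congrArg e this

/-- transport of a datum -/
def dmap (e : P ≃* Q) (d : Datum P) : Datum Q where
  C := cmap e d.C
  a := e d.a
  b := e d.b
  a_ne := by simpa using d.a_ne
  b_mem := (cmap_mem e _ _).2 d.b_mem
  ex_p := by
    obtain ⟨p, h1, h2, h3⟩ := d.ex_p
    exact ⟨e p, (cmap_mem e _ _).2 h1, (dvd_tr e).2 h2, fun h => h3 ((dvd_tr e).1 h)⟩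

theorem cmap_symm (e : P ≃* Q) (C : Closed P) : cmap e.symm (cmap e C) = C := by
  have h1 : (cmap e.symm (cmap e C)).S = C.S := by
    ext x; simp [cmap]
  have h2 : (cmap e.symm (cmap e C)).R = C.R := by
    funext x y; simp [cmap]
  cases C
  rename_i F R _ _ _ _ _ _
  cases F
  simp [cmap] at h1 h2 ⊢

theorem dmap_symm (e : P ≃* Q) (d : Datum P) : dmap e.symm (dmap e d) = d := by
  ext1
  · exact cmap_symm e d.C
  · simp [dmap]
  · simp [dmap]

/-- transport of a letter -/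
def ymap (e : P ≃* Q) (l : Ltr P) : Ltr Q where
  d := dmap e l.d
  s := e l.s
  r := e l.r
  hr := (cmap_S e _ _).2 l.hr

theorem ymap_symm (e : P ≃* Q) (l : Ltr P) : ymap e.symm (ymap e l) = l := by
  obtain ⟨d, s, r, hr⟩ := l
  have := dmap_symm e d
  simp only [ymap]
  simp only [MulEquiv.symm_apply_apply]
  congr

theorem ymap_symm' (e : P ≃* Q) (l : Ltr Q) : ymap e (ymap e.symm l) = l := by
  simpa using ymap_symm e.symm l

theorem ymap_eqv (e : P ≃* Q) (l l' : Ltr P) : (ymap e l).Eqv (ymap e l') ↔ l.Eqv l' := by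
  have key : ∀ {P : Type u} {Q : Type u'} [Monoid P] [Monoid Q] (e : P ≃* Q) (l l' : Ltr P),
      l.Eqv l' → (ymap e l).Eqv (ymap e l') := by
    intro P Q _ _ e l l' h
    obtain ⟨h1, t, t', h2, h3⟩ := h
    refine ⟨by simp [ymap, h1], e t, e t', ?_, ?_⟩
    · simp [ymap, ← map_mul, h2]
    · simp only [ymap, dmap, ← map_mul]
      exact (cmap_R e _ _ _).2 h3
  have key' : ∀ {P : Type u'} {Q : Type u} [Monoid P] [Monoid Q] (e : P ≃* Q) (l l' : Ltr P),
      l.Eqv l' → (ymap e l).Eqv (ymap e l') := by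
    intro P Q _ _ e l l' h
    obtain ⟨h1, t, t', h2, h3⟩ := h
    refine ⟨by simp [ymap, h1], e t, e t', ?_, ?_⟩
    · simp [ymap, ← map_mul, h2]
    · simp only [ymap, dmap, ← map_mul]
      exact (cmap_R e _ _ _).2 h3
  refine ⟨fun h => ?_, key e l l'⟩
  simpa [ymap_symm] using key' e.symm _ _ h

/-- (S2) step with all data -/
def S2Id {P : Type u} {P' : Type v} [Monoid P] [Monoid P'] (ι : P →* P') : Prop :=
  ∃ (y : Ltr P → P') (len : P' → ℕ), S2All ι y len

theorem s2_tr (ι : P →* P') (ι' : Q →* Q') (e : P ≃* Q) (e' : P' ≃* Q')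
    (hc : ∀ p, e' (ι p) = ι' (e p)) (h : S2Id ι') : S2Id ι := by
  obtain ⟨y, len, h⟩ := h
  have hn : ∀ (l : Ltr P) (x : P'), ¬ ι l.d.a ∣ x ↔ ¬ ι' (ymap e l).d.a ∣ e' x := by
    intro l x
    rw [← dvd_tr e', hc]; rfl
  refine ⟨fun l => e'.symm (y (ymap e l)), fun w => len (e' w), ⟨isGood_tr e' h.good,
    cons_tr ι ι' e e' hc h.cons, ?_, ?_, ?_, ?_, ?_, ?_, ?_, ?_, ?_⟩⟩
  · intro l l'
    rw [← ymap_eqv e, h.eqv]
    simp
  · intro p l
    apply e'.injective
    rw [map_mul, hc]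
    simp only [MulEquiv.apply_symm_apply]
    rw [h.act]
    congr 1
    simp [ymap, Ltr.smul]
  · intro l x hx
    apply e'.injective
    rw [map_mul, hc, hc]
    simp only [MulEquiv.apply_symm_apply]
    have := h.rel (ymap e l) (e x) (by simp [ymap, dmap, hx])
    simpa [ymap, dmap] using this
  · intro p
    simp [hc, h.len_ι]
  · intro p w
    simp [hc, h.len_mul]
  · intro l x hx
    have := h.len_y (ymap e l) (e' x) ((hn l x).1 hx)
    simpa using this
  · intro w
    rcases h.nf (e' w) with ⟨p, hp⟩ | ⟨l, x, h1, h2⟩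
    · left
      refine ⟨e.symm p, e'.injective ?_⟩
      rw [hp, hc]; simp
    · right
      refine ⟨ymap e.symm l, e'.symm x, e'.injective ?_, ?_⟩
      · rw [h1]; simp [ymap_symm']
      · rw [hn, ymap_symm']
        simpa using h2
  · intro l x p hx hp
    apply h.new (ymap e l) (e' x) (e p) ((hn l x).1 hx)
    rw [← hc, ← hp]; simp
  · intro l x l' x' hx hx' hh
    obtain ⟨h1, h2⟩ := h.uniq (ymap e l) (e' x) (ymap e l') (e' x') ((hn l x).1 hx)
      ((hn l' x').1 hx') (by simpa using congrArg e' hh)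
    exact ⟨(ymap_eqv e _ _).1 h1, e'.injective h2⟩

end s2

end Crest.Agent.R296.TowTx281
end

-- ▼ part R296/TowG_281
section

/-!
# Row 296, block A, leaf A-TOW, part 2: monoids on subsets of one carrier (helper281)
-/

set_option autoImplicit false

universe u v w

namespace Crest.Agent.R296.TowGx281

open IfAx378 TowTx281

/-- the carrier -/
abbrev Om : Type 1 := Ordinal.{0}

/-- a monoid on a subset of the carrier -/
structure GM where
  X : Set Om
  op : Om → Om → Om
  o : Om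
  o_mem : o ∈ X
  op_mem : ∀ x ∈ X, ∀ y ∈ X, op x y ∈ X
  assoc : ∀ x ∈ X, ∀ y ∈ X, ∀ z ∈ X, op (op x y) z = op x (op y z)
  o_op : ∀ x ∈ X, op o x = x
  op_o : ∀ x ∈ X, op x o = x

instance (G : GM) : Monoid G.X where
  mul x y := ⟨G.op x.1 y.1, G.op_mem _ x.2 _ y.2⟩
  one := ⟨G.o, G.o_mem⟩
  mul_assoc x y z := Subtype.ext (G.assoc _ x.2 _ y.2 _ z.2)
  one_mul x := Subtype.ext (G.o_op _ x.2)
  mul_one x := Subtype.ext (G.op_o _ x.2)

theorem coe_mul (G : GM) (x y : G.X) : ((x * y : G.X) : Om) = G.op x y := rfl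
theorem coe_one (G : GM) : ((1 : G.X) : Om) = G.o := rfl

/-- extension -/
structure Sub (G G' : GM) : Prop where
  sub : G.X ⊆ G'.X
  o : G'.o = G.o
  op : ∀ x ∈ G.X, ∀ y ∈ G.X, G'.op x y = G.op x y

/-- the inclusion -/
def Sub.incl {G G' : GM} (h : Sub G G') : G.X →* G'.X where
  toFun x := ⟨x.1, h.sub x.2⟩
  map_one' := Subtype.ext (by rw [coe_one, coe_one]; exact h.o.symm)
  map_mul' x y := Subtype.ext (by simp only [coe_mul]; exact (h.op _ x.2 _ y.2).symm)

@[simp] theorem coe_incl {G G' : GM} (h : Sub G G') (x : G.X) : ((h.incl x : G'.X) : Om) = x := rfl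

theorem Sub.refl (G : GM) : Sub G G := ⟨subset_rfl, rfl, fun _ _ _ _ => rfl⟩

theorem Sub.trans {G G' G'' : GM} (h : Sub G G') (h' : Sub G' G'') : Sub G G'' where
  sub := h.sub.trans h'.sub
  o := h'.o.trans h.o
  op x hx y hy := (h'.op x (h.sub hx) y (h.sub hy)).trans (h.op x hx y hy)

/-- conservative extension -/
def Le (G G' : GM) : Prop := ∃ h : Sub G G', Cons h.incl

theorem Le.refl (G : GM) : Le G G := by
  refine ⟨Sub.refl G, ⟨fun x y h => h, fun f g x' y' h => ⟨x', y', 1, h, ?_, ?_⟩⟩⟩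
  · simp; rfl
  · simp; rfl

theorem Le.trans {G G' G'' : GM} (h : Le G G') (h' : Le G' G'') : Le G G'' := by
  obtain ⟨s, c⟩ := h
  obtain ⟨s', c'⟩ := h'
  exact ⟨s.trans s', cons_comp s.incl s'.incl c c'⟩

/-- the monoid `P'` copied to the carrier along an injection -/
noncomputable def rangeGM {P' : Type} [Monoid P'] (j : P' → Om) (hj : Function.Injective j) : GM where
  X := Set.range j
  op := fun x y => j (Function.invFun j x * Function.invFun j y)
  o := j 1
  o_mem := ⟨1, rfl⟩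
  op_mem := by rintro _ ⟨p, rfl⟩ _ ⟨q, rfl⟩; exact ⟨_, rfl⟩
  assoc := by
    rintro _ ⟨p, rfl⟩ _ ⟨q, rfl⟩ _ ⟨r, rfl⟩
    simp only [Function.leftInverse_invFun hj _, mul_assoc]
  o_op := by rintro _ ⟨p, rfl⟩; simp only [Function.leftInverse_invFun hj _, one_mul]
  op_o := by rintro _ ⟨p, rfl⟩; simp only [Function.leftInverse_invFun hj _, mul_one]

/-- see `rangeGM` -/
noncomputable def rangeEq {P' : Type} [Monoid P'] (j : P' → Om) (hj : Function.Injective j) :
    (rangeGM j hj).X ≃* P' where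
  toFun := fun x => Function.invFun j x.1
  invFun := fun p => ⟨j p, p, rfl⟩
  left_inv := by
    rintro ⟨_, p, rfl⟩
    exact Subtype.ext (by simp only [Function.leftInverse_invFun hj _])
  right_inv := fun p => Function.leftInverse_invFun hj p
  map_mul' := by
    rintro x y
    exact Function.leftInverse_invFun hj _

/-- every injective homomorphism from a small `G` into a small monoid can be realised by an
extension inside the carrier -/
theorem embed (G : GM) [Small.{0} G.X] (P' : Type) [Monoid P'] (φ : G.X →* P')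
    (hφ : Function.Injective φ) :
    ∃ (G' : GM) (h : Sub G G') (e : G'.X ≃* P'), Small.{0} G'.X ∧ ∀ x, e (h.incl x) = φ x := by
  classical
  -- a bound of `X`
  obtain ⟨b, hb⟩ : ∃ b : Om, ∀ x ∈ G.X, x < b := by
    obtain ⟨b, hb⟩ := Ordinal.bddAbove_of_small (s := G.X)
    exact ⟨Order.succ b, fun x hx => Order.lt_succ_of_le (hb hx)⟩
  let j : P' → Om := fun p => if h : ∃ x : G.X, φ x = p then (h.choose : G.X).1 else
    b + Ordinal.typein (WellOrderingRel (α := P')) p
  have j1 : ∀ x : G.X, j (φ x) = x.1 := by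
    intro x
    have h : ∃ z : G.X, φ z = φ x := ⟨x, rfl⟩
    have : j (φ x) = (h.choose : G.X).1 := by simp only [j]; rw [dif_pos h]
    rw [this, hφ h.choose_spec]
  have j2 : ∀ p, (¬ ∃ x : G.X, φ x = p) → j p = b + Ordinal.typein (WellOrderingRel (α := P')) p := by
    intro p hp
    simp only [j]; rw [dif_neg hp]
  have hj : Function.Injective j := by
    intro p q hpq
    by_cases hp : ∃ x : G.X, φ x = p <;> by_cases hq : ∃ x : G.X, φ x = q
    · obtain ⟨x, rfl⟩ := hp
      obtain ⟨y, rfl⟩ := hq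
      rw [j1, j1] at hpq
      rw [Subtype.ext hpq]
    · obtain ⟨x, rfl⟩ := hp
      rw [j1, j2 q hq] at hpq
      have := hb _ x.2
      rw [hpq] at this
      exact absurd this (not_lt.2 le_self_add)
    · obtain ⟨x, rfl⟩ := hq
      rw [j1, j2 p hp] at hpq
      have := hb _ x.2
      rw [← hpq] at this
      exact absurd this (not_lt.2 le_self_add)
    · rw [j2 p hp, j2 q hq] at hpq
      exact Ordinal.typein_injective (WellOrderingRel (α := P')) (by simpa using hpq)
  have hk : ∀ p, Function.invFun j (j p) = p := fun p => Function.leftInverse_invFun hj p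
  have hS : Sub G (rangeGM j hj) :=
    { sub := fun x hx => ⟨φ ⟨x, hx⟩, j1 ⟨x, hx⟩⟩
      o := by
        change j 1 = G.o
        have := j1 (1 : G.X)
        rw [map_one] at this
        exact this
      op := by
        intro x hx y hy
        change j (Function.invFun j x * Function.invFun j y) = _
        have h1 : Function.invFun j x = φ ⟨x, hx⟩ := by rw [← hk (φ ⟨x, hx⟩), j1]
        have h2 : Function.invFun j y = φ ⟨y, hy⟩ := by rw [← hk (φ ⟨y, hy⟩), j1]
        rw [h1, h2, ← map_mul, j1]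
        rfl }
  refine ⟨rangeGM j hj, hS, rangeEq j hj, small_range j, fun x => ?_⟩
  change Function.invFun j x.1 = φ x
  rw [← j1 x, hk]

/-! ## the steps -/

/-- `G ≤ G'` is an (S1) step with `J` -/
def IsS1 (J : Type) (G G' : GM) : Prop := ∃ h : Sub G G', S1Id J h.incl

/-- `G ≤ G'` is an (S2) step -/
def IsS2 (G G' : GM) : Prop := ∃ h : Sub G G', S2Id h.incl

theorem exS1 (H1 : StS1) (J : Type) (G : GM) (hs : Small.{0} G.X) (hG : IsGood G.X) :
    ∃ G', Le G G' ∧ Small.{0} G'.X ∧ IsGood G'.X ∧ IsS1 J G G' := by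
  let e : G.X ≃* Shrink.{0} G.X := Shrink.mulEquiv.symm
  obtain ⟨P', _, ι, κ, h⟩ := H1 (Shrink.{0} G.X) (isGood_tr e.symm hG) (LAct (Shrink.{0} G.X) J) J
    (fun i => i)
  obtain ⟨G', hS, e', hs', he'⟩ := embed G P' (ι.comp e.toMonoidHom) (h.cons.inj.comp e.injective)
  have hc : ∀ p, e' (hS.incl p) = ι (e p) := he'
  exact ⟨G', ⟨hS, cons_tr _ ι e e' hc h.cons⟩, hs', isGood_tr e' h.good, hS,
    s1_tr J hS.incl ι e e' hc ⟨κ, h⟩⟩

theorem exS2 (H2 : StH) (G : GM) (hs : Small.{0} G.X) (hG : IsGood G.X) :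
    ∃ G', Le G G' ∧ Small.{0} G'.X ∧ IsGood G'.X ∧ IsS2 G G' := by
  let e : G.X ≃* Shrink.{0} G.X := Shrink.mulEquiv.symm
  obtain ⟨P', _, ι, y, len, h⟩ := H2 (Shrink.{0} G.X) (isGood_tr e.symm hG)
  obtain ⟨G', hS, e', hs', he'⟩ := embed G P' (ι.comp e.toMonoidHom) (h.cons.inj.comp e.injective)
  have hc : ∀ p, e' (hS.incl p) = ι (e p) := he'
  exact ⟨G', ⟨hS, cons_tr _ ι e e' hc h.cons⟩, hs', isGood_tr e' h.good, hS,
    s2_tr hS.incl ι e e' hc ⟨y, len, h⟩⟩

/-! ## unions -/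

section union

variable {I : Type w} (F : I → GM)

/-- directed family -/
def Dir : Prop := ∀ i j, ∃ k, Le (F i) (F k) ∧ Le (F j) (F k)

open Classical in
/-- the product in the union -/
noncomputable def uop (x y : Om) : Om :=
  if h : ∃ i, x ∈ (F i).X ∧ y ∈ (F i).X then (F h.choose).op x y else x

variable {F}

theorem uop_eq (hF : Dir F) {i : I} {x y : Om} (hx : x ∈ (F i).X) (hy : y ∈ (F i).X) :
    uop F x y = (F i).op x y := by
  have h : ∃ i, x ∈ (F i).X ∧ y ∈ (F i).X := ⟨i, hx, hy⟩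
  unfold uop
  rw [dif_pos h]
  obtain ⟨k, ⟨s1, _⟩, ⟨s2, _⟩⟩ := hF h.choose i
  rw [← s1.op _ h.choose_spec.1 _ h.choose_spec.2, s2.op _ hx _ hy]

theorem o_eq (hF : Dir F) (i j : I) : (F i).o = (F j).o := by
  obtain ⟨k, ⟨s1, _⟩, ⟨s2, _⟩⟩ := hF i j
  rw [← s1.o, s2.o]

theorem dir2 (hF : Dir F) {x y : Om} (hx : x ∈ ⋃ i, (F i).X) (hy : y ∈ ⋃ i, (F i).X) (i0 : I) :
    ∃ k, Le (F i0) (F k) ∧ x ∈ (F k).X ∧ y ∈ (F k).X := by
  obtain ⟨i, hi⟩ := Set.mem_iUnion.1 hx
  obtain ⟨j, hj⟩ := Set.mem_iUnion.1 hy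
  obtain ⟨k, h1, h2⟩ := hF i j
  obtain ⟨l, h3, h4⟩ := hF i0 k
  exact ⟨l, h3, h4.choose.sub (h1.choose.sub hi), h4.choose.sub (h2.choose.sub hj)⟩

/-- the union of a directed family -/
noncomputable def union (hF : Dir F) (i0 : I) : GM where
  X := ⋃ i, (F i).X
  op := uop F
  o := (F i0).o
  o_mem := Set.mem_iUnion.2 ⟨i0, (F i0).o_mem⟩
  op_mem x hx y hy := by
    obtain ⟨k, -, h1, h2⟩ := dir2 hF hx hy i0
    rw [uop_eq hF h1 h2]
    exact Set.mem_iUnion.2 ⟨k, (F k).op_mem _ h1 _ h2⟩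
  assoc x hx y hy z hz := by
    obtain ⟨k, -, h1, h2⟩ := dir2 hF hx hy i0
    obtain ⟨l, h3, h4, -⟩ := dir2 hF hz hz k
    have h5 := h3.choose.sub h1
    have h6 := h3.choose.sub h2
    rw [uop_eq hF h5 h6, uop_eq hF h6 h4, uop_eq hF ((F l).op_mem _ h5 _ h6) h4,
      uop_eq hF h5 ((F l).op_mem _ h6 _ h4), (F l).assoc _ h5 _ h6 _ h4]
  o_op x hx := by
    obtain ⟨k, h3, h1, -⟩ := dir2 hF hx hx i0
    have h4 := h3.choose.sub (F i0).o_mem
    rw [uop_eq hF h4 h1, o_eq hF i0 k, (F k).o_op _ h1]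
  op_o x hx := by
    obtain ⟨k, h3, h1, -⟩ := dir2 hF hx hx i0
    have h4 := h3.choose.sub (F i0).o_mem
    rw [uop_eq hF h1 h4, o_eq hF i0 k, (F k).op_o _ h1]

theorem sub_union (hF : Dir F) (i0 i : I) : Sub (F i) (union hF i0) where
  sub _ hx := Set.mem_iUnion.2 ⟨i, hx⟩
  o := o_eq hF i0 i
  op _ hx _ hy := uop_eq hF hx hy

theorem le_union (hF : Dir F) (i0 i : I) : Le (F i) (union hF i0) := by
  refine ⟨sub_union hF i0 i, ⟨fun x y h => ?_, ?_⟩⟩
  · exact Subtype.ext (congrArg (fun z : (union hF i0).X => z.1) h)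
  · rintro f g ⟨x', hx'⟩ ⟨y', hy'⟩ hh
    obtain ⟨k, h1, h2, h3⟩ := dir2 hF hx' hy' i
    obtain ⟨s1, c1⟩ := h1
    obtain ⟨x, y, t, h4, h5, h6⟩ := c1.amal f g ⟨x', h2⟩ ⟨y', h3⟩ (by
      apply Subtype.ext
      have := congrArg (fun z : (union hF i0).X => z.1) hh
      simp only [coe_mul, coe_incl] at this ⊢
      change uop F _ _ = uop F _ _ at this
      rwa [uop_eq hF (s1.sub f.2) h2, uop_eq hF (s1.sub g.2) h3] at this)
    refine ⟨x, y, (sub_union hF i0 k).incl t, h4, ?_, ?_⟩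
    · apply Subtype.ext
      have h5 := congrArg (fun z : (F k).X => z.1) h5
      simp only [coe_mul, coe_incl] at h5 ⊢
      change x' = uop F _ _
      rw [uop_eq hF (s1.sub x.2) t.2, ← h5]
    · apply Subtype.ext
      have h6 := congrArg (fun z : (F k).X => z.1) h6
      simp only [coe_mul, coe_incl] at h6 ⊢
      change y' = uop F _ _
      rw [uop_eq hF (s1.sub y.2) t.2, ← h6]

theorem good_union (hF : Dir F) (i0 : I) (hg : ∀ i, IsGood (F i).X) :
    IsGood (union hF i0).X := by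
  -- every element comes from below
  have key : ∀ (x y : (union hF i0).X) (i : I), ∃ k, Le (F i) (F k) ∧
      ∃ (x0 y0 : (F k).X), (sub_union hF i0 k).incl x0 = x ∧ (sub_union hF i0 k).incl y0 = y := by
    intro x y i
    obtain ⟨k, h1, h2, h3⟩ := dir2 hF x.2 y.2 i
    exact ⟨k, h1, ⟨x.1, h2⟩, ⟨y.1, h3⟩, rfl, rfl⟩
  have inj : ∀ k, Function.Injective (sub_union hF i0 k).incl := by
    intro k x y h
    exact Subtype.ext (congrArg (fun z : (union hF i0).X => z.1) h)
  have comp : ∀ i k (h : Sub (F i) (F k)) (x : (F i).X),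
      (sub_union hF i0 k).incl (h.incl x) = (sub_union hF i0 i).incl x := by
    intro i k h x; rfl
  refine ⟨fun f g h hh => ?_, fun f g hh => ?_, fun f g x y hh => ?_⟩
  · obtain ⟨i, -, f0, g0, rfl, rfl⟩ := key f g i0
    obtain ⟨k, h1, h0, -, rfl, -⟩ := key h h i
    obtain ⟨s, -⟩ := h1
    have hh' : (sub_union hF i0 k).incl (s.incl f0 * s.incl g0) =
        (sub_union hF i0 k).incl (s.incl f0 * h0) := by
      rw [map_mul _ (s.incl f0) (s.incl g0), map_mul _ (s.incl f0) h0, comp, comp]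
      exact hh
    rw [← comp i k s g0, (hg k).lc _ _ _ (inj k hh')]
  · obtain ⟨i, -, f0, g0, rfl, rfl⟩ := key f g i0
    rw [← map_mul, ← map_one (sub_union hF i0 i).incl] at hh
    rw [(hg i).unit _ _ (inj i hh), map_one]
  · obtain ⟨i, -, f0, g0, rfl, rfl⟩ := key f g i0
    obtain ⟨si, ci⟩ := le_union hF i0 i
    obtain ⟨x0, y0, t, h1, h2, h3⟩ := ci.amal _ _ _ _ hh
    obtain ⟨u, v, h4, h5⟩ := (hg i).lcm _ _ _ _ h1
    refine ⟨(sub_union hF i0 i).incl u, (sub_union hF i0 i).incl v, ?_, fun x' y' hh' => ?_⟩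
    · rw [← map_mul, ← map_mul, h4]
    · obtain ⟨x1, y1, t1, h1', h2', h3'⟩ := ci.amal _ _ _ _ hh'
      obtain ⟨r, h6, h7⟩ := h5 _ _ h1'
      refine ⟨(sub_union hF i0 i).incl r * t1, ?_, ?_⟩
      · rw [h2', h6, map_mul, mul_assoc]
      · rw [h3', h7, map_mul, mul_assoc]

theorem small_union [Small.{0} I] (hF : Dir F) (i0 : I) (hs : ∀ i, Small.{0} (F i).X) :
    Small.{0} (union hF i0).X := by
  have := hs
  change Small.{0} (⋃ i, (F i).X : Set Om)
  infer_instance

end union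

end Crest.Agent.R296.TowGx281
end

-- ▼ part R296/Tow_281
section

/-!
# Row 296, block A, leaf A-TOW, part 3: the tower (helper281)

`tower : StS1 → StH → StTow`
-/

set_option autoImplicit false

namespace Crest.Agent.R296.Towx281

open IfAx378 TowTx281 TowGx281

/-! ## bottom: the free monoid on one letter -/

theorem good_nat : IsGood (Multiplicative ℕ) where
  lc f g h hh := mul_left_cancel hh
  unit f g hh := by
    have : f.toAdd + g.toAdd = 0 := congrArg Multiplicative.toAdd hh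
    exact congrArg Multiplicative.ofAdd (Nat.eq_zero_of_add_eq_zero_right this)
  lcm f g x y _ := by
    refine ⟨Multiplicative.ofAdd (g.toAdd - f.toAdd), Multiplicative.ofAdd (f.toAdd - g.toAdd), ?_,
      fun x' y' hh => ⟨Multiplicative.ofAdd
        (x'.toAdd - (g.toAdd - f.toAdd)), ?_, ?_⟩⟩
    · apply Multiplicative.toAdd.injective
      simp only [toAdd_mul, toAdd_ofAdd]
      omega
    · apply Multiplicative.toAdd.injective
      have : f.toAdd + x'.toAdd = g.toAdd + y'.toAdd := congrArg Multiplicative.toAdd hh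
      simp only [toAdd_mul, toAdd_ofAdd]
      omega
    · apply Multiplicative.toAdd.injective
      have : f.toAdd + x'.toAdd = g.toAdd + y'.toAdd := congrArg Multiplicative.toAdd hh
      simp only [toAdd_mul, toAdd_ofAdd]
      omega

theorem base_inj : Function.Injective
    (fun n : Multiplicative ℕ => (((Multiplicative.toAdd n : ℕ)) : Om)) := by
  intro a b h
  have h' : ((Multiplicative.toAdd a : ℕ) : Om) = ((Multiplicative.toAdd b : ℕ) : Om) := h
  exact Multiplicative.toAdd.injective (by exact_mod_cast h')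

/-- the bottom monoid -/
noncomputable def base : GM := rangeGM _ base_inj

theorem base_good : IsGood base.X := isGood_tr (rangeEq _ base_inj) good_nat

theorem base_small : Small.{0} base.X := small_range _

theorem base_ne : ∃ f : base.X, f ≠ 1 := by
  unfold base
  refine ⟨(rangeEq _ base_inj).symm (Multiplicative.ofAdd 1), fun h => ?_⟩
  have := congrArg (rangeEq _ base_inj) h
  rw [MulEquiv.apply_symm_apply, map_one (rangeEq _ base_inj)] at this
  simp at this

/-! ## the recursion -/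

section rec

variable (H1 : StS1) (H2 : StH)

open Classical in
/-- one step -/
noncomputable def step (β : Ordinal.{0}) (G : GM) : GM :=
  if h : Small.{0} G.X ∧ IsGood G.X then
    (if β % 2 = 0 then (exS1 H1 β.ToType G h.1 h.2).choose else (exS2 H2 G h.1 h.2).choose)
  else G

theorem step_spec (β : Ordinal.{0}) (G : GM) (h1 : Small.{0} G.X) (h2 : IsGood G.X) :
    Le G (step H1 H2 β G) ∧ Small.{0} (step H1 H2 β G).X ∧ IsGood (step H1 H2 β G).X ∧
    (β % 2 = 0 → IsS1 β.ToType G (step H1 H2 β G)) ∧ (β % 2 = 1 → IsS2 G (step H1 H2 β G)) := by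
  by_cases hβ : β % 2 = 0
  · have e : step H1 H2 β G = (exS1 H1 β.ToType G h1 h2).choose := by
      unfold step
      rw [dif_pos ⟨h1, h2⟩, if_pos hβ]
    rw [e]
    obtain ⟨h3, h4, h5, h6⟩ := (exS1 H1 β.ToType G h1 h2).choose_spec
    refine ⟨h3, h4, h5, fun _ => h6, fun h => ?_⟩
    rw [hβ] at h
    exact absurd h zero_ne_one
  · have e : step H1 H2 β G = (exS2 H2 G h1 h2).choose := by
      unfold step
      rw [dif_pos ⟨h1, h2⟩, if_neg hβ]
    rw [e]
    obtain ⟨h3, h4, h5, h6⟩ := (exS2 H2 G h1 h2).choose_spec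
    exact ⟨h3, h4, h5, fun h => absurd h hβ, fun _ => h6⟩

open Classical in
/-- the chain -/
noncomputable def F (β : Ordinal.{0}) : GM :=
  Ordinal.limitRecOn β base (fun β G => step H1 H2 β G)
    (fun β hβ f => if h : Dir (fun γ : Set.Iio β => f γ.1 γ.2) then union h ⟨0, hβ.pos⟩ else base)

theorem F_zero : F H1 H2 0 = base := Ordinal.limitRecOn_zero _ _ _

theorem F_succ (β : Ordinal.{0}) : F H1 H2 (β + 1) = step H1 H2 β (F H1 H2 β) :=
  Ordinal.limitRecOn_add_one _ _ _ _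

open Classical in
theorem F_lim (β : Ordinal.{0}) (hβ : Order.IsSuccLimit β)
    (h : Dir (fun γ : Set.Iio β => F H1 H2 γ.1)) : F H1 H2 β = union h ⟨0, hβ.pos⟩ := by
  have h' := Ordinal.limitRecOn_limit (motive := fun _ => GM) β base
    (fun β G => step H1 H2 β G)
    (fun β hβ f => if h : Dir (fun γ : Set.Iio β => f γ.1 γ.2) then union h ⟨0, hβ.pos⟩ else base) hβ
  refine Eq.trans h' ?_
  exact dif_pos h

theorem F_inv (β : Ordinal.{0}) :
    Small.{0} (F H1 H2 β).X ∧ IsGood (F H1 H2 β).X ∧ ∀ γ ≤ β, Le (F H1 H2 γ) (F H1 H2 β) := by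
  induction β using Ordinal.limitRecOn with
  | zero =>
    rw [F_zero]
    refine ⟨base_small, base_good, fun γ hγ => ?_⟩
    have : γ = 0 := le_antisymm hγ zero_le
    rw [this, F_zero]
    exact Le.refl _
  | add_one β ih =>
    obtain ⟨h1, h2, h3⟩ := ih
    obtain ⟨h4, h5, h6, -, -⟩ := step_spec H1 H2 β _ h1 h2
    rw [← F_succ] at h4 h5 h6
    refine ⟨h5, h6, fun γ hγ => ?_⟩
    rcases hγ.lt_or_eq with h | rfl
    · exact (h3 γ (Order.lt_add_one_iff.1 h)).trans h4
    · exact Le.refl _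
  | limit β hβ ih =>
    have hd : Dir (fun γ : Set.Iio β => F H1 H2 γ.1) := by
      rintro ⟨γ, hγ⟩ ⟨δ, hδ⟩
      rcases le_total γ δ with h | h
      · exact ⟨⟨δ, hδ⟩, (ih δ hδ).2.2 γ h, Le.refl _⟩
      · exact ⟨⟨γ, hγ⟩, Le.refl _, (ih γ hγ).2.2 δ h⟩
    rw [F_lim H1 H2 β hβ hd]
    refine ⟨small_union hd _ (fun γ => (ih γ.1 γ.2).1), good_union hd _
      (fun γ => (ih γ.1 γ.2).2.1), fun γ hγ => ?_⟩
    rcases hγ.lt_or_eq with h | rfl
    · exact le_union hd ⟨0, hβ.pos⟩ ⟨γ, h⟩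
    · rw [F_lim H1 H2 γ hβ hd]
      exact Le.refl _

theorem F_dir : Dir (F H1 H2) := by
  intro γ δ
  rcases le_total γ δ with h | h
  · exact ⟨δ, (F_inv H1 H2 δ).2.2 γ h, Le.refl _⟩
  · exact ⟨γ, Le.refl _, (F_inv H1 H2 γ).2.2 δ h⟩

/-- the whole monoid -/
noncomputable def FU : GM := union (F_dir H1 H2) 0

/-- `P_β` -/
noncomputable def A (β : Ordinal.{0}) : Submonoid (FU H1 H2).X where
  carrier := {p | p.1 ∈ (F H1 H2 β).X}
  one_mem' := by
    change (union (F_dir H1 H2) 0).o ∈ (F H1 H2 β).X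
    rw [(sub_union (F_dir H1 H2) 0 β).o]
    exact (F H1 H2 β).o_mem
  mul_mem' := by
    intro x y hx hy
    change (union (F_dir H1 H2) 0).op x.1 y.1 ∈ (F H1 H2 β).X
    rw [(sub_union (F_dir H1 H2) 0 β).op _ hx _ hy]
    exact (F H1 H2 β).op_mem _ hx _ hy

/-- `A β` is `F β` -/
noncomputable def eA (β : Ordinal.{0}) : A H1 H2 β ≃* (F H1 H2 β).X where
  toFun x := ⟨x.1.1, x.2⟩
  invFun x := ⟨⟨x.1, (sub_union (F_dir H1 H2) 0 β).sub x.2⟩, x.2⟩
  left_inv _ := rfl
  right_inv _ := rfl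
  map_mul' x y := Subtype.ext ((sub_union (F_dir H1 H2) 0 β).op _ x.2 _ y.2)

theorem A_mono : Monotone (A H1 H2) := by
  intro γ β h x hx
  exact ((F_inv H1 H2 β).2.2 γ h).choose.sub hx

theorem A_s1 (β : Ordinal.{0}) (hβ : β % 2 = 0) :
    S1Id β.ToType (Submonoid.inclusion (A_mono H1 H2 (Order.le_succ β))) := by
  obtain ⟨h1, h2, h3⟩ := F_inv H1 H2 β
  obtain ⟨-, -, -, h, -⟩ := step_spec H1 H2 β _ h1 h2
  obtain ⟨hs, h⟩ := h hβ
  have e : F H1 H2 (Order.succ β) = step H1 H2 β (F H1 H2 β) := F_succ H1 H2 β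
  revert hs h
  rw [← e]
  intro hs h
  exact s1_tr _ _ hs.incl (eA H1 H2 β) (eA H1 H2 (Order.succ β)) (fun p => rfl) h

theorem A_s2 (β : Ordinal.{0}) (hβ : β % 2 = 1) :
    S2Id (Submonoid.inclusion (A_mono H1 H2 (Order.le_succ β))) := by
  obtain ⟨h1, h2, h3⟩ := F_inv H1 H2 β
  obtain ⟨-, -, -, -, h⟩ := step_spec H1 H2 β _ h1 h2
  obtain ⟨hs, h⟩ := h hβ
  have e : F H1 H2 (Order.succ β) = step H1 H2 β (F H1 H2 β) := F_succ H1 H2 β
  revert hs h
  rw [← e]
  intro hs h
  exact s2_tr _ hs.incl (eA H1 H2 β) (eA H1 H2 (Order.succ β)) (fun p => rfl) h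

theorem A_f0 : ∃ f : (FU H1 H2).X, f ∈ A H1 H2 0 ∧ f ≠ 1 := by
  obtain ⟨f, hf⟩ : ∃ f : (F H1 H2 0).X, f ≠ 1 := by
    rw [F_zero]; exact base_ne
  refine ⟨((eA H1 H2 0).symm f).1, ((eA H1 H2 0).symm f).2, fun h => hf ?_⟩
  have h' : (eA H1 H2 0).symm f = 1 := Subtype.ext h
  have := congrArg (eA H1 H2 0) h'
  rwa [MulEquiv.apply_symm_apply, map_one (eA H1 H2 0)] at this

theorem A_cons (β : Ordinal.{0}) : Cons (A H1 H2 β).subtype := by
  obtain ⟨s, c⟩ := le_union (F_dir H1 H2) 0 β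
  exact cons_tr _ s.incl (eA H1 H2 β) (MulEquiv.refl _) (fun p => rfl) c

theorem A_lim (β : Ordinal.{0}) (hβ : Order.IsSuccLimit β) (p : (FU H1 H2).X)
    (hp : p ∈ A H1 H2 β) : ∃ γ < β, p ∈ A H1 H2 γ := by
  have hd : Dir (fun γ : Set.Iio β => F H1 H2 γ.1) := by
    rintro ⟨γ, hγ⟩ ⟨δ, hδ⟩
    rcases le_total γ δ with h | h
    · exact ⟨⟨δ, hδ⟩, (F_inv H1 H2 δ).2.2 γ h, Le.refl _⟩
    · exact ⟨⟨γ, hγ⟩, Le.refl _, (F_inv H1 H2 γ).2.2 δ h⟩
  have h : p.1 ∈ (F H1 H2 β).X := hp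
  rw [F_lim H1 H2 β hβ hd] at h
  obtain ⟨⟨γ, hγ⟩, h⟩ := Set.mem_iUnion.1 h
  exact ⟨γ, hγ, h⟩

/-- LEAF A-TOW, data form -/
theorem tower : Nonempty (Tower (FU H1 H2).X) := by
  classical
  obtain ⟨f0, hf0, hf0'⟩ := A_f0 H1 H2
  have h1 : ∀ β : Ordinal.{0}, ∃ κ : LAct (A H1 H2 β) β.ToType → β.ToType →
      A H1 H2 (Order.succ β), β % 2 = 0 → S1Ext (fun i => i)
        (Submonoid.inclusion (A_mono H1 H2 (Order.le_succ β))) κ := by
    intro β
    by_cases hβ : β % 2 = 0
    · obtain ⟨κ, h⟩ := A_s1 H1 H2 β hβ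
      exact ⟨κ, fun _ => h⟩
    · exact ⟨fun _ _ => 1, fun h => absurd h hβ⟩
  have h2 : ∀ β : Ordinal.{0}, ∃ (y : Ltr (A H1 H2 β) → A H1 H2 (Order.succ β))
      (len : A H1 H2 (Order.succ β) → ℕ), β % 2 = 1 → S2All
        (Submonoid.inclusion (A_mono H1 H2 (Order.le_succ β))) y len := by
    intro β
    by_cases hβ : β % 2 = 1
    · obtain ⟨y, len, h⟩ := A_s2 H1 H2 β hβ
      exact ⟨y, len, fun _ => h⟩
    · exact ⟨fun _ => 1, fun _ => 0, fun h => absurd h hβ⟩
  choose κ hκ using h1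
  choose y len hy using h2
  exact ⟨
    { good := good_union (F_dir H1 H2) 0 (fun β => (F_inv H1 H2 β).2.1)
      A := A H1 H2
      mono := A_mono H1 H2
      small := fun β => by
        have := (F_inv H1 H2 β).1
        exact small_map (eA H1 H2 β).toEquiv
      cons := A_cons H1 H2
      exh := fun p => by
        have h : p.1 ∈ ⋃ β, (F H1 H2 β).X := p.2
        obtain ⟨β, hβ⟩ := Set.mem_iUnion.1 h
        exact ⟨β, hβ⟩
      lim := A_lim H1 H2
      f0 := f0
      f0_mem := hf0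
      f0_ne := hf0'
      κ := κ
      s1 := hκ
      y := y
      len := len
      s2 := hy }⟩

end rec

/-- LEAF A-TOW -/
theorem stTow (H1 : StS1) (H2 : StH) : StTow := ⟨_, inferInstance, tower H1 H2⟩

end Crest.Agent.R296.Towx281
end

-- ▼ part R296/S1_531
section

/-!
# Row 296, block A-S1: the word extension `P<T>` of a good monoid by a right LCM act

`RAct P`    : right `P`-acts with cancellation and explicit right LCMs
`W A`       : words `(s0, t1, ..., tn)`
`W.good`    : `P<T>` is good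
`W.inc`     : inclusion, conservativity
-/

set_option autoImplicit false

namespace Crest.Agent.R296.S1x531

universe u v w

/-- good monoid: left cancellative, `1` is the only unit, explicit right LCMs -/
structure GoodX (P : Type u) [Monoid P] : Prop where
  cancel : ∀ a b c : P, a * b = a * c → b = c
  unit : ∀ a b : P, a * b = 1 → a = 1
  lcm : ∀ a b x y : P, a * x = b * y →
    ∃ p q : P, a * p = b * q ∧ ∀ x' y' : P, a * x' = b * y' → ∃ r, x' = p * r ∧ y' = q * r

/-- right act with cancellation and explicit right LCMs -/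
structure RAct (P : Type u) [Monoid P] where
  T : Type v
  act : T → P → T
  act_one : ∀ t, act t 1 = t
  act_mul : ∀ t p q, act (act t p) q = act t (p * q)
  cancel : ∀ t p q, act t p = act t q → p = q
  lcm : ∀ t t' p p', act t p = act t' p' →
    ∃ a b : P, act t a = act t' b ∧ ∀ q q' : P, act t q = act t' q' → ∃ r, q = a * r ∧ q' = b * r

variable {P : Type u} [Monoid P]

/-- words over the act `A` -/
inductive W (A : RAct.{u, v} P) : Type (max u v)
  | base (p : P) : W A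
  | snoc (w : W A) (t : A.T) : W A

namespace W

variable {A : RAct.{u, v} P}

/-- right multiplication by an element of `P` -/
def rp : W A → P → W A
  | base s, p => base (s * p)
  | snoc w t, p => snoc w (A.act t p)

/-- product of words -/
def mulW : W A → W A → W A
  | x, base p => rp x p
  | x, snoc y t => snoc (mulW x y) t

theorem rp_one (x : W A) : rp x 1 = x := by
  cases x with
  | base s => simp [rp]
  | snoc w t => simp [rp, A.act_one]

theorem rp_rp (x : W A) (p q : P) : rp (rp x p) q = rp x (p * q) := by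
  cases x with
  | base s => simp [rp, mul_assoc]
  | snoc w t => simp [rp, A.act_mul]

theorem rp_mulW (x y : W A) (p : P) : rp (mulW x y) p = mulW x (rp y p) := by
  cases y with
  | base s => exact rp_rp x s p
  | snoc w t => rfl

instance : Mul (W A) := ⟨mulW⟩
instance : One (W A) := ⟨base 1⟩

theorem mul_base (x : W A) (p : P) : x * base p = rp x p := rfl
theorem mul_snoc (x y : W A) (t : A.T) : x * snoc y t = snoc (x * y) t := rfl
theorem one_def : (1 : W A) = base 1 := rfl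

theorem assoc (x y z : W A) : x * y * z = x * (y * z) := by
  induction z with
  | base p => exact rp_mulW x y p
  | snoc z t ih => rw [mul_snoc, mul_snoc, mul_snoc, ih]

theorem oneMul (x : W A) : 1 * x = x := by
  induction x with
  | base p => rw [one_def, mul_base]; simp [rp]
  | snoc z t ih => rw [mul_snoc, ih]

theorem mulOne (x : W A) : x * 1 = x := rp_one x

instance : Monoid (W A) where
  mul_assoc := assoc
  one_mul := oneMul
  mul_one := mulOne

/-- number of letters -/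
def len : W A → ℕ
  | base _ => 0
  | snoc w _ => len w + 1

/-- first entry -/
def head : W A → P
  | base p => p
  | snoc w _ => head w

theorem len_rp (x : W A) (p : P) : len (rp x p) = len x := by
  cases x <;> simp [rp, len]

theorem len_mul (x y : W A) : len (x * y) = len x + len y := by
  induction y with
  | base p => simp [mul_base, len_rp, len]
  | snoc z t ih => simp [mul_snoc, len, ih, Nat.add_assoc]

theorem head_base_mul (s : P) (y : W A) : head (base s * y) = s * head y := by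
  induction y with
  | base p => simp [mul_base, rp, head]
  | snoc z t ih => simp [mul_snoc, head, ih]

theorem base_mul_base (s p : P) : (base s : W A) * base p = base (s * p) := rfl

/-- inclusion of `P` -/
def inc (A : RAct.{u, v} P) : P →* W A where
  toFun := base
  map_one' := rfl
  map_mul' := fun _ _ => rfl

theorem inc_injective : Function.Injective (inc A) := fun _ _ h => by
  injection h

theorem cancelW (hP : GoodX P) (x y z : W A) (h : x * y = x * z) : y = z := by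
  induction y generalizing z with
  | base p =>
    cases z with
    | base q =>
      rw [mul_base, mul_base] at h
      cases x with
      | base s =>
        simp only [rp, base.injEq] at h
        rw [hP.cancel _ _ _ h]
      | snoc w t =>
        simp only [rp, snoc.injEq, true_and] at h
        rw [A.cancel _ _ _ h]
    | snoc z t =>
      exfalso
      have := congrArg len h
      simp [len_mul, len] at this
  | snoc y t ih =>
    cases z with
    | base q =>
      exfalso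
      have := congrArg len h
      simp [len_mul, len] at this
    | snoc z t' =>
      rw [mul_snoc, mul_snoc] at h
      simp only [snoc.injEq] at h
      rw [ih z h.1, h.2]

theorem unitW (hP : GoodX P) (x y : W A) (h : x * y = 1) : x = 1 := by
  cases y with
  | base p =>
    cases x with
    | base s =>
      rw [base_mul_base, one_def] at h
      simp only [base.injEq] at h
      rw [one_def, hP.unit _ _ h]
    | snoc w t =>
      rw [mul_base, one_def] at h
      simp [rp] at h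
  | snoc y t =>
    rw [mul_snoc, one_def] at h
    simp at h

/-- divisibility of a word by a word, last letter analysis -/
theorem mul_eq_snoc {x y m : W A} {t : A.T} (h : x * y = snoc m t) :
    (∃ y', y = snoc y' t ∧ x * y' = m) ∨ (∃ t0 p, x = snoc m t0 ∧ y = base p ∧ A.act t0 p = t) := by
  cases y with
  | base p =>
    right
    cases x with
    | base s => simp [mul_base, rp] at h
    | snoc w t0 =>
      simp only [mul_base, rp, snoc.injEq] at h
      exact ⟨t0, p, by rw [h.1], rfl, h.2⟩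
  | snoc y t' =>
    left
    rw [mul_snoc] at h
    simp only [snoc.injEq] at h
    exact ⟨y, by rw [h.2], h.1⟩

theorem mul_eq_base {x y : W A} {q : P} (h : x * y = base q) :
    ∃ s p, x = base s ∧ y = base p ∧ s * p = q := by
  cases y with
  | base p =>
    cases x with
    | base s =>
      rw [base_mul_base] at h
      simp only [base.injEq] at h
      exact ⟨s, p, rfl, rfl, h⟩
    | snoc w t => simp [mul_base, rp] at h
  | snoc y t => simp [mul_snoc] at h

/-- `l` is an explicit LCM of `x`, `y` -/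
def IsL (x y p q : W A) : Prop :=
  x * p = y * q ∧ ∀ x' y' : W A, x * x' = y * y' → ∃ r, x' = p * r ∧ y' = q * r

theorem IsL.symm {x y p q : W A} (h : IsL x y p q) : IsL y x q p :=
  ⟨h.1.symm, fun x' y' e => by
    obtain ⟨r, h1, h2⟩ := h.2 y' x' e.symm
    exact ⟨r, h2, h1⟩⟩

/-- LCM of two base elements stays the LCM -/
theorem isL_base {a b p q : P} (h0 : a * p = b * q)
    (h : ∀ x' y' : P, a * x' = b * y' → ∃ r, x' = p * r ∧ y' = q * r) :
    IsL (base a : W A) (base b) (base p) (base q) := by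
  refine ⟨by rw [base_mul_base, base_mul_base, h0], ?_⟩
  intro x' y' e
  induction x' generalizing y' with
  | base x =>
    rw [base_mul_base] at e
    obtain ⟨s, y, hs, hy, e'⟩ := mul_eq_base e.symm
    subst hy
    simp only [base.injEq] at hs
    subst hs
    obtain ⟨r, h1, h2⟩ := h x y e'.symm
    exact ⟨base r, by rw [base_mul_base, h1], by rw [base_mul_base, h2]⟩
  | snoc x t ih =>
    rw [mul_snoc] at e
    rcases mul_eq_snoc e.symm with ⟨y1, hy, e1⟩ | ⟨t0, p1, hx, _, _⟩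
    · subst hy
      obtain ⟨r, h1, h2⟩ := ih y1 e1.symm
      exact ⟨snoc r t, by rw [mul_snoc, h1], by rw [mul_snoc, h2]⟩
    · simp at hx

/-- LCM of two words with the same beginning -/
theorem isL_snoc {m : W A} {t t' : A.T} {a b : P} (h0 : A.act t a = A.act t' b)
    (h : ∀ q q' : P, A.act t q = A.act t' q' → ∃ r, q = a * r ∧ q' = b * r) :
    IsL (snoc m t) (snoc m t') (base a) (base b) := by
  refine ⟨by simp [mul_base, rp, h0], ?_⟩
  intro x' y' e
  induction x' generalizing y' with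
  | base x =>
    rw [mul_base] at e
    simp only [rp] at e
    rcases mul_eq_snoc e.symm with ⟨y1, hy, e1⟩ | ⟨t0, p1, hx, hy, e1⟩
    · exfalso
      have := congrArg len e1
      simp only [len_mul, len] at this
      omega
    · simp only [snoc.injEq, true_and] at hx
      subst hx hy
      obtain ⟨r, h1, h2⟩ := h x p1 e1.symm
      exact ⟨base r, by rw [base_mul_base, h1], by rw [base_mul_base, h2]⟩
  | snoc x t1 ih =>
    rw [mul_snoc] at e
    rcases mul_eq_snoc e.symm with ⟨y1, hy, e1⟩ | ⟨t0, p1, hx, hy, e1⟩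
    · subst hy
      obtain ⟨r, h1, h2⟩ := ih y1 e1.symm
      exact ⟨snoc r t1, by rw [mul_snoc, h1], by rw [mul_snoc, h2]⟩
    · exfalso
      simp only [snoc.injEq] at hx
      have := congrArg len hx.1
      simp only [len_mul, len] at this
      omega

theorem isL_of_dvd (hP : GoodX P) {x y z : W A} (h : x * z = y) : IsL x y z 1 := by
  refine ⟨by rw [h, mul_one], ?_⟩
  intro x' y' e
  refine ⟨y', ?_, by rw [one_mul]⟩
  rw [← h, mul_assoc] at e
  exact cancelW hP _ _ _ e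

theorem lcmW (hP : GoodX P) (x y x1 y1 : W A) (h : x * x1 = y * y1) :
    ∃ p q : W A, IsL x y p q := by
  induction x1 generalizing y1 with
  | base p =>
    -- x * base p = y * y1
    rw [mul_base] at h
    cases x with
    | base a =>
      simp only [rp] at h
      obtain ⟨b, q, hb, hq, e⟩ := mul_eq_base h.symm
      subst hb
      obtain ⟨p', q', e1, e2⟩ := hP.lcm a b p q e.symm
      exact ⟨_, _, isL_base e1 e2⟩
    | snoc m t =>
      simp only [rp] at h
      rcases mul_eq_snoc h.symm with ⟨y2, hy, e1⟩ | ⟨t0, p1, hx, hy, e1⟩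
      · -- y divides m, hence y divides snoc m t
        refine ⟨1, snoc y2 t, IsL.symm (isL_of_dvd hP ?_)⟩
        rw [mul_snoc, e1]
      · subst hx
        obtain ⟨a, b, e2, e3⟩ := A.lcm t t0 p p1 e1.symm
        exact ⟨_, _, isL_snoc e2 e3⟩
  | snoc x1 t ih =>
    rw [mul_snoc] at h
    rcases mul_eq_snoc h.symm with ⟨y2, hy, e1⟩ | ⟨t0, p1, hx, hy, e1⟩
    · exact ih y2 e1.symm
    · -- y = snoc (x * x1) t0 : x divides y
      refine ⟨snoc x1 t0, 1, isL_of_dvd hP ?_⟩
      rw [mul_snoc, hx]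

/-- `P<T>` is good -/
theorem good (hP : GoodX P) : GoodX (W A) where
  cancel := fun _ _ _ h => cancelW hP _ _ _ h
  unit := fun _ _ h => unitW hP _ _ h
  lcm := fun x y x1 y1 h => by
    obtain ⟨p, q, h1, h2⟩ := lcmW hP x y x1 y1 h
    exact ⟨p, q, h1, h2⟩


/-- conservativity: right LCMs of elements of `P` are computed in `P` -/
theorem cons_inc (hP : GoodX P) {a b : P} {x y : W A} (h : inc A a * x = inc A b * y) :
    ∃ p q : P, a * p = b * q ∧ (∀ x' y' : P, a * x' = b * y' → ∃ r, x' = p * r ∧ y' = q * r) ∧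
      ∃ r : W A, x = inc A p * r ∧ y = inc A q * r := by
  -- first find a common multiple in `P`
  have key : ∃ x0 y0 : P, a * x0 = b * y0 := by
    induction x generalizing y with
    | base x =>
      obtain ⟨s, y0, hs, hy, e'⟩ := mul_eq_base (x := (base b : W A)) (y := y) (q := a * x) h.symm
      simp only [base.injEq] at hs
      subst hs
      exact ⟨x, y0, e'.symm⟩
    | snoc x t ih =>
      have h' : snoc (base a * x) t = base b * y := h
      rcases mul_eq_snoc h'.symm with ⟨y1, hy, e1⟩ | ⟨t0, p1, hx, _, _⟩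
      · exact ih (y := y1) e1.symm
      · simp at hx
  obtain ⟨x0, y0, e0⟩ := key
  obtain ⟨p, q, e1, e2⟩ := hP.lcm a b x0 y0 e0
  exact ⟨p, q, e1, e2, (isL_base (A := A) e1 e2).2 x y h⟩

/-- an element `s` of `P` divides the word `w` iff it divides its first entry -/
theorem inc_dvd_iff {s : P} {x : W A} : (∃ y, inc A s * y = x) ↔ ∃ p, s * p = head x := by
  constructor
  · rintro ⟨y, rfl⟩
    exact ⟨head y, (head_base_mul s y).symm⟩
  · rintro ⟨p, hp⟩
    induction x with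
    | base q => exact ⟨base p, by rw [show inc A s = base s from rfl, base_mul_base, hp]; rfl⟩
    | snoc x t ih =>
      obtain ⟨y, hy⟩ := ih hp
      exact ⟨snoc y t, by rw [mul_snoc, hy]⟩

/-- a new letter -/
def letter (A : RAct.{u, v} P) (t : A.T) : W A := snoc (base 1) t

theorem letter_mul_inc (t : A.T) (p : P) : letter A t * inc A p = letter A (A.act t p) := rfl

theorem letter_injective : Function.Injective (letter A) := fun _ _ h => by
  simp only [letter, snoc.injEq, true_and] at h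
  exact h

/-- every word is in `P` or a product of a word, a letter (and nothing else) -/
theorem snoc_eq (x : W A) (t : A.T) : snoc x t = x * letter A t := by
  rw [letter, mul_snoc]
  congr 1
  exact (mul_one x).symm


/-- common multiples of letters are exactly governed by the act -/
theorem letter_common {t t' : A.T} {x y : W A} (h : letter A t * x = letter A t' * y) :
    ∃ p q : P, A.act t p = A.act t' q ∧ ∃ r : W A, x = inc A p * r ∧ y = inc A q * r := by
  induction x generalizing y with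
  | base p =>
    have h' : snoc (base 1) (A.act t p) = letter A t' * y := h
    rcases mul_eq_snoc h'.symm with ⟨y1, hy, e1⟩ | ⟨t0, p1, hx, hy, e1⟩
    · exfalso
      have := congrArg len e1
      simp [len_mul, len, letter] at this
    · have : t' = t0 := letter_injective (A := A) hx
      subst this
      exact ⟨p, p1, e1.symm, 1, (mul_one _).symm, by rw [mul_one]; exact hy⟩
  | snoc x t1 ih =>
    have h' : snoc (letter A t * x) t1 = letter A t' * y := h
    rcases mul_eq_snoc h'.symm with ⟨y1, hy, e1⟩ | ⟨t0, p1, hx, hy, e1⟩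
    · obtain ⟨p, q, e2, r, e3, e4⟩ := ih e1.symm
      exact ⟨p, q, e2, snoc r t1, by rw [mul_snoc, ← e3], by rw [mul_snoc, ← e4, hy]⟩
    · exfalso
      have := congrArg len hx
      simp [len_mul, len, letter] at this

end W

end Crest.Agent.R296.S1x531
private theorem rz_a278f5e05a : type_of% @_root_.Crest.Agent.R296.S1x531.W.head.eq_def := @_root_.Crest.Agent.R296.S1x531.W.head.eq_def -- L101
private theorem rz_7a17c5ac8f : type_of% @_root_.Crest.Agent.R296.S1x531.W.head.eq_1 := @_root_.Crest.Agent.R296.S1x531.W.head.eq_1 -- L101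
private theorem rz_541c4ba7ae : type_of% @_root_.Crest.Agent.R296.S1x531.W.len.eq_def := @_root_.Crest.Agent.R296.S1x531.W.len.eq_def -- L96
private theorem rz_390de8a968 : type_of% @_root_.Crest.Agent.R296.S1x531.W.len.eq_1 := @_root_.Crest.Agent.R296.S1x531.W.len.eq_1 -- L96
private theorem rz_e86df3011c : type_of% @_root_.Crest.Agent.R296.S1x531.W.rp.eq_1 := @_root_.Crest.Agent.R296.S1x531.W.rp.eq_1 -- L47
end

-- ▼ part R296/Tri_531
section

/-!
# Row 296, block A-TRI: glued acts (free letter, triangles, chains), disjoint unions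
-/

set_option autoImplicit false

namespace Crest.Agent.R296.S1x531

universe u v w

/-- gluing of copies of `P` (sheets `i : I`) along principal or empty partial maps -/
structure Glue (P : Type u) [Monoid P] where
  I : Type v
  Rel : I → I → P → P → Prop
  refl_iff : ∀ i a b, Rel i i a b ↔ a = b
  symm : ∀ i j a b, Rel i j a b → Rel j i b a
  trans : ∀ i j k a b c, Rel i j a b → Rel j k b c → Rel i k a c
  right : ∀ i j a b p, Rel i j a b → Rel i j (a * p) (b * p)
  princ : ∀ i j a b, Rel i j a b →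
    ∃ a0 b0, Rel i j a0 b0 ∧ ∀ a' b', Rel i j a' b' → ∃ r, a' = a0 * r ∧ b' = b0 * r

namespace Glue

variable {P : Type u} [Monoid P] (G : Glue.{u, v} P)

/-- the gluing equivalence -/
def setoid : Setoid (G.I × P) where
  r x y := G.Rel x.1 y.1 x.2 y.2
  iseqv :=
    { refl := fun _ => (G.refl_iff _ _ _).2 rfl
      symm := fun {_ _} h => G.symm _ _ _ _ h
      trans := fun {_ _ _} h h' => G.trans _ _ _ _ _ _ h h' }

/-- the glued act -/
def T : Type (max u v) := Quotient G.setoid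

/-- class of `(i, a)` : the element `k_i a` -/
def pt (i : G.I) (a : P) : G.T := Quotient.mk G.setoid (i, a)

theorem pt_eq {i j : G.I} {a b : P} : G.pt i a = G.pt j b ↔ G.Rel i j a b := by
  constructor
  · intro h
    exact Quotient.exact (s := G.setoid) h
  · intro h
    exact Quotient.sound (s := G.setoid) h

/-- right action -/
def act (t : G.T) (p : P) : G.T :=
  Quotient.lift (s := G.setoid) (fun x : G.I × P => G.pt x.1 (x.2 * p))
    (fun _ _ h => G.pt_eq.2 (G.right _ _ _ _ _ h)) t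

theorem act_pt (i : G.I) (a p : P) : G.act (G.pt i a) p = G.pt i (a * p) := rfl

theorem exists_pt (t : G.T) : ∃ i a, G.pt i a = t := by
  induction t using Quotient.inductionOn with
  | h x => exact ⟨x.1, x.2, rfl⟩

/-- the glued act as an LCM act -/
def toAct (hP : GoodX P) : RAct.{u, max u v} P where
  T := G.T
  act := G.act
  act_one := by
    intro t
    obtain ⟨i, a, rfl⟩ := G.exists_pt t
    rw [act_pt, mul_one]
  act_mul := by
    intro t p q
    obtain ⟨i, a, rfl⟩ := G.exists_pt t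
    rw [act_pt, act_pt, act_pt, mul_assoc]
  cancel := by
    intro t p q h
    obtain ⟨i, a, rfl⟩ := G.exists_pt t
    rw [act_pt, act_pt, pt_eq, G.refl_iff] at h
    exact hP.cancel _ _ _ h
  lcm := by
    intro t t' p p' h
    obtain ⟨i, a, rfl⟩ := G.exists_pt t
    obtain ⟨j, b, rfl⟩ := G.exists_pt t'
    rw [act_pt, act_pt, pt_eq] at h
    obtain ⟨a0, b0, h0, h1⟩ := G.princ _ _ _ _ h
    obtain ⟨r, e1, e2⟩ := h1 _ _ h
    obtain ⟨x, x0, e3, l3⟩ := hP.lcm a a0 p r e1
    obtain ⟨y, y0, e4, l4⟩ := hP.lcm b b0 p' r e2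
    obtain ⟨s, es1, es2⟩ := l3 _ _ e1
    obtain ⟨s', es3, es4⟩ := l4 _ _ e2
    obtain ⟨m, n, e5, l5⟩ := hP.lcm x0 y0 s s' (by rw [← es2, es4])
    refine ⟨x * m, y * n, ?_, ?_⟩
    · rw [act_pt, act_pt, pt_eq, ← mul_assoc, ← mul_assoc, e3, e4, mul_assoc, mul_assoc, e5]
      exact G.right _ _ _ _ _ h0
    · intro q q' hq
      rw [act_pt, act_pt, pt_eq] at hq
      obtain ⟨r', f1, f2⟩ := h1 _ _ hq
      obtain ⟨s1, g1, g2⟩ := l3 _ _ f1
      obtain ⟨s2, g3, g4⟩ := l4 _ _ f2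
      obtain ⟨z, z1, z2⟩ := l5 s1 s2 (by rw [← g2, ← g4])
      exact ⟨z, by rw [g1, z1, mul_assoc], by rw [g3, z2, mul_assoc]⟩

end Glue

section instances

variable {P : Type u} [Monoid P]


/-- sheets of a triangle -/
inductive Sh : Type v
  | k | h1 | h2

/-- triangle data: `h1 c = k g`, `h2 c = k g'`, `h1 c' = h2 c'`. The two conditions cover both the
triangle over `u` (`c⁻¹(c'P) = uP`, `g, g'` free over `u`) and the degenerate triangle. -/
structure TriD (P : Type u) [Monoid P] where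
  c : P
  c' : P
  g : P
  g' : P
  C1 : ∀ r s : P, c * r = c' * s → g * r = g' * r
  C2 : ∀ r s : P, g * r = g' * s → r = s ∧ ∃ t, c * r = c' * t

/-- gluing relation of a triangle -/
def TriD.Rel (D : TriD P) : Sh.{v} → Sh.{v} → P → P → Prop
  | .k, .k, a, b => a = b
  | .h1, .h1, a, b => a = b
  | .h2, .h2, a, b => a = b
  | .k, .h1, a, b => ∃ r, a = D.g * r ∧ b = D.c * r
  | .h1, .k, a, b => ∃ r, b = D.g * r ∧ a = D.c * r
  | .k, .h2, a, b => ∃ r, a = D.g' * r ∧ b = D.c * r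
  | .h2, .k, a, b => ∃ r, b = D.g' * r ∧ a = D.c * r
  | .h1, .h2, a, b => ∃ r, a = D.c' * r ∧ b = D.c' * r
  | .h2, .h1, a, b => ∃ r, b = D.c' * r ∧ a = D.c' * r



end instances

end Crest.Agent.R296.S1x531
private theorem rz_763572e9dd : type_of% @_root_.Crest.Agent.R296.S1x531.TriD.Rel.eq_1 := @_root_.Crest.Agent.R296.S1x531.TriD.Rel.eq_1 -- L131
end

-- ▼ part R296/StS1_531
section

/-!
# Row 296, leaf A-S1: `StS1`

* `toGood`, `GoodX` of `IsGood`
* `famGlue` : family of LCM acts as one gluing on the sheets `I × J`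
* `s1ext` : the extension (any universes), `stS1 : StS1`
* `S1Ext.*` : consequences, in particular StepProp (i)-(iv) for the new words
-/

set_option autoImplicit false

universe u v w

namespace Crest.Agent.R296.StS1x531

open IfAx378 S1x531

section conv

variable {P : Type u} [Monoid P]

theorem goodX (h : IsGood P) : GoodX P where
  cancel := h.lc
  unit := h.unit
  lcm := h.lcm

theorem isGood (h : GoodX P) : IsGood P where
  lc := h.cancel
  unit := h.unit
  lcm := h.lcm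

end conv

section fam

variable {P : Type u} [Monoid P] {I : Type w} {J : Type v}

/-- a family of LCM acts as one gluing -/
def famGlue (A : I → LAct P J) : Glue.{u, max v w} P where
  I := I × J
  Rel := fun s s' a b => s.1 = s'.1 ∧ (A s.1).r s.2 a s'.2 b
  refl_iff := fun s a b =>
    ⟨fun h => (A s.1).free _ _ _ h.2, fun h => ⟨rfl, by rw [h]; exact (A s.1).refl _ _⟩⟩
  symm := by
    rintro ⟨i, j⟩ ⟨i', j'⟩ a b ⟨h, h'⟩
    dsimp only at h h' ⊢
    subst h
    exact ⟨rfl, (A i).symm _ _ _ _ h'⟩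
  trans := by
    rintro ⟨i, j⟩ ⟨i', j'⟩ ⟨i'', j''⟩ a b c ⟨h, h'⟩ ⟨g, g'⟩
    dsimp only at h h' g g' ⊢
    subst h
    subst g
    exact ⟨rfl, (A i).trans _ _ _ _ _ _ h' g'⟩
  right := fun s s' a b p h => ⟨h.1, (A s.1).act _ _ _ _ p h.2⟩
  princ := by
    rintro ⟨i, j⟩ ⟨i', j'⟩ a b ⟨h, h'⟩
    dsimp only at h h' ⊢
    subst h
    obtain ⟨y, y', h1, h2⟩ := (A i).lcm _ _ _ _ h'
    exact ⟨y, y', ⟨rfl, h1⟩, fun a' b' h3 => h2 _ _ h3.2⟩

variable (hP : IsGood P) (A : I → LAct P J)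

/-- the (S1) extension -/
abbrev Ext : Type (max u v w) := W ((famGlue A).toAct (goodX hP))

/-- its letters -/
def kap (i : I) (j : J) : Ext hP A :=
  W.letter ((famGlue A).toAct (goodX hP)) ((famGlue A).pt (i, j) (1 : P))

theorem kap_mul (i : I) (j : J) (x : P) :
    kap hP A i j * W.inc _ x = W.letter _ ((famGlue A).pt (i, j) x) := by
  rw [kap, W.letter_mul_inc]
  congr 1
  show (famGlue A).act ((famGlue A).pt (i, j) 1) x = _
  rw [Glue.act_pt, one_mul]

theorem len_kap (s : P) (i : I) (j : J) (w' : Ext hP A) :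
    0 < W.len (W.inc _ s * kap hP A i j * w') := by
  rw [W.len_mul, W.len_mul]
  have : W.len (kap hP A i j) = 1 := rfl
  omega

theorem head_letter_mul {P : Type u} [Monoid P] {B : RAct.{u, v} P} (t : B.T) (x : W B) :
    W.head (W.letter B t * x) = 1 := by
  induction x with
  | base p => rfl
  | snoc x t' ih => rw [W.mul_snoc]; exact ih

theorem head_mul_letter (s : P) (i : I) (j : J) (w' : Ext hP A) :
    W.head (W.inc _ s * kap hP A i j * w') = s := by
  rw [mul_assoc]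
  have h := W.head_base_mul (A := (famGlue A).toAct (goodX hP)) s (kap hP A i j * w')
  have h2 : W.head (kap hP A i j * w') = 1 := head_letter_mul _ _
  rw [h2, mul_one] at h
  exact h

theorem s1ext : S1Ext (P' := Ext hP A) A (W.inc _) (kap hP A) where
  good := isGood (W.good (goodX hP))
  cons :=
    { inj := W.inc_injective
      amal := fun f g x' y' h => by
        obtain ⟨p, q, h1, _, r, h3, h4⟩ := W.cons_inc (goodX hP) h
        exact ⟨p, q, r, h1, h3, h4⟩ }
  rel := by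
    intro i j x j' x'
    rw [kap_mul, kap_mul]
    constructor
    · intro h
      congr 1
      exact (famGlue A).pt_eq.2 ⟨rfl, h⟩
    · intro h
      exact ((famGlue A).pt_eq.1 (W.letter_injective h)).2
  lcm := by
    intro i j i' j' w w' h
    obtain ⟨p, q, h1, r, h2, h3⟩ := W.letter_common h
    have h4 : (famGlue A).act ((famGlue A).pt (i, j) 1) p
        = (famGlue A).act ((famGlue A).pt (i', j') 1) q := h1
    rw [Glue.act_pt, Glue.act_pt, one_mul, one_mul] at h4
    obtain ⟨h5, h6⟩ := (famGlue A).pt_eq.1 h4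
    exact ⟨h5, p, q, r, h6, h2, h3⟩
  nf := by
    intro w
    induction w with
    | base p => exact Or.inl ⟨p, rfl⟩
    | snoc w t ih =>
      right
      rcases ih with ⟨p, hp⟩ | ⟨s, i, j, w', hw⟩
      · obtain ⟨⟨i, j⟩, a, ha⟩ := (famGlue A).exists_pt t
        refine ⟨p, i, j, W.inc _ a, ?_⟩
        rw [W.snoc_eq, mul_assoc, kap_mul, ha, hp]
      · exact ⟨s, i, j, W.snoc w' t, by rw [W.mul_snoc, hw]⟩
  new := by
    intro s i j w' p h
    have h1 := len_kap hP A s i j w'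
    rw [h] at h1
    exact absurd h1 (lt_irrefl 0)
  dvd := by
    intro s i j w' p
    have h := W.inc_dvd_iff (A := (famGlue A).toAct (goodX hP)) (s := p)
      (x := W.inc _ s * kap hP A i j * w')
    rw [head_mul_letter] at h
    constructor
    · rintro ⟨y, hy⟩
      obtain ⟨c, hc⟩ := h.1 ⟨y, hy.symm⟩
      exact ⟨c, hc.symm⟩
    · rintro ⟨c, hc⟩
      obtain ⟨y, hy⟩ := h.2 ⟨c, hc.symm⟩
      exact ⟨y, hy.symm⟩

end fam

/-- leaf A-S1 -/
theorem stS1 : StS1 := fun P _ hP _ _ A => ⟨Ext hP A, inferInstance, W.inc _, kap hP A, s1ext hP A⟩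

end Crest.Agent.R296.StS1x531
end

-- ▼ part R296/StH_478
section

/-!
Row 296, leaf A-H (helper478): `StS2 → StH`.
The left `P`-set `H` is the quotient of `Ltr P` by `Ltr.Eqv`; it satisfies the laws of `S2Data`.
-/

set_option autoImplicit false

namespace Crest.Agent.R296.StHx478

open IfAx378

universe u v

variable {P : Type u} [Monoid P]

theorem R_ran (C : Closed P) {s r : P} (h : C.R s r) : r ∈ C.S := C.dom _ _ (C.symm _ _ h)

theorem eqv_refl (l : Ltr P) : l.Eqv l :=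
  ⟨rfl, 1, 1, rfl, by rw [mul_one]; exact l.d.C.refl _ l.hr⟩

theorem eqv_symm {l l' : Ltr P} (h : l.Eqv l') : l'.Eqv l := by
  obtain ⟨h0, t, t', h1, h2⟩ := h
  refine ⟨h0.symm, t', t, h1.symm, ?_⟩
  rw [← h0]
  exact l.d.C.symm _ _ h2

theorem eqv_trans [IsGood P] {l l' l'' : Ltr P} (h : l.Eqv l') (h' : l'.Eqv l'') : l.Eqv l'' := by
  obtain ⟨d, s, r, hr⟩ := l
  obtain ⟨d', s', r', hr'⟩ := l'
  obtain ⟨d'', s'', r'', hr''⟩ := l''
  obtain ⟨h0, z, w, h1, h2⟩ := h
  obtain ⟨h0', z', w', h1', h2'⟩ := h'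
  dsimp only at *
  subst h0
  subst h0'
  obtain ⟨m, hm, ⟨t, ht⟩, ⟨t', ht'⟩⟩ := d.C.dir _ _ (R_ran _ h2) (d.C.dom _ _ h2')
  have e : w * t = z' * t' := by
    apply IsGood.lc r'
    rw [← mul_assoc, ← mul_assoc, ← ht, ← ht']
  refine ⟨rfl, z * t, w' * t', ?_, ?_⟩
  · dsimp only
    rw [← mul_assoc, ← mul_assoc, h1, ← h1', mul_assoc, mul_assoc, e]
  · have k1 := d.C.act _ _ t h2 (by rw [← ht]; exact hm)
    have k2 := d.C.act _ _ t' (d.C.symm _ _ h2') (by rw [← ht']; exact hm)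
    rw [← ht] at k1
    rw [← ht'] at k2
    dsimp only
    rw [← mul_assoc, ← mul_assoc]
    exact d.C.trans _ _ _ k1 (d.C.symm _ _ k2)

variable (P) in
/-- equality of letters -/
def ltrSetoid [IsGood P] : Setoid (Ltr P) where
  r := Ltr.Eqv
  iseqv := ⟨eqv_refl, eqv_symm, eqv_trans⟩

variable (P) in
/-- the left `P`-set of all letters -/
def HH [IsGood P] : Type u := Quotient (ltrSetoid P)

variable [IsGood P]

/-- class of a letter -/
def cls (l : Ltr P) : HH P := Quotient.mk (ltrSetoid P) l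

theorem cls_eq_iff {l l' : Ltr P} : cls l = cls l' ↔ l.Eqv l' :=
  ⟨fun h => Quotient.exact h, fun h => Quotient.sound (s := ltrSetoid P) h⟩

theorem cls_surj (h : HH P) : ∃ l, h = cls l := by
  obtain ⟨l, rfl⟩ := Quotient.exists_rep h
  exact ⟨l, rfl⟩

omit [IsGood P] in
theorem smul_eqv (p : P) {l l' : Ltr P} (h : l.Eqv l') : (l.smul p).Eqv (l'.smul p) := by
  obtain ⟨h0, t, t', h1, h2⟩ := h
  refine ⟨h0, t, t', ?_, h2⟩
  show p * l.s * t = p * l'.s * t'
  rw [mul_assoc, mul_assoc, h1]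

instance : MulAction P (HH P) where
  smul p h := Quotient.map' (s₁ := ltrSetoid P) (s₂ := ltrSetoid P) (Ltr.smul p)
    (fun _ _ e => smul_eqv p e) h
  one_smul h := by
    obtain ⟨⟨d, s, r, hr⟩, rfl⟩ := cls_surj h
    show cls ⟨d, 1 * s, r, hr⟩ = cls ⟨d, s, r, hr⟩
    simp only [one_mul]
  mul_smul p q h := by
    obtain ⟨⟨d, s, r, hr⟩, rfl⟩ := cls_surj h
    show cls ⟨d, p * q * s, r, hr⟩ = cls ⟨d, p * (q * s), r, hr⟩
    simp only [mul_assoc]

theorem smul_cls (p : P) (l : Ltr P) : p • cls l = cls (l.smul p) := rfl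

/-- restriction of the germ -/
theorem cls_restrict (d : Datum P) (s r t : P) (hr : r ∈ d.C.S) (h : r * t ∈ d.C.S) :
    cls ⟨d, s, r, hr⟩ = cls ⟨d, s * t, r * t, h⟩ :=
  cls_eq_iff.2 ⟨rfl, t, 1, by simp only [mul_one], by
    simp only [mul_one]; exact d.C.refl _ h⟩

theorem value_unique {l l' : Ltr P} {x x' : P} (h : l.Eqv l') (e : l.d.b = l.r * x)
    (e' : l'.d.b = l'.r * x') : l.s * x = l'.s * x' := by
  obtain ⟨d, s, r, hr⟩ := l
  obtain ⟨d', s', r', hr'⟩ := l'
  obtain ⟨h0, z, w, h1, h2⟩ := h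
  dsimp only at *
  subst h0
  obtain ⟨y, hy⟩ := d.b_mem.1 _ (d.C.dom _ _ h2)
  have hy' := d.b_mem.2 _ _ y (d.C.symm _ _ h2) hy
  have e1 : x = z * y := IsGood.lc r _ _ (by rw [← e, hy, mul_assoc])
  have e2 : x' = w * y := IsGood.lc r' _ _ (by rw [← e', ← mul_assoc, ← hy'])
  rw [e1, e2, ← mul_assoc, h1, mul_assoc]

theorem value_exists (h : HH P) :
    ∃ p : P, ∀ (l : Ltr P) x, h = cls l → l.d.b = l.r * x → p = l.s * x := by
  obtain ⟨l, rfl⟩ := cls_surj h
  obtain ⟨t, ht⟩ := l.d.b_mem.1 l.r l.hr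
  exact ⟨l.s * t, fun l' x e h' => value_unique (cls_eq_iff.1 e) ht h'⟩

/-- the value `h(b)` -/
noncomputable def value (h : HH P) : P := (value_exists h).choose

theorem value_cls {l : Ltr P} {x : P} (h : l.d.b = l.r * x) : value (cls l) = l.s * x :=
  (value_exists (cls l)).choose_spec l x rfl h

/-- the invariant `a` -/
def aH (h : HH P) : P := Quotient.lift (s := ltrSetoid P) (fun l => l.d.a)
  (fun _ _ (e : Ltr.Eqv _ _) => by rw [e.1]) h


omit [IsGood P] in
theorem b_notin (d : Datum P) : d.b ∉ d.C.S := by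
  intro h
  obtain ⟨p, hp, _, h2⟩ := d.ex_p
  exact h2 (hp.1 _ h)

variable (P) in
/-- the data of the (S2) extension by all letters -/
noncomputable def data : S2Data P (HH P) where
  e := value
  a := aH
  e_smul := by
    intro p h
    obtain ⟨l, rfl⟩ := cls_surj h
    obtain ⟨t, ht⟩ := l.d.b_mem.1 l.r l.hr
    rw [smul_cls, value_cls ht, value_cls (l := l.smul p) (x := t) ht]
    exact mul_assoc _ _ _
  a_smul := by
    intro p h
    obtain ⟨l, rfl⟩ := cls_surj h
    rfl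
  a_ne := by
    intro h
    obtain ⟨l, rfl⟩ := cls_surj h
    exact l.d.a_ne
  lc := by
    intro p h h' e
    obtain ⟨l, rfl⟩ := cls_surj h
    obtain ⟨l', rfl⟩ := cls_surj h'
    rw [smul_cls, smul_cls, cls_eq_iff] at e
    obtain ⟨h0, z, w, h1, h2⟩ := e
    refine cls_eq_iff.2 ⟨h0, z, w, ?_, h2⟩
    have h1' : p * l.s * z = p * l'.s * w := h1
    rw [mul_assoc, mul_assoc] at h1'
    exact IsGood.lc _ _ _ h1'
  lcm := by
    intro s s' h h' e
    obtain ⟨⟨d, f, r, hr⟩, rfl⟩ := cls_surj h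
    obtain ⟨⟨d', f', r', hr'⟩, rfl⟩ := cls_surj h'
    rw [smul_cls, smul_cls, cls_eq_iff] at e
    obtain ⟨h0, z, w, h1, h2⟩ := e
    dsimp only [Ltr.smul] at h0 h1 h2
    subst h0
    refine ⟨f * z, f' * w, cls ⟨d, 1, r * z, d.C.dom _ _ h2⟩, ?_, ?_, ?_⟩
    · rw [← mul_assoc, h1, mul_assoc]
    · rw [smul_cls]
      simp only [Ltr.smul, mul_one]
      exact cls_restrict _ _ _ _ _ _
    · rw [smul_cls]
      simp only [Ltr.smul, mul_one]
      exact cls_eq_iff.2 ⟨rfl, w, 1, by simp only [mul_one], by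
        simp only [mul_one]; exact d.C.symm _ _ h2⟩
  irr := by
    intro h h'
    obtain ⟨⟨d, s, r, hr⟩, rfl⟩ := cls_surj h
    obtain ⟨⟨d', s', r', hr'⟩, rfl⟩ := cls_surj h'
    obtain ⟨t, ht⟩ := d.b_mem.1 r hr
    rw [value_cls (l := ⟨d, s, r, hr⟩) (x := t) ht, smul_cls, Ne, cls_eq_iff]
    rintro ⟨h0, z, w, h1, h2⟩
    dsimp only [Ltr.smul] at h0 h1 h2
    subst h0
    have hw : t * s' * z = w := IsGood.lc s _ _ (by rw [← h1]; simp only [mul_assoc])
    refine b_notin d' (d'.C.up _ _ ⟨s' * z, ?_⟩ (R_ran _ h2))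
    rw [← hw, ht]
    simp only [mul_assoc]

/-- the (S2) extension by all letters from the abstract one -/
theorem s2All_of_s2Ext {P' : Type v} [Monoid P'] {ι : P →* P'} {y : HH P → P'} {len : P' → ℕ}
    (E : S2Ext (data P) ι y len) : S2All ι (fun l => y (cls l)) len where
  good := E.good
  cons := E.cons
  eqv := by
    intro l l'
    constructor
    · intro h
      show y (cls l) = y (cls l')
      rw [cls_eq_iff.2 h]
    · intro h
      have hne : ∀ h : HH P, ¬ ι ((data P).a h) ∣ 1 := by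
        rintro h ⟨c, hc⟩
        have h1 : ι ((data P).a h) = 1 := E.good.unit _ _ hc.symm
        exact (data P).a_ne h (E.cons.inj (by rw [h1, map_one]))
      have := E.uniq (cls l) 1 (cls l') 1 (hne _) (hne _) (by rw [mul_one, mul_one]; exact h)
      exact cls_eq_iff.1 this.1
  act := fun p l => E.act p (cls l)
  rel := by
    intro l x h
    have := E.rel (cls l)
    rw [show (data P).e (cls l) = l.s * x from value_cls h] at this
    exact this
  len_ι := E.len_ι
  len_mul := E.len_mul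
  len_y := fun l x h => E.len_y (cls l) x h
  nf := by
    intro w
    rcases E.nf w with h | ⟨h, x, h1, h2⟩
    · exact Or.inl h
    · obtain ⟨l, rfl⟩ := cls_surj h
      exact Or.inr ⟨l, x, h1, h2⟩
  new := fun l x p h => E.new (cls l) x p h
  uniq := by
    intro l x l' x' h h' e
    have := E.uniq (cls l) x (cls l') x' h h' e
    exact ⟨cls_eq_iff.1 this.1, this.2⟩

/-- A-H from A-S2 -/
theorem stH_of_stS2 (h : StS2) : StH := by
  intro P _ hP
  obtain ⟨P', _, ι, y, len, E⟩ := h P hP (HH P) (data P)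
  exact ⟨P', _, ι, fun l => y (cls l), len, s2All_of_s2Ext E⟩

end Crest.Agent.R296.StHx478
end

-- ▼ part R296/ACap_565

/-!
# Row 296, block A: the capturing lemma A.6 (leaf A-CAP), helper565
-/

set_option autoImplicit false

universe u v w

namespace Crest.Agent.R296.ACapx565

open Crest.Agent.R296.IfAx378

/-! ### one step of type (S2), abstract form -/

section s2
variable {P : Type u} {P' : Type v} [Monoid P] [Monoid P'] {ι : P →* P'} {y : Ltr P → P'}
  {len : P' → ℕ}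

/-- `s` divides an element with first letter `l`: then `l ∈ s H`, or the element is reducible -/
theorem first_letter (H : S2All ι y len) {s : P} {l : Ltr P} {u x : P'}
    (h : ι s * u = y l * x) (hx : ¬ ι l.d.a ∣ x) : ∃ l2, l.Eqv (Ltr.smul s l2) := by
  rcases H.nf u with ⟨p, rfl⟩ | ⟨l2, x2, rfl, hx2⟩
  · exact absurd (by rw [map_mul]; exact h.symm) (H.new l x (s * p) hx)
  · rw [← mul_assoc, H.act] at h
    exact ⟨l2, (H.uniq l x (Ltr.smul s l2) x2 hx hx2 h.symm).1⟩

/-- the value of a letter at `b` -/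
theorem exists_val (l : Ltr P) {z : P} (hz : l.d.C.Mem z) : ∃ x, z = l.r * x := hz.1 _ l.hr

/-- values of the letter are divisible by `s` if `l ∈ s H` -/
theorem dvd_val (hP : IsGood P) {s : P} {l l2 : Ltr P} (h : l.Eqv (Ltr.smul s l2)) {z x : P}
    (hz : l.d.C.Mem z) (hx : z = l.r * x) : s ∣ l.s * x := by
  obtain ⟨hd, t, t', h1, h2⟩ := h
  have h3 : l2.r * t' ∈ l.d.C.S := l.d.C.dom _ _ (l.d.C.symm _ _ h2)
  obtain ⟨q, hq⟩ := hz.1 _ h3
  have h4 : z = l.r * t * q := hz.2 _ _ q h2 hq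
  have h5 : x = t * q := by
    apply hP.lc l.r
    rw [← hx, h4, mul_assoc]
  rw [h5, ← mul_assoc, h1]
  show s ∣ s * l2.s * t' * q
  exact ⟨l2.s * t' * q, by simp only [mul_assoc]⟩

/-- common multiples of an old element and `x` factor through one of length `≤ len x` -/
theorem lcm_len (H : S2All ι y len) : ∀ (n : ℕ) (x : P'), len x ≤ n → ∀ (a : P) (z v : P'),
    ι a * z = x * v → ∃ z0 v0 t, ι a * z0 = x * v0 ∧ v = v0 * t ∧ len (x * v0) ≤ len x := by
  intro n
  induction n with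
  | zero =>
    intro x hx a z v h
    rcases H.nf x with ⟨p, rfl⟩ | ⟨l, x1, rfl, hx1⟩
    · obtain ⟨x1, y1, t, h1, h2, h3⟩ := H.cons.amal _ _ _ _ h
      refine ⟨ι x1, ι y1, t, ?_, h3, ?_⟩
      · rw [← map_mul, ← map_mul, h1]
      · rw [← map_mul, H.len_ι, H.len_ι]
    · rw [H.len_y l x1 hx1] at hx
      omega
  | succ n ih =>
    intro x hx a z v h
    rcases H.nf x with ⟨p, rfl⟩ | ⟨l, x1, rfl, hx1⟩
    · obtain ⟨x1, y1, t, h1, h2, h3⟩ := H.cons.amal _ _ _ _ h
      refine ⟨ι x1, ι y1, t, ?_, h3, ?_⟩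
      · rw [← map_mul, ← map_mul, h1]
      · rw [← map_mul, H.len_ι, H.len_ι]
    · rw [H.len_y l x1 hx1] at hx
      by_cases hd : ι l.d.a ∣ x1 * v
      · obtain ⟨z1, hz1⟩ := hd
        obtain ⟨z1', v1, t1, g1, g2, g3⟩ := ih x1 (by omega) l.d.a z1 v hz1.symm
        obtain ⟨xb, hxb⟩ := exists_val l l.d.b_mem
        have hrel := H.rel l xb hxb
        -- `x v1 = e z1'`
        have k1 : y l * x1 * v1 = ι (l.s * xb) * z1' := by
          rw [mul_assoc, ← g1, ← mul_assoc, hrel]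
        have k2 : len z1' ≤ len x1 := by
          rw [← H.len_mul l.d.a z1', g1]
          exact g3
        have k3 : ι a * z = ι (l.s * xb) * (z1' * t1) := by
          rw [h, g2, ← mul_assoc, k1, mul_assoc]
        obtain ⟨p1, q1, t2, m1, m2, m3⟩ := H.cons.amal _ _ _ _ k3
        obtain ⟨t2', t1', t3, r1, r2, r3⟩ := ih z1' (by omega) q1 t2 t1 m3.symm
        refine ⟨ι p1 * t2', v1 * t1', t3, ?_, ?_, ?_⟩
        · rw [← mul_assoc (y l * x1), k1, mul_assoc, ← r1, ← mul_assoc, ← mul_assoc, ← map_mul,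
            ← map_mul, m1]
        · rw [g2, r2, mul_assoc]
        · rw [← mul_assoc (y l * x1), k1, mul_assoc, H.len_mul, H.len_y l x1 hx1]
          omega
      · rw [mul_assoc] at h
        obtain ⟨l2, hl2⟩ := first_letter H h hd
        have e : y l = ι a * y l2 := by
          rw [H.act]
          exact (H.eqv _ _).mp hl2
        refine ⟨y l2 * x1, 1, v, ?_, by rw [one_mul], ?_⟩
        · rw [mul_one, ← mul_assoc, ← e]
        · rw [mul_one]

end s2

/-! ### the tower -/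

section tower
variable {P : Type 1} [Monoid P] (T : Tower P)

/-- divisibility descends -/
theorem dvd_down {β : Ordinal.{0}} {f g : P} (hf : f ∈ T.A β) (hg : g ∈ T.A β) (h : f ∣ g) :
    ∃ x ∈ T.A β, g = f * x := by
  obtain ⟨c, hc⟩ := h
  have h1 : (T.A β).subtype ⟨f, hf⟩ * c = (T.A β).subtype ⟨g, hg⟩ * 1 := by
    show f * c = g * 1
    rw [mul_one, hc]
  obtain ⟨x, z, t, h2, h3, h4⟩ := (T.cons β).amal _ _ _ _ h1
  have h5 : (z : P) = 1 := T.good.unit _ _ h4.symm
  refine ⟨x, x.2, ?_⟩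
  have h6 := congrArg Subtype.val h2
  have h7 : f * (x : P) = g * (z : P) := h6
  rw [h5, mul_one] at h7
  exact h7.symm

/-- common multiples descend -/
theorem common_down {β : Ordinal.{0}} {f g : P} (hf : f ∈ T.A β) (hg : g ∈ T.A β) {x z : P}
    (h : f * x = g * z) : ∃ x1 ∈ T.A β, ∃ z1 ∈ T.A β, ∃ t, f * x1 = g * z1 ∧ x = x1 * t ∧ z = z1 * t := by
  obtain ⟨x1, z1, t, h2, h3, h4⟩ := (T.cons β).amal ⟨f, hf⟩ ⟨g, hg⟩ x z h
  exact ⟨x1, x1.2, z1, z1.2, t, congrArg Subtype.val h2, h3, h4⟩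

theorem isGood (β : Ordinal.{0}) : IsGood (T.A β) where
  lc f g h hh := Subtype.ext (T.good.lc f g h (congrArg Subtype.val hh))
  unit f g hh := Subtype.ext (T.good.unit f g (congrArg Subtype.val hh))
  lcm f g x z h := by
    obtain ⟨u, v, h1, h2⟩ := T.good.lcm (f : P) g x z (congrArg Subtype.val h)
    obtain ⟨u1, hu1, v1, hv1, t, h3, h4, h5⟩ := common_down T f.2 g.2 h1
    refine ⟨⟨u1, hu1⟩, ⟨v1, hv1⟩, Subtype.ext h3, ?_⟩
    intro x' y' hxy
    -- `t = 1`
    obtain ⟨t', ht1, ht2⟩ := h2 u1 v1 h3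
    have ht : t' * t = 1 := by
      apply T.good.lc u
      rw [← mul_assoc, ← ht1, ← h4, mul_one]
    have ht' : t' = 1 := T.good.unit _ _ ht
    rw [ht', mul_one] at ht1 ht2
    obtain ⟨q, hq1, hq2⟩ := h2 x' y' (congrArg Subtype.val hxy)
    rw [← ht1] at hq1
    rw [← ht2] at hq2
    obtain ⟨q1, hq1', hq3⟩ := dvd_down T hu1 x'.2 ⟨q, hq1⟩
    have hqq : q = q1 := T.good.lc u1 _ _ (hq1.symm.trans hq3)
    exact ⟨⟨q1, hq1'⟩, Subtype.ext hq3, Subtype.ext (by rw [hq2, hqq]; rfl)⟩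

/-- one step of type (S1) -/
theorem step1 {β : Ordinal.{0}} (hβ : β % 2 = 0) {w : P} (hw : w ∈ T.A (Order.succ β))
    (hw' : w ∉ T.A β) :
    ∃ s0 ∈ T.A β, s0 ∣ w ∧ (∀ x, w * x ∉ T.A β) ∧ ∀ s ∈ T.A β, ∀ x, s ∣ w * x → s ∣ s0 := by
  have H := T.s1 β hβ
  set ι := Submonoid.inclusion (T.mono (Order.le_succ β)) with hι
  rcases H.nf ⟨w, hw⟩ with ⟨p, hp⟩ | ⟨s0, i, j, w', hw1⟩
  · refine absurd ?_ hw'
    have : w = (p : P) := congrArg Subtype.val hp
    rw [this]
    exact p.2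
  have hwv : w = (s0 : P) * ((T.κ β i j : P) * (w' : P)) := by
    have := congrArg Subtype.val hw1
    rw [mul_assoc] at this
    exact this
  refine ⟨s0, s0.2, ⟨_, hwv⟩, ?_, ?_⟩
  · intro x hx
    obtain ⟨x1, hx1, hx2⟩ := dvd_down T hw (T.mono (Order.le_succ β) hx) ⟨x, rfl⟩
    have h1 : ι s0 * T.κ β i j * (w' * ⟨x1, hx1⟩) = ι ⟨w * x, hx⟩ := by
      rw [← mul_assoc, ← hw1]
      exact Subtype.ext hx2.symm
    exact H.new _ _ _ _ _ h1
  · rintro s hs x ⟨z, hz⟩
    obtain ⟨x1, hx1, z1, hz1, t, h1, h2, h3⟩ := common_down T hw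
      (T.mono (Order.le_succ β) hs) hz
    have h4 : ι ⟨s, hs⟩ ∣ ι s0 * T.κ β i j * (w' * ⟨x1, hx1⟩) := by
      refine ⟨⟨z1, hz1⟩, ?_⟩
      rw [← mul_assoc, ← hw1]
      exact Subtype.ext h1
    obtain ⟨q, hq⟩ := (H.dvd _ _ _ _ _).mp h4
    exact ⟨q, congrArg Subtype.val hq⟩

/-- data of a new element at a step of type (S2): `e = h(b)`, `p = h(p)`; `hC` = the letter is in `sH` -/
theorem step2_core {β : Ordinal.{0}} (hβ : β % 2 = 1) (l : Ltr (T.A β))
    (x : T.A (Order.succ β)) :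
    ∃ e ∈ T.A β, ∃ p ∈ T.A β, p ∣ e ∧ ¬ e ∣ p ∧
      (∀ s (hs : s ∈ T.A β), (∃ l2, l.Eqv (Ltr.smul ⟨s, hs⟩ l2)) → s ∣ p) ∧
      (∀ x', (T.y β l : P) * x * x' ∈ T.A β → e ∣ (T.y β l : P) * x * x') := by
  have H := T.s2 β hβ
  set ι := Submonoid.inclusion (T.mono (Order.le_succ β)) with hι
  obtain ⟨p, hp1, hp2, hp3⟩ := l.d.ex_p
  obtain ⟨xb, hxb⟩ := exists_val l l.d.b_mem
  obtain ⟨xp, hxp⟩ := exists_val l hp1
  have hG := isGood T β
  refine ⟨((l.s * xb : T.A β) : P), (l.s * xb).2, ((l.s * xp : T.A β) : P), (l.s * xp).2,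
    ?_, ?_, ?_, ?_⟩
  · obtain ⟨q, hq⟩ := hp2
    have h1 : xb = xp * q := by
      apply hG.lc l.r
      rw [← hxb, hq, hxp, mul_assoc]
    refine ⟨(q : P), ?_⟩
    rw [h1, ← mul_assoc]
    rfl
  · rintro ⟨q, hq⟩
    obtain ⟨q1, hq1, hq2⟩ := dvd_down T (l.s * xb).2 (l.s * xp).2 ⟨q, hq⟩
    apply hp3
    refine ⟨⟨q1, hq1⟩, ?_⟩
    have h1 : l.s * xp = l.s * (xb * ⟨q1, hq1⟩) := by
      rw [← mul_assoc]
      exact Subtype.ext hq2
    have h2 := hG.lc _ _ _ h1
    rw [hxp, hxb, h2, mul_assoc]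
  · rintro s hs ⟨l2, hl2⟩
    obtain ⟨q, hq⟩ := dvd_val hG hl2 hp1 hxp
    exact ⟨(q : P), congrArg Subtype.val hq⟩
  · intro x' hx'
    obtain ⟨x1, hx1, hx2⟩ := dvd_down T (T.y β l * x).2 (T.mono (Order.le_succ β) hx')
      ⟨x', rfl⟩
    have h1 : T.y β l * (x * ⟨x1, hx1⟩) = ι ⟨_, hx'⟩ := by
      rw [← mul_assoc]
      exact Subtype.ext hx2.symm
    by_cases hd : ι l.d.a ∣ x * ⟨x1, hx1⟩
    · obtain ⟨z, hz⟩ := hd
      have h2 : ι ⟨_, hx'⟩ = ι (l.s * xb) * z := by
        rw [← h1, hz, ← mul_assoc, H.rel l xb hxb]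
      exact ⟨(z : P), congrArg Subtype.val h2⟩
    · exact absurd h1 (H.new _ _ _ hd)

/-- the parity of an ordinal -/
theorem parity (β : Ordinal.{0}) : β % 2 = 0 ∨ β % 2 = 1 := by
  have h : β % 2 < 2 := Ordinal.mod_lt β (by norm_num)
  have h2 : (2 : Ordinal.{0}) = Order.succ 1 := by
    rw [← one_add_one_eq_two]; rfl
  have h3 : β % 2 < Order.succ 1 := h.trans_eq h2
  rw [Order.lt_succ_iff] at h3
  rcases h3.lt_or_eq with h | h
  · left
    exact Order.lt_one_iff.mp h
  · right; exact h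

/-- **STEP** -/
theorem step {β : Ordinal.{0}} {w : P} (hw : w ∈ T.A (Order.succ β)) (hw' : w ∉ T.A β) :
    ∃ e ∈ T.A β, ∃ p ∈ T.A β, p ∣ e ∧ ¬ e ∣ p ∧ (∀ s ∈ T.A β, s ∣ w → s ∣ p) ∧
      (∀ x, w * x ∈ T.A β → e ∣ w * x) := by
  rcases parity β with hβ | hβ
  · obtain ⟨s0, h0, h1, h2, h3⟩ := step1 T hβ hw hw'
    refine ⟨s0 * T.f0, mul_mem h0 (T.mono zero_le T.f0_mem), s0, h0, ⟨_, rfl⟩, ?_, ?_, ?_⟩
    · rintro ⟨q, hq⟩
      have h4 : T.f0 * q = 1 := by
        apply T.good.lc s0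
        rw [← mul_assoc, ← hq, mul_one]
      exact T.f0_ne (T.good.unit _ _ h4)
    · intro s hs hsw
      exact h3 s hs 1 (by rw [mul_one]; exact hsw)
    · intro x hx
      exact absurd hx (h2 x)
  · have H := T.s2 β hβ
    rcases H.nf ⟨w, hw⟩ with ⟨p, hp⟩ | ⟨l, x, hwx, hx⟩
    · refine absurd ?_ hw'
      have : w = (p : P) := congrArg Subtype.val hp
      rw [this]
      exact p.2
    have hwv : w = (T.y β l : P) * (x : P) := congrArg Subtype.val hwx
    obtain ⟨e, he, p, hp, h1, h2, h3, h4⟩ := step2_core T hβ l x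
    refine ⟨e, he, p, hp, h1, h2, ?_, ?_⟩
    · rintro s hs hsw
      obtain ⟨z, hz, hz2⟩ := dvd_down T (T.mono (Order.le_succ β) hs) hw hsw
      refine h3 s hs ?_
      apply first_letter H (u := ⟨z, hz⟩) (x := x) _ hx
      rw [← hwx]
      exact Subtype.ext hz2.symm
    · intro x' hx'
      rw [hwv] at hx' ⊢
      exact h4 x' hx'

/-- the CLAIM of A.6 -/
theorem claim (F : Filt P) (α : Ordinal.{0}) : ∀ γ : Ordinal.{0}, α ≤ γ → ∀ d ∈ T.A γ,
    (∀ s ∈ T.A α, s ∈ F.S → s ∣ d) →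
    (∀ w ∈ T.A α, (∀ s ∈ T.A α, s ∈ F.S → s ∣ w) → d ∣ w) → d ∈ T.A α := by
  intro γ
  induction γ using WellFoundedLT.induction with
  | ind γ ih =>
  intro hαγ d hd h1 h2
  by_cases hdα : d ∈ T.A α
  · exact hdα
  rcases eq_or_lt_of_le hαγ with rfl | hlt
  · exact hd
  rcases Ordinal.zero_or_succ_or_isSuccLimit γ with rfl | ⟨γ', rfl⟩ | hlim
  · exact absurd hlt (not_lt.mpr zero_le)
  · have hαγ' : α ≤ γ' := Order.lt_succ_iff.mp hlt
    by_cases hdγ : d ∈ T.A γ'
    · exact ih γ' (Order.lt_succ γ') hαγ' d hdγ h1 h2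
    exfalso
    obtain ⟨e, he, p, hp, k1, k2, k3, k4⟩ := step T hd hdγ
    have hsp : ∀ s ∈ T.A α, s ∈ F.S → s ∣ p := fun s hs hsF =>
      k3 s (T.mono hαγ' hs) (h1 s hs hsF)
    have hwe : ∀ w ∈ T.A α, (∀ s ∈ T.A α, s ∈ F.S → s ∣ w) → e ∣ w := by
      intro w hw hws
      obtain ⟨x, hx⟩ := h2 w hw hws
      rw [hx]
      apply k4
      rw [← hx]
      exact T.mono hαγ' hw
    have hpα : p ∈ T.A α := ih γ' (Order.lt_succ γ') hαγ' p hp hsp
      (fun w hw hws => k1.trans (hwe w hw hws))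
    exact k2 (hwe p hpα hsp)
  · obtain ⟨δ, hδ, hdδ⟩ := T.lim γ hlim d hd
    rcases le_total α δ with h | h
    · exact ih δ hδ h d hdδ h1 h2
    · exact T.mono h hdδ

/-- **STEPF**: a bad element of the filter of minimal length -/
theorem stepF (F : Filt P) {β : Ordinal.{0}} {V : P} (hV : V ∈ T.A (Order.succ β)) (hVF : V ∈ F.S)
    (hbad : ∀ m ∈ T.A β, m ∈ F.S → ¬ V ∣ m) :
    ∃ V' ∈ F.S, ∃ e ∈ T.A β, ∃ p ∈ T.A β, p ∣ e ∧ ¬ e ∣ p ∧
      (∀ s ∈ T.A β, s ∈ F.S → s ∣ p) ∧ (∀ x, V' * x ∈ T.A β → e ∣ V' * x) := by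
  have hVβ : V ∉ T.A β := fun h => hbad V h hVF (dvd_refl V)
  rcases parity β with hβ | hβ
  · obtain ⟨s0, h0, h1, h2, h3⟩ := step1 T hβ hV hVβ
    refine ⟨V, hVF, s0 * T.f0, mul_mem h0 (T.mono zero_le T.f0_mem), s0, h0, ⟨_, rfl⟩,
      ?_, ?_, ?_⟩
    · rintro ⟨q, hq⟩
      have h4 : T.f0 * q = 1 := by
        apply T.good.lc s0
        rw [← mul_assoc, ← hq, mul_one]
      exact T.f0_ne (T.good.unit _ _ h4)
    · intro s hs hsF
      obtain ⟨m, hm, hsm, x, hx⟩ := F.dir s V hsF hVF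
      exact h3 s hs x (by rw [← hx]; exact hsm)
    · intro x hx
      exact absurd hx (h2 x)
  · have H := T.s2 β hβ
    set ι := Submonoid.inclusion (T.mono (Order.le_succ β)) with hι
    -- induction on the length
    have key : ∀ n : ℕ, ∀ V : T.A (Order.succ β), T.len β V ≤ n → (V : P) ∈ F.S →
        (∀ m ∈ T.A β, m ∈ F.S → ¬ (V : P) ∣ m) →
        ∃ V' ∈ F.S, ∃ e ∈ T.A β, ∃ p ∈ T.A β, p ∣ e ∧ ¬ e ∣ p ∧
          (∀ s ∈ T.A β, s ∈ F.S → s ∣ p) ∧ (∀ x, V' * x ∈ T.A β → e ∣ V' * x) := by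
      intro n
      induction n with
      | zero =>
        intro V hn hVF hbad
        rcases H.nf V with ⟨p, hp⟩ | ⟨l, x, hwx, hx⟩
        · exact absurd (dvd_refl (V : P)) (hbad (V : P) (by rw [hp]; exact p.2) hVF)
        · rw [hwx, H.len_y l x hx] at hn
          omega
      | succ n ih =>
        intro V hn hVF hbad
        rcases H.nf V with ⟨p, hp⟩ | ⟨l, x, hwx, hx⟩
        · exact absurd (dvd_refl (V : P)) (hbad (V : P) (by rw [hp]; exact p.2) hVF)
        have hVx : (V : P) = (T.y β l : P) * (x : P) := congrArg Subtype.val hwx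
        by_cases hall : ∀ s (hs : s ∈ T.A β), s ∈ F.S → ∃ l2, l.Eqv (Ltr.smul ⟨s, hs⟩ l2)
        · obtain ⟨e, he, p, hp, h1, h2, h3, h4⟩ := step2_core T hβ l x
          refine ⟨V, hVF, e, he, p, hp, h1, h2, fun s hs hsF => h3 s hs (hall s hs hsF), ?_⟩
          intro x' hx'
          rw [hVx] at hx' ⊢
          exact h4 x' hx'
        · push Not at hall
          obtain ⟨s, hs, hsF, hno⟩ := hall
          obtain ⟨m, hm, ⟨z, hz⟩, ⟨v', hv'⟩⟩ := F.dir s V hsF hVF
          obtain ⟨z1, hz1, v1, hv1, t, g1, g2, g3⟩ := common_down T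
            (T.mono (Order.le_succ β) hs) V.2 (hz.symm.trans hv')
          have g4 : ι ⟨s, hs⟩ * ⟨z1, hz1⟩ = T.y β l * (x * ⟨v1, hv1⟩) := by
            rw [← mul_assoc, ← hwx]
            exact Subtype.ext g1
          have hd : ι l.d.a ∣ x * ⟨v1, hv1⟩ := by
            by_contra hd
            obtain ⟨l2, hl2⟩ := first_letter H g4 hd
            exact hno l2 hl2
          obtain ⟨q, hq⟩ := hd
          obtain ⟨z0, v0, t', r1, r2, r3⟩ := lcm_len H (T.len β x) x le_rfl l.d.a q ⟨v1, hv1⟩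
            hq.symm
          obtain ⟨xb, hxb⟩ := exists_val l l.d.b_mem
          have e1 : V * v0 = ι (l.s * xb) * z0 := by
            rw [hwx, mul_assoc, ← r1, ← mul_assoc, H.rel l xb hxb]
          have e2 : T.len β (V * v0) ≤ n := by
            rw [e1, H.len_mul, ← H.len_mul l.d.a z0, r1]
            rw [hwx, H.len_y l x hx] at hn
            omega
          have e3 : ((V * v0 : T.A (Order.succ β)) : P) ∣ m := by
            refine ⟨(t' : P) * t, ?_⟩
            rw [hv', g3]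
            have : v1 = (v0 : P) * (t' : P) := congrArg Subtype.val r2
            rw [this]
            simp only [Submonoid.coe_mul, mul_assoc]
          refine ih (V * v0) e2 (F.up _ _ e3 hm) ?_
          intro m' hm' hm'F hdv
          exact hbad m' hm' hm'F ((Dvd.intro _ rfl).trans hdv)
    exact key _ ⟨V, hV⟩ le_rfl hVF hbad

/-- **A-CAP = A.6** -/
theorem cap : StCap T := by
  intro F α hyp
  by_contra hcon
  -- the least stage at which `F` is not generated
  have hex : ∃ β : Ordinal.{0}, ∃ s ∈ T.A β, s ∈ F.S ∧ ∀ m ∈ T.A α, m ∈ F.S → ¬ s ∣ m := by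
    unfold GenBy at hcon
    push Not at hcon
    obtain ⟨s, hs, hs2⟩ := hcon
    obtain ⟨β, hβ⟩ := T.exh s
    exact ⟨β, s, hβ, hs, fun m hm hmF => hs2 m hm hmF⟩
  obtain ⟨β0, hβ0, hmin⟩ : ∃ β0 : Ordinal.{0},
      (∃ s ∈ T.A β0, s ∈ F.S ∧ ∀ m ∈ T.A α, m ∈ F.S → ¬ s ∣ m) ∧
      ∀ γ < β0, ¬ ∃ s ∈ T.A γ, s ∈ F.S ∧ ∀ m ∈ T.A α, m ∈ F.S → ¬ s ∣ m := by
    obtain ⟨β0, h1, h2⟩ := (wellFounded_lt (α := Ordinal.{0})).has_min
      {β | ∃ s ∈ T.A β, s ∈ F.S ∧ ∀ m ∈ T.A α, m ∈ F.S → ¬ s ∣ m} hex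
    exact ⟨β0, h1, fun γ hγ h => h2 γ h hγ⟩
  obtain ⟨V, hV, hVF, hbad⟩ := hβ0
  have hαβ : α < β0 := by
    by_contra h
    push Not at h
    exact hbad V (T.mono h hV) hVF (dvd_refl V)
  rcases Ordinal.zero_or_succ_or_isSuccLimit β0 with rfl | ⟨β, rfl⟩ | hlim
  · exact absurd hαβ (not_lt.mpr zero_le)
  · have hαβ' : α ≤ β := Order.lt_succ_iff.mp hαβ
    have hG : ∀ s ∈ T.A β, s ∈ F.S → ∃ m ∈ T.A α, m ∈ F.S ∧ s ∣ m := by
      intro s hs hsF
      by_contra h
      push Not at h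
      exact hmin β (Order.lt_succ β) ⟨s, hs, hsF, fun m hm hmF => h m hm hmF⟩
    have hbad' : ∀ m ∈ T.A β, m ∈ F.S → ¬ V ∣ m := by
      intro m hm hmF hVm
      obtain ⟨m', hm', hm'F, h⟩ := hG m hm hmF
      exact hbad m' hm' hm'F (hVm.trans h)
    obtain ⟨V', hV'F, e, he, p, hp, k1, k2, k3, k4⟩ := stepF T F hV hVF hbad'
    have hsp : ∀ s ∈ T.A α, s ∈ F.S → s ∣ p := fun s hs hsF => k3 s (T.mono hαβ' hs) hsF
    have hwe : ∀ w ∈ T.A α, (∀ s ∈ T.A α, s ∈ F.S → s ∣ w) → e ∣ w := by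
      intro w hw hws
      obtain ⟨x, hx⟩ := hyp w hw hws V' hV'F
      rw [hx]
      apply k4
      rw [← hx]
      exact T.mono hαβ' hw
    have hpα : p ∈ T.A α := claim T F α β hαβ' p hp hsp
      (fun w hw hws => k1.trans (hwe w hw hws))
    exact k2 (hwe p hpα hsp)
  · obtain ⟨δ, hδ, hVδ⟩ := T.lim β0 hlim V hV
    exact hmin δ hδ ⟨V, hVδ, hVF, hbad⟩

end tower

end Crest.Agent.R296.ACapx565

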