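import Crest.Agent.R296.CatFrc_365
import Crest.Agent.R296.CatOps_365

-- ▼ part R296/CatLift_365
section

/-!
Row 296 (S0448), helper365.  **Block B: forcing of lifted formulas and of universal closures.**
-/

set_option autoImplicit false

namespace Crest.Agent.R296.CatLiftx365

open CategoryTheory FirstOrder FirstOrder.Language Crest.LogicCS.SetTheory
open Crest.Agent.R296.CatFx365 Crest.Agent.R296.CatFrcx365
open BoundedFormula

universe u

variable {C : Type u} [Category.{u} C]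

lemma fc_castLE_of_eq {m n : ℕ} (h : m = n) {h' : m ≤ n} {φ : setL.BoundedFormula Empty m} {d : C}
    {v : Fin n → Val C d} : Fc (φ.castLE h') v ↔ Fc φ (v ∘ Fin.cast h) := by
  subst h
  simp only [castLE_rfl, Fin.cast_refl, Function.comp_id]

lemma tv_liftAt {n n' m : ℕ} (t : setL.Term (Empty ⊕ Fin n)) {d : C} (v : Fin (n + n') → Val C d) :
    tv v (t.liftAt n' m) =
      tv (v ∘ fun i : Fin n => if (i : ℕ) < m then Fin.castAdd n' i else Fin.addNat i n') t := by
  cases t with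
  | var a =>
    cases a with
    | inl a => exact a.elim
    | inr i => rfl
  | func f ts => exact Empty.elim f


theorem fc_liftAt {n n' m : ℕ} (φ : setL.BoundedFormula Empty n) (hmn : m ≤ n) {d : C}
    (v : Fin (n + n') → Val C d) :
    Fc (φ.liftAt n' m) v ↔
      Fc φ (v ∘ fun i => if (i : ℕ) < m then Fin.castAdd n' i else Fin.addNat i n') := by
  rw [liftAt]
  induction φ generalizing d with
  | falsum => simp [mapTermRel, Fc]
  | equal => simp only [mapTermRel, Fc, tv_liftAt]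
  | rel => simp only [mapTermRel, Fc, tv_liftAt]; rfl
  | imp _ _ ih1 ih2 =>
    simp only [mapTermRel, Fc, ih1 hmn, ih2 hmn]
    rfl
  | @all k _ ih3 =>
    have h : k + 1 + n' = k + n' + 1 := by rw [add_assoc, add_comm 1 n', ← add_assoc]
    simp only [mapTermRel, Fc, fc_castLE_of_eq h, ih3 (hmn.trans k.le_succ)]
    refine forall_congr' fun d1 => forall_congr' fun g => forall_congr' fun x => ?_
    have e : ((sn (vr g v) x ∘ Fin.cast h) ∘ fun i : Fin (k + 1) =>
        if (i : ℕ) < m then Fin.castAdd n' i else Fin.addNat i n') =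
        sn (vr g (v ∘ fun i : Fin k => if (i : ℕ) < m then Fin.castAdd n' i else Fin.addNat i n')) x := by
      funext i
      refine Fin.lastCases ?_ (fun i => ?_) i
      · simp only [Function.comp_apply, Fin.val_last, sn_last]
        refine (congrArg _ (Fin.ext ?_)).trans (sn_last _ _)
        split_ifs <;> dsimp; omega
      · simp only [Function.comp_apply, sn_castSucc, vr_apply]
        refine (congrArg _ (Fin.ext ?_)).trans (sn_castSucc _ _ _)
        simp only [Fin.val_castSucc, Fin.val_cast]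
        split_ifs <;> simp
    rw [e]

/-- universal closure -/
theorem fc_alls {k : ℕ} (φ : setL.BoundedFormula Empty k) {d : C}
    (H : ∀ (d' : C) (_ : d' ⟶ d) (w : Fin k → Val C d'), Fc φ w) : Fs d φ.alls := by
  induction k generalizing d with
  | zero =>
    have h0 := H d (𝟙 d) (e0 d)
    exact h0
  | succ k ih =>
    refine ih φ.all fun d1 h1 w d2 h2 x => ?_
    exact H d2 (h2 ≫ h1) _

/-- lifting by two under the binders `a b x` -/
lemma lift2 {k : ℕ} {d : C} (w : Fin k → Val C d) (a b x : Val C d) :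
    (sn (sn (sn w a) b) x ∘ fun i : Fin (k + 1) =>
      if (i : ℕ) < k then Fin.castAdd 2 i else Fin.addNat i 2) = sn w x := by
  funext i
  refine Fin.lastCases ?_ (fun i => ?_) i
  · simp only [Function.comp_apply, Fin.val_last, lt_self_iff_false, if_false, sn_last]
    exact (congrArg (sn (sn (sn w a) b) x) (Fin.ext (by simp) : Fin.addNat (Fin.last k) 2 =
      Fin.last (k + 2))).trans (sn_last _ _)
  · simp only [Function.comp_apply, Fin.val_castSucc, i.is_lt, if_true, sn_castSucc]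
    have : (Fin.castAdd 2 i.castSucc : Fin (k + 1 + 2)) = i.castSucc.castSucc.castSucc :=
      Fin.ext (by simp)
    rw [this]
    simp

end Crest.Agent.R296.CatLiftx365
end

-- ▼ part R296/CatZF_365

/-!
Row 296 (S0448), helper365.  **Block B: `V^(C)` forces every sentence of ZF** (`C` any small category).
-/

set_option autoImplicit false
set_option linter.unusedSimpArgs false

namespace Crest.Agent.R296.CatZFx365

open CategoryTheory FirstOrder FirstOrder.Language Crest.LogicCS.SetTheory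
open Crest.Agent.R296.CatFx365 Crest.Agent.R296.CatFrcx365 Crest.Agent.R296.CatOpsx365
open Crest.Agent.R296.CatLiftx365

universe u

variable {C : Type u} [Category.{u} C]

section lits
variable {d : C} (a b c x y : Val C d)
lemma s1_0 : sn (e0 d) a 0 = a := rfl
lemma s2_0 : sn (sn (e0 d) a) b 0 = a := rfl
lemma s2_1 : sn (sn (e0 d) a) b 1 = b := rfl
lemma s3_0 : sn (sn (sn (e0 d) a) b) c 0 = a := rfl
lemma s3_1 : sn (sn (sn (e0 d) a) b) c 1 = b := rfl
lemma s3_2 : sn (sn (sn (e0 d) a) b) c 2 = c := rfl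
lemma s4_0 : sn (sn (sn (sn (e0 d) a) b) c) x 0 = a := rfl
lemma s4_1 : sn (sn (sn (sn (e0 d) a) b) c) x 1 = b := rfl
lemma s4_2 : sn (sn (sn (sn (e0 d) a) b) c) x 2 = c := rfl
lemma s4_3 : sn (sn (sn (sn (e0 d) a) b) c) x 3 = x := rfl
end lits

theorem ext_forced (d : C) : Fs d extAx := by
  unfold Fs extAx
  simp only [fc_all, fc_imp, fc_iff, fc_vmem, fc_veq, vr_sn, vr_e0, Val.res_res, s2_0, s2_1, s3_0,
    s3_1, s3_2]
  intro d1 h1 x d2 h2 y d3 h3 H
  refine ext' fun d4 l z => ?_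
  have := H d4 l z d4 (𝟙 d4)
  simpa using this

theorem pair_forced (d : C) : Fs d pairAx := by
  unfold Fs pairAx
  simp only [fc_all, fc_iff, fc_ex, fc_or, fc_vmem, fc_veq, vr_sn, vr_e0, Val.res_res, s4_0, s4_1,
    s4_2, s4_3]
  intro d1 h1 x d2 h2 y d3 h3
  refine ⟨d3, 𝟙 d3, pv (x.res (h3 ≫ h2)) (y.res h3), fun d4 h z d5 g => ?_⟩
  rw [mem_pv]
  simp

theorem union_forced (d : C) : Fs d unionAx := by
  unfold Fs unionAx
  simp only [fc_all, fc_iff, fc_ex, fc_and, fc_vmem, fc_veq, vr_sn, vr_e0, Val.res_res, s4_0, s4_1,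
    s4_2, s4_3, s3_0, s3_1, s3_2]
  intro d1 h1 x d2 h2
  refine ⟨d2, 𝟙 d2, uv (x.res h2), fun d4 h z d5 g => ?_⟩
  rw [mem_uv]
  simp only [Val.res_res, Category.assoc, Category.id_comp]
  refine forall_congr' fun d6 => forall_congr' fun k => ?_
  constructor
  · rintro ⟨d7, m, y, h3, h4⟩
    exact ⟨d7, m, y, h4, h3⟩
  · rintro ⟨d7, m, y, h3, h4⟩
    exact ⟨d7, m, y, h4, h3⟩

theorem power_forced (d : C) : Fs d powerAx := by
  unfold Fs powerAx
  simp only [fc_all, fc_iff, fc_ex, fc_imp, fc_vmem, fc_veq, vr_sn, vr_e0, Val.res_res, s4_0, s4_1,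
    s4_2, s4_3, s3_0, s3_1, s3_2]
  intro d1 h1 x d2 h2
  refine ⟨d2, 𝟙 d2, powv (x.res h2), fun d4 h z d5 g => ?_⟩
  rw [mem_powv]
  constructor
  · intro H d6 k w d7 l hw
    have := H d7 (l ≫ k) (w.res l) (by simpa using hw)
    simpa using this
  · intro H d6 k w hw
    have := H d6 k w d6 (𝟙 d6) (by simpa using hw)
    simpa using this

theorem inf_forced (d : C) : Fs d infAx := by
  unfold Fs infAx
  simp only [fc_all, fc_iff, fc_ex, fc_imp, fc_and, fc_or, fc_not, fc_vmem, fc_veq, vr_sn, vr_e0,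
    Val.res_res, s4_0, s4_1, s4_2, s4_3, s3_0, s3_1, s3_2, s2_0, s2_1]
  intro d1 h1
  refine ⟨d1, 𝟙 d1, omv d1, ?_, ?_⟩
  · intro d2 g
    refine ⟨d2, 𝟙 d2, (zv d1).res g, fun d3 h z d4 k => ?_, ?_⟩
    · rw [Val.res_res]
      exact not_mem_zv _ _
    · rw [Category.id_comp, mem_omv]
      intro d3 l
      exact ⟨d3, 𝟙 d3, 0, by simpa [nv] using Eq'.refl _⟩
  · intro d2 h x d3 g hx d4 k
    rw [mem_omv] at hx
    obtain ⟨d5, m, n, hn⟩ := hx d4 k
    refine ⟨d5, m, (nv d1 (n + 1)).res ((m ≫ k) ≫ g ≫ h), ?_, ?_⟩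
    · rw [mem_omv]
      intro d6 l
      exact ⟨d6, 𝟙 d6, n + 1, by simpa using Eq'.refl _⟩
    · intro d6 l z d7 p
      rw [nv, Val.res_res, mem_insv]
      refine forall_congr' fun d8 => forall_congr' fun q => exists_congr fun d9 =>
        exists_congr fun r => ?_
      have e1 : Eq' (x.res ((r ≫ q) ≫ p ≫ l ≫ (m ≫ k) ≫ g))
          ((nv d1 n).res ((r ≫ q) ≫ (p ≫ l) ≫ (m ≫ k) ≫ g ≫ h)) := by
        have := hn.res ((r ≫ q) ≫ p ≫ l)
        simpa using this
      rw [Val.res_res]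
      constructor
      · rintro (h3 | h3)
        · exact Or.inl (Mem'.congr_right e1.symm (by simpa using h3))
        · exact Or.inr (Eq'.trans (by simpa using h3) e1.symm)
      · rintro (h3 | h3)
        · exact Or.inl (by simpa using Mem'.congr_right e1 h3)
        · exact Or.inr (by simpa using h3.trans e1)

theorem found_forced (d : C) : Fs d foundAx := by
  unfold Fs foundAx
  simp only [fc_all, fc_iff, fc_ex, fc_imp, fc_and, fc_or, fc_not, fc_vmem, fc_veq, vr_sn, vr_e0,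
    Val.res_res, s4_0, s4_1, s4_2, s4_3, s3_0, s3_1, s3_2, s2_0, s2_1]
  intro d1 h1 x d2 h2 H d3 h3
  obtain ⟨d4, m, a, ha⟩ := H d3 h3
  obtain ⟨d5, h, y, hy, hd⟩ := found _ a ha
  refine ⟨d5, h ≫ m, y, by simpa using hy, fun d6 g H6 => ?_⟩
  obtain ⟨d7, q, z, hz, hz'⟩ := H6 d6 (𝟙 d6)
  refine hd d7 (q ≫ g) z (by simpa using hz) ?_
  simpa using hz'

/-- the predicate of a formula with parameters -/
lemma reg_formula {k : ℕ} (φ : setL.BoundedFormula Empty (k + 1)) {d : C} (w : Fin k → Val C d) :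
    Reg (fun (d' : C) (h : d' ⟶ d) (x : Val C d') => Fc φ (sn (vr h w) x)) where
  mono h g x H := by
    have := Fc.mono φ g _ H
    simpa using this
  dense h x H := by
    refine Fc.dense φ _ fun d1 g => ?_
    obtain ⟨d2, m, h2⟩ := H d1 g
    exact ⟨d2, m, by simpa using h2⟩
  congr h x y hxy H := Fc.congr φ _ _ (sn_congr (fun _ => Eq'.refl _) hxy) H

theorem sep_forced (d : C) (k : ℕ) (φ : setL.BoundedFormula Empty (k + 1)) : Fs d (sepAx k φ) := by
  unfold sepAx
  refine fc_alls _ fun d0 _ w => ?_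
  have e1 : (⟨k + 2, by omega⟩ : Fin (k + 3)) = Fin.last (k + 2) := rfl
  have e2 : (⟨k + 1, by omega⟩ : Fin (k + 3)) = (Fin.last (k + 1)).castSucc := rfl
  have e3 : (⟨k, by omega⟩ : Fin (k + 3)) = (Fin.last k).castSucc.castSucc := rfl
  rw [e1, e2, e3]
  simp only [fc_all, fc_iff, fc_ex, fc_and, fc_vmem, vr_sn, vr_vr, Val.res_res, sn_last,
    sn_castSucc]
  intro d1 h1 a d2 h2
  refine ⟨d2, 𝟙 d2, sepv (a.res h2) (fun (d' : C) (h : d' ⟶ d2) (x : Val C d') =>
    Fc φ (sn (vr h (vr (h2 ≫ h1) w)) x)), fun d3 h3 x d4 h4 => ?_⟩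
  rw [mem_sepv (a.res h2) (reg_formula φ (vr (h2 ≫ h1) w)), fc_liftAt φ (Nat.le_succ k), lift2]
  simp only [vr_vr, Val.res_res, Category.assoc, Category.id_comp]

/-- lifting by one under the binders `a x y` -/
lemma lift1 {k : ℕ} {d : C} (w : Fin k → Val C d) (a x y : Val C d) :
    (sn (sn (sn w a) x) y ∘ fun i : Fin (k + 2) =>
      if (i : ℕ) < k then Fin.castAdd 1 i else Fin.addNat i 1) = sn (sn w x) y := by
  funext i
  refine Fin.lastCases ?_ (fun i => Fin.lastCases ?_ (fun i => ?_) i) i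
  · have e : (Fin.addNat (Fin.last (k + 1)) 1 : Fin (k + 2 + 1)) = Fin.last (k + 2) :=
      Fin.ext (by simp)
    simp only [Function.comp_apply, Fin.val_last, sn_last]
    rw [if_neg (by omega), e, sn_last]
  · have e : (Fin.addNat (Fin.last k).castSucc 1 : Fin (k + 2 + 1)) = (Fin.last (k + 1)).castSucc :=
      Fin.ext (by simp)
    simp only [Function.comp_apply, Fin.val_castSucc, Fin.val_last, sn_last, sn_castSucc]
    rw [if_neg (by omega), e, sn_castSucc, sn_last]
  · have e : (Fin.castAdd 1 i.castSucc.castSucc : Fin (k + 2 + 1)) = i.castSucc.castSucc.castSucc :=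
      Fin.ext (by simp)
    simp only [Function.comp_apply, Fin.val_castSucc, i.is_lt, if_true, sn_castSucc]
    rw [e]
    simp only [sn_castSucc]


/-- lifting by two under the binders `a b x y` -/
lemma lift2' {k : ℕ} {d : C} (w : Fin k → Val C d) (a b x y : Val C d) :
    (sn (sn (sn (sn w a) b) x) y ∘ fun i : Fin (k + 2) =>
      if (i : ℕ) < k then Fin.castAdd 2 i else Fin.addNat i 2) = sn (sn w x) y := by
  funext i
  refine Fin.lastCases ?_ (fun i => Fin.lastCases ?_ (fun i => ?_) i) i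
  · have e : (Fin.addNat (Fin.last (k + 1)) 2 : Fin (k + 2 + 2)) = Fin.last (k + 3) :=
      Fin.ext (by simp)
    simp only [Function.comp_apply, Fin.val_last, sn_last]
    rw [if_neg (by omega), e, sn_last]
  · have e : (Fin.addNat (Fin.last k).castSucc 2 : Fin (k + 2 + 2)) = (Fin.last (k + 2)).castSucc :=
      Fin.ext (by simp)
    simp only [Function.comp_apply, Fin.val_castSucc, Fin.val_last, sn_last, sn_castSucc]
    rw [if_neg (by omega), e, sn_castSucc, sn_last]
  · have e : (Fin.castAdd 2 i.castSucc.castSucc : Fin (k + 2 + 2)) =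
        i.castSucc.castSucc.castSucc.castSucc := Fin.ext (by simp)
    simp only [Function.comp_apply, Fin.val_castSucc, i.is_lt, if_true, sn_castSucc]
    rw [e]
    simp only [sn_castSucc]

theorem repl_forced (d : C) (k : ℕ) (φ : setL.BoundedFormula Empty (k + 2)) : Fs d (replAx k φ) := by
  unfold replAx
  refine fc_alls _ fun d0 _ w => ?_
  have e1 : (⟨k + 1, by omega⟩ : Fin (k + 2)) = Fin.last (k + 1) := rfl
  have e2 : (⟨k, by omega⟩ : Fin (k + 2)) = (Fin.last k).castSucc := rfl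
  have e3 : (⟨k + 3, by omega⟩ : Fin (k + 4)) = Fin.last (k + 3) := rfl
  have e4 : (⟨k + 2, by omega⟩ : Fin (k + 4)) = (Fin.last (k + 2)).castSucc := rfl
  have e5 : (⟨k + 2, by omega⟩ : Fin (k + 3)) = Fin.last (k + 2) := rfl
  have e6 : (⟨k, by omega⟩ : Fin (k + 3)) = (Fin.last k).castSucc.castSucc := rfl
  have e7 : (⟨k + 1, by omega⟩ : Fin (k + 4)) = (Fin.last (k + 1)).castSucc.castSucc := rfl
  rw [e1, e2, e3, e4, e5, e6, e7]
  simp only [fc_all, fc_imp, fc_iff, fc_ex, fc_and, fc_vmem, fc_veq, vr_sn, vr_vr, Val.res_res,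
    sn_last, sn_castSucc]
  intro d1 h1 a d2 h2 H d3 h3
  -- the hypothesis: every member of `a` has densely a partner
  have H' : ∀ (d' : C) (h : d' ⟶ d2) (x : Val C d'), Mem' x (a.res (h ≫ h2)) →
      ∀ (e : C) (g : e ⟶ d'), ∃ (e' : C) (m : e' ⟶ e) (y : Val C e'),
        Fc φ (sn (sn (vr (((m ≫ g) ≫ h) ≫ h2 ≫ h1) w) (x.res (m ≫ g))) y) := by
    intro d' h x hx e g
    obtain ⟨e', m, y, hy, -⟩ := H d' h x d' (𝟙 d') (by simpa using hx) e g
    refine ⟨e', m, y, ?_⟩
    rw [fc_liftAt φ (by omega), lift1] at hy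
    simpa using hy
  let Ψ : ∀ (d' : C), (d' ⟶ d3) → Val C d' → Val C d' → Prop := fun d' h x y =>
    Fc φ (sn (sn (vr (h ≫ h3 ≫ h2 ≫ h1) w) x) y)
  refine ⟨d3, 𝟙 d3, collv (a.res (h3 ≫ h2)) Ψ, fun d4 h4 x d5 h5 hx d6 h6 => ?_⟩
  have hmono : ∀ {d' d'' : C} (h : d' ⟶ d3) (g : d'' ⟶ d') (x y : Val C d'), Ψ d' h x y →
      Ψ d'' (g ≫ h) (x.res g) (y.res g) := by
    intro d' d'' h g x y hxy
    have := Fc.mono φ g _ hxy
    simpa [Ψ] using this
  have hcongr : ∀ {d' : C} (h : d' ⟶ d3) (x x' y : Val C d'), Eq' x x' → Ψ d' h x y →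
      Ψ d' h x' y := by
    intro d' h x x' y hxx H
    exact Fc.congr φ _ _ (sn_congr (sn_congr (fun _ => Eq'.refl _) hxx) (Eq'.refl _)) H
  obtain ⟨d7, m, y, hy, hΨ⟩ := collv_spec (a.res (h3 ≫ h2)) hmono hcongr (h5 ≫ h4) (x.res h5)
    (by simpa using hx) (fun e g => by
      obtain ⟨e', m, y, hy⟩ := H' d5 (h5 ≫ h4 ≫ h3) (x.res h5) (by simpa using hx) e g
      exact ⟨e', m, y, by simpa [Ψ] using hy⟩) d6 h6
  refine ⟨d7, m, y, by simpa using hy, ?_⟩
  rw [fc_liftAt φ (by omega), lift2']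
  simpa [Ψ] using hΨ

/-- **every stage forces every sentence of ZF** -/
theorem zf_forced (d : C) : ∀ φ ∈ ZF, Fs d φ := by
  intro φ hφ
  unfold ZF at hφ
  rcases hφ with (hφ | hφ) | hφ
  · simp only [Set.mem_insert_iff, Set.mem_singleton_iff] at hφ
    rcases hφ with h | h | h | h | h | h <;> subst h
    · exact ext_forced d
    · exact pair_forced d
    · exact union_forced d
    · exact power_forced d
    · exact inf_forced d
    · exact found_forced d
  · simp only [Set.mem_iUnion, Set.mem_range] at hφ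
    obtain ⟨k, ψ, rfl⟩ := hφ
    exact sep_forced d k ψ
  · simp only [Set.mem_iUnion, Set.mem_range] at hφ
    obtain ⟨k, ψ, rfl⟩ := hφ
    exact repl_forced d k ψ

end Crest.Agent.R296.CatZFx365
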