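import Crest.Agent.R296.PPBr_365
import Crest.Agent.R296.CatZF_365
import Crest.Agent.R296.CatSat_879
import Crest.Agent.R296.CatFrc_365
import Crest.Agent.R296.Loc_929
import Crest.Prelude.Def_SetTheory
import Mathlib
import Crest.Agent.R296.IfA_378

-- ▼ part R296/End_365
section

/-!
Row 296 (S0448), helper365.  **End wiring**: S0448 from a small category `C` with one stage forcing
PP, AC_WO and the negation of AC.
-/

set_option autoImplicit false

namespace Crest.Agent.R296.Endx365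

open CategoryTheory FirstOrder FirstOrder.Language Crest.LogicCS.SetTheory
open Crest.Agent.R296.CatFx365 Crest.Agent.R296.CatFrcx365 Crest.Agent.R296.PPBrx365

universe u

variable {C : Type u} [Category.{u} C]

theorem sat_of (c : C) (hPP : Fs c ppAx) (hAC : Fs c acwoAx) (hN : Fs c (∼acAx)) :
    Theory.IsSatisfiable (ZF ∪ {ppAx, acwoAx, ∼acAx}) := by
  refine CatSatx879.sat_of_forces c fun φ hφ => ?_
  rcases hφ with hφ | hφ
  · exact CatZFx365.zf_forced c φ hφ
  · simp only [Set.mem_insert_iff, Set.mem_singleton_iff] at hφ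
    rcases hφ with h | h | h
    · rw [h]; exact hPP
    · rw [h]; exact hAC
    · rw [h]; exact hN

/-- the same with the output of the partition principle part -/
theorem sat_of_out (hPP : PPOut C) (c : C) (hAC : Fs c acwoAx) (hN : Fs c (∼acAx)) :
    Theory.IsSatisfiable (ZF ∪ {ppAx, acwoAx, ∼acAx}) :=
  sat_of c (pp_forced hPP c) hAC hN

end Crest.Agent.R296.Endx365
end

-- ▼ part R296/CatOrd_622
section

/-!
Row 296 (S0448), helper622.  **Block B4: check names and ordinals of `V^(C)`.**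

* `chk x d` : the check value of the pure set `x : PSet.{u}` at the stage `d`;
  `chk_res`, `mem_chk`, `eq_chk_iff`, `chk_mem_chk_iff`;
* `ov α d = chk α.toPSet d` for `α : Ordinal.{u}`; `mem_ov`, `ov_mem_iff`, `ov_eq_iff`;
* `IsTr'`, `IsOrd'` : the semantic forms of the frozen formulas, `fc_isTrans`, `fc_isOrd`;
* `ord_dense` : a value forced to be an ordinal is densely equal to some `ov α`.
-/

set_option autoImplicit false

namespace Crest.Agent.R296.CatOrdx622

open CategoryTheory FirstOrder FirstOrder.Language Crest.LogicCS.SetTheory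
open Crest.Agent.R296.CatFx365 Crest.Agent.R296.CatFrcx365

universe u

variable {C : Type u} [Category.{u} C]

/-! ### auxiliary facts on `Eq'` and `Mem'` -/

lemma eq'_of_eq {d : C} {x y : Val C d} (h : x = y) : Eq' x y := h ▸ Eq'.refl x

/-- membership is decided densely: if not forced then somewhere it is nowhere forced -/
lemma not_mem_dense {d : C} {x y : Val C d} (h : ¬ Mem' x y) :
    ∃ (d1 : C) (l : d1 ⟶ d), ∀ (d2 : C) (m : d2 ⟶ d1), ¬ Mem' (x.res (m ≫ l)) (y.res (m ≫ l)) := by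
  by_contra H
  push Not at H
  exact h (Mem'.of_dense fun d1 l => H d1 l)



/-- extensionality, by inclusion both ways -/
lemma eq_of_sub {d : C} {x y : Val C d}
    (H : ∀ (d1 : C) (l : d1 ⟶ d) (z : Val C d1), Mem' z (x.res l) → Mem' z (y.res l))
    (G : ∀ (d1 : C) (l : d1 ⟶ d) (z : Val C d1), Mem' z (y.res l) → Mem' z (x.res l)) :
    Eq' x y := ext' fun d1 l z => ⟨H d1 l z, G d1 l z⟩

/-- induction on the names of the members: if `P` is a property of values such that `P z` holds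
whenever `P` holds for every element of the name of `z` (at every stage), then `P` holds -/
lemma el_induction {P : ∀ {d : C}, Val C d → Prop}
    (H : ∀ {d : C} (z : Val C d),
      (∀ (d1 : C) (i : z.nm.I) (k : d1 ⟶ z.nm.D i), P (z.el i k)) → P z) {d : C} (z : Val C d) :
    P z := by
  obtain ⟨c, a, p⟩ := z
  induction a generalizing d with
  | mk I D e T f b ih => exact H _ fun d1 i k => ih i _

/-! ### check values -/

/-- the check name of a pure set -/
def chkN : PSet.{u} → ∀ c : C, Nm C c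
  | ⟨A, F⟩, c => Nm.mk A (fun _ => c) (fun _ => 𝟙 c) (fun _ => c) (fun _ => 𝟙 c)
      (fun a => chkN (F a) c)

/-- the check value of a pure set -/
def chk (x : PSet.{u}) (d : C) : Val C d := ⟨d, chkN x d, 𝟙 d⟩

/-- restriction of a check value -/
lemma chk_res (x : PSet.{u}) : ∀ {d d' : C} (h : d' ⟶ d), Eq' ((chk x d).res h) (chk x d') := by
  induction x with
  | mk A F ih =>
    intro d d' h
    rw [eq'_iff]
    constructor
    · intro i d1 l k hk
      refine ⟨d1, 𝟙 d1, i, l, ?_, ?_⟩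
      · change (𝟙 d1 ≫ l) ≫ 𝟙 d' = l ≫ 𝟙 d'
        simp
      · have h1 := ih i (d := d) k
        have h2 := ih i (d := d') l
        have h3 : Eq' (((chk (PSet.mk A F) d).res h).el i k) ((chk (F i) d).res k) :=
          eq'_of_eq (by
            simp only [Val.res, Val.el, chk]
            change (⟨d, chkN (F i) d, k ≫ 𝟙 d⟩ : Val C d1) = _
            rfl)
        have h4 : Eq' ((chk (F i) d').res l) ((chk (PSet.mk A F) d').el i l) :=
          eq'_of_eq rfl
        have h5 := ((h3.trans h1).trans h2.symm).trans h4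
        rw [Val.res_id]
        exact h5
    · intro j d1 l k hk
      refine ⟨d1, 𝟙 d1, j, l ≫ h, ?_, ?_⟩
      · change (𝟙 d1 ≫ l) ≫ h ≫ 𝟙 d = (l ≫ h) ≫ 𝟙 d
        simp
      · have h1 := ih j (d := d) (l ≫ h)
        have h2 := ih j (d := d') k
        have h3 : Eq' (((chk (PSet.mk A F) d).res h).el j (l ≫ h)) ((chk (F j) d).res (l ≫ h)) :=
          eq'_of_eq rfl
        have h4 : Eq' ((chk (F j) d').res k) ((chk (PSet.mk A F) d').el j k) :=
          eq'_of_eq rfl
        have h5 := ((h3.trans h1).trans h2.symm).trans h4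
        rw [Val.res_id]
        exact h5

/-- members of a check value -/
lemma mem_chk (x : PSet.{u}) {d : C} (z : Val C d) : Mem' z (chk x d) ↔
    ∀ (d1 : C) (l : d1 ⟶ d), ∃ (d2 : C) (m : d2 ⟶ d1) (a : x.Type),
      Eq' (z.res (m ≫ l)) (chk (x.Func a) d2) := by
  cases x with
  | mk A F =>
    constructor
    · intro H d1 l
      obtain ⟨d2, m, j, k, -, h2⟩ := H d1 l
      have h3 : Eq' ((chk (PSet.mk A F) d).el j k) ((chk (F j) d).res k) := eq'_of_eq rfl
      exact ⟨d2, m, j, (h2.trans h3).trans (chk_res _ k)⟩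
    · intro H d1 l
      obtain ⟨d2, m, a, h2⟩ := H d1 l
      have h3 : Eq' ((chk (PSet.mk A F) d).el a (m ≫ l)) ((chk (F a) d).res (m ≫ l)) := eq'_of_eq rfl
      refine ⟨d2, m, a, m ≫ l, ?_, (h2.trans (chk_res _ _).symm).trans h3.symm⟩
      change (m ≫ l) ≫ 𝟙 d = (m ≫ l) ≫ 𝟙 d
      rfl

/-- members of a restricted check value -/
lemma mem_chk_res (x : PSet.{u}) {d d' : C} (h : d' ⟶ d) (z : Val C d') :
    Mem' z ((chk x d).res h) ↔ Mem' z (chk x d') :=
  ⟨Mem'.congr_right (chk_res x h), Mem'.congr_right (chk_res x h).symm⟩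

lemma chk_eq_of_equiv (x : PSet.{u}) : ∀ {y : PSet.{u}}, PSet.Equiv x y → ∀ d : C,
    Eq' (chk x d) (chk y d) := by
  induction x with
  | mk A F ih =>
    intro y hxy d
    refine eq_of_sub (fun d1 l z hz => ?_) (fun d1 l z hz => ?_)
    · rw [mem_chk_res] at hz ⊢
      rw [mem_chk] at hz ⊢
      intro d2 m
      obtain ⟨d3, m', a, h3⟩ := hz d2 m
      obtain ⟨b, hb⟩ := hxy.exists_left a
      exact ⟨d3, m', b, h3.trans (ih a hb d3)⟩
    · rw [mem_chk_res] at hz ⊢
      rw [mem_chk] at hz ⊢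
      intro d2 m
      obtain ⟨d3, m', b, h3⟩ := hz d2 m
      obtain ⟨a, ha⟩ := hxy.exists_right b
      exact ⟨d3, m', a, h3.trans (ih a ha d3).symm⟩

lemma equiv_of_chk_eq (x : PSet.{u}) : ∀ {y : PSet.{u}} {d : C}, Eq' (chk x d) (chk y d) →
    PSet.Equiv x y := by
  induction x with
  | mk A F ih =>
    intro y d h
    rw [PSet.equiv_iff]
    constructor
    · intro a
      have h1 : Mem' (chk (F a) d) (chk (PSet.mk A F) d) := by
        rw [mem_chk]
        intro d1 l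
        exact ⟨d1, 𝟙 d1, a, chk_res _ _⟩
      have h2 := Mem'.congr_right h h1
      rw [mem_chk] at h2
      obtain ⟨d2, m, b, h3⟩ := h2 d (𝟙 d)
      exact ⟨b, ih a ((chk_res _ _).symm.trans h3)⟩
    · intro b
      have h1 : Mem' (chk (y.Func b) d) (chk y d) := by
        rw [mem_chk]
        intro d1 l
        exact ⟨d1, 𝟙 d1, b, chk_res _ _⟩
      have h2 := Mem'.congr_right h.symm h1
      rw [mem_chk] at h2
      obtain ⟨d2, m, a, h3⟩ := h2 d (𝟙 d)
      exact ⟨a, ih a (h3.symm.trans (chk_res _ _))⟩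

lemma eq_chk_iff {x y : PSet.{u}} {d : C} : Eq' (chk x d) (chk y d) ↔ PSet.Equiv x y :=
  ⟨equiv_of_chk_eq x, fun h => chk_eq_of_equiv x h d⟩

lemma chk_mem_chk_iff {x y : PSet.{u}} {d : C} : Mem' (chk x d) (chk y d) ↔ x ∈ y := by
  rw [mem_chk, PSet.mem_def]
  constructor
  · intro H
    obtain ⟨d2, m, b, h3⟩ := H d (𝟙 d)
    exact ⟨b, eq_chk_iff.1 ((chk_res _ _).symm.trans h3)⟩
  · rintro ⟨b, hb⟩ d1 l
    exact ⟨d1, 𝟙 d1, b, (chk_res _ _).trans (chk_eq_of_equiv _ hb _)⟩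

/-- members of a check value, through membership of pure sets -/
lemma mem_chk' (x : PSet.{u}) {d : C} (z : Val C d) : Mem' z (chk x d) ↔
    ∀ (d1 : C) (l : d1 ⟶ d), ∃ (d2 : C) (m : d2 ⟶ d1) (y : PSet.{u}), y ∈ x ∧
      Eq' (z.res (m ≫ l)) (chk y d2) := by
  rw [mem_chk]
  constructor
  · intro H d1 l
    obtain ⟨d2, m, a, h⟩ := H d1 l
    exact ⟨d2, m, _, PSet.func_mem x a, h⟩
  · intro H d1 l
    obtain ⟨d2, m, y, hy, h⟩ := H d1 l
    obtain ⟨a, ha⟩ := PSet.mem_def.1 hy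
    exact ⟨d2, m, a, h.trans (chk_eq_of_equiv _ ha _)⟩

/-! ### ordinals -/

/-- the canonical value of an ordinal -/
noncomputable def ov (α : Ordinal.{u}) (d : C) : Val C d := chk α.toPSet d

lemma ov_res (α : Ordinal.{u}) {d d' : C} (h : d' ⟶ d) : Eq' ((ov α d).res h) (ov α d') :=
  chk_res _ h

lemma toPSet_equiv_iff {α β : Ordinal.{u}} : PSet.Equiv α.toPSet β.toPSet ↔ α = β := by
  constructor
  · intro h
    have h1 : α.toZFSet = β.toZFSet := ZFSet.sound h
    exact Ordinal.toZFSet_injective h1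
  · rintro rfl
    exact PSet.Equiv.refl _

lemma toPSet_mem_iff {α β : Ordinal.{u}} : α.toPSet ∈ β.toPSet ↔ α < β := by
  rw [Ordinal.mem_toPSet_iff]
  constructor
  · rintro ⟨a, ha, h⟩
    rwa [toPSet_equiv_iff.1 h]
  · intro h
    exact ⟨α, h, PSet.Equiv.refl _⟩

lemma ov_eq_iff {α β : Ordinal.{u}} {d : C} : Eq' (ov α d) (ov β d) ↔ α = β := by
  rw [ov, ov, eq_chk_iff, toPSet_equiv_iff]

lemma ov_mem_iff {α β : Ordinal.{u}} {d : C} : Mem' (ov α d) (ov β d) ↔ α < β := by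
  rw [ov, ov, chk_mem_chk_iff, toPSet_mem_iff]

/-- the members of a canonical ordinal are densely the smaller canonical ordinals -/
lemma mem_ov (α : Ordinal.{u}) {d : C} (z : Val C d) : Mem' z (ov α d) ↔
    ∀ (d1 : C) (l : d1 ⟶ d), ∃ (d2 : C) (m : d2 ⟶ d1) (β : Ordinal.{u}), β < α ∧
      Eq' (z.res (m ≫ l)) (ov β d2) := by
  rw [ov, mem_chk']
  constructor
  · intro H d1 l
    obtain ⟨d2, m, y, hy, h⟩ := H d1 l
    obtain ⟨β, hβ, hy'⟩ := Ordinal.mem_toPSet_iff.1 hy
    exact ⟨d2, m, β, hβ, h.trans (chk_eq_of_equiv _ hy' _)⟩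
  · intro H d1 l
    obtain ⟨d2, m, β, hβ, h⟩ := H d1 l
    exact ⟨d2, m, β.toPSet, toPSet_mem_iff.2 hβ, h⟩

lemma mem_ov_res (α : Ordinal.{u}) {d d' : C} (h : d' ⟶ d) (z : Val C d') :
    Mem' z ((ov α d).res h) ↔ Mem' z (ov α d') := mem_chk_res _ h z

/-! ### transitive values and ordinals -/

/-- forced transitivity -/
def IsTr' {d : C} (x : Val C d) : Prop :=
  ∀ (d1 : C) (l : d1 ⟶ d) (y z : Val C d1), Mem' z y → Mem' y (x.res l) → Mem' z (x.res l)

/-- forced ordinality -/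
def IsOrd' {d : C} (x : Val C d) : Prop :=
  IsTr' x ∧ ∀ (d1 : C) (l : d1 ⟶ d) (y : Val C d1), Mem' y (x.res l) → IsTr' y

lemma IsTr'.res {d d' : C} {x : Val C d} (H : IsTr' x) (h : d' ⟶ d) : IsTr' (x.res h) := by
  intro d1 l y z hz hy
  rw [Val.res_res] at hy ⊢
  exact H d1 _ y z hz hy

lemma IsTr'.congr {d : C} {x y : Val C d} (h : Eq' x y) (H : IsTr' x) : IsTr' y := by
  intro d1 l w z hz hw
  exact Mem'.congr_right (h.res l) (H d1 l w z hz (Mem'.congr_right (h.res l).symm hw))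

lemma IsTr'.of_dense {d : C} {x : Val C d}
    (H : ∀ (d1 : C) (l : d1 ⟶ d), ∃ (d2 : C) (m : d2 ⟶ d1), IsTr' (x.res (m ≫ l))) : IsTr' x := by
  intro d1 l y z hz hy
  refine Mem'.of_dense fun d2 k => ?_
  obtain ⟨d3, m, h3⟩ := H d2 (k ≫ l)
  refine ⟨d3, m, ?_⟩
  have h4 := h3 d3 (𝟙 d3) (y.res (m ≫ k)) (z.res (m ≫ k)) (hz.res _)
    (by simpa using hy.res (m ≫ k))
  simpa using h4

lemma IsOrd'.res {d d' : C} {x : Val C d} (H : IsOrd' x) (h : d' ⟶ d) : IsOrd' (x.res h) := by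
  refine ⟨H.1.res h, fun d1 l y hy => ?_⟩
  rw [Val.res_res] at hy
  exact H.2 d1 _ y hy

lemma IsOrd'.congr {d : C} {x y : Val C d} (h : Eq' x y) (H : IsOrd' x) : IsOrd' y :=
  ⟨H.1.congr h, fun d1 l z hz => H.2 d1 l z (Mem'.congr_right (h.res l).symm hz)⟩

/-- members of ordinals are ordinals -/
lemma IsOrd'.mem {d : C} {x y : Val C d} (H : IsOrd' x) (hy : Mem' y x) : IsOrd' y := by
  refine ⟨H.2 d (𝟙 d) y (by simpa using hy), fun d1 l z hz => ?_⟩
  exact H.2 d1 l z (H.1 d1 l (y.res l) z hz (hy.res l))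





/-- `z` is nowhere below its stage a member of `ov α` -/
def NoMem (α : Ordinal.{u}) {d : C} (z : Val C d) : Prop :=
  ∀ (d1 : C) (l : d1 ⟶ d), ¬ Mem' (z.res l) (ov α d1)

lemma NoMem.res {α : Ordinal.{u}} {d d' : C} {z : Val C d} (H : NoMem α z) (h : d' ⟶ d) :
    NoMem α (z.res h) := by
  intro d1 l
  rw [Val.res_res]
  exact H d1 _

lemma NoMem.congr {α : Ordinal.{u}} {d : C} {z w : Val C d} (h : Eq' z w) (H : NoMem α z) :
    NoMem α w := fun d1 l hm => H d1 l (Mem'.congr_left (h.res l).symm hm)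

/-- **comparison**: densely, either `α` is a member of the ordinal `x`, or `x` is some `β ≤ α` -/
theorem ord_compare (α : Ordinal.{u}) : ∀ {d : C} (x : Val C d), IsOrd' x →
    ∃ (d1 : C) (l : d1 ⟶ d), Mem' (ov α d1) (x.res l) ∨
      ∃ β : Ordinal.{u}, β ≤ α ∧ Eq' (x.res l) (ov β d1) := by
  induction α using WellFoundedLT.induction with
  | ind α ih =>
    -- for ordinals with `z` nowhere in `ov α`, all `β < α` are members
    have key : ∀ {d : C} (z : Val C d), IsOrd' z →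
        (¬ ∃ (d1 : C) (l : d1 ⟶ d) (β : Ordinal.{u}), β < α ∧ Eq' (z.res l) (ov β d1)) →
        ∀ β < α, Mem' (ov β d) z := by
      intro d z hz hno β hβ
      refine Mem'.of_dense fun d1 l => ?_
      obtain ⟨d2, m, h2⟩ := ih β hβ (z.res l) (hz.res l)
      rcases h2 with h2 | ⟨γ, hγ, h2⟩
      · refine ⟨d2, m, ?_⟩
        rw [Val.res_res] at h2
        exact Mem'.congr_left (ov_res β _).symm h2
      · rw [Val.res_res] at h2
        exact absurd ⟨d2, m ≫ l, γ, lt_of_le_of_lt hγ hβ, h2⟩ hno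
    intro d x hx
    by_cases hno : ∃ (d1 : C) (l : d1 ⟶ d) (β : Ordinal.{u}), β < α ∧ Eq' (x.res l) (ov β d1)
    · obtain ⟨d1, l, β, hβ, h⟩ := hno
      exact ⟨d1, l, Or.inr ⟨β, hβ.le, h⟩⟩
    have hsub := key x hx hno
    by_cases heq : Eq' x (ov α d)
    · exact ⟨d, 𝟙 d, Or.inr ⟨α, le_refl _, by simpa using heq⟩⟩
    -- there is a member of `x` which is nowhere in `ov α`
    have hex : ∃ (d1 : C) (l : d1 ⟶ d) (z : Val C d1), Mem' z (x.res l) ∧ NoMem α z := by
      by_contra hcon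
      refine heq (eq_of_sub (fun d1 l z hz => ?_) (fun d1 l z hz => ?_))
      · rw [mem_ov_res]
        by_contra hnm
        obtain ⟨d2, m, h2⟩ := not_mem_dense hnm
        refine hcon ⟨d2, m ≫ l, z.res m, by simpa using hz.res m, fun d3 k h3 => ?_⟩
        refine h2 d3 k (Mem'.congr_right (ov_res α _).symm ?_)
        simpa using h3
      · rw [mem_ov_res, mem_ov] at hz
        refine Mem'.of_dense fun d2 m => ?_
        obtain ⟨d3, m', β, hβ, h3⟩ := hz d2 m
        refine ⟨d3, m', Mem'.congr_left h3.symm ?_⟩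
        have h4 := (hsub β hβ).res ((m' ≫ m) ≫ l)
        have h5 := Mem'.congr_left (ov_res β _) h4
        simpa using h5
    obtain ⟨d1, l, z, hz, hnz⟩ := hex
    -- a minimal such member is `ov α`
    have main : ∀ {d1 : C} (z : Val C d1), ∀ (l : d1 ⟶ d), Mem' z (x.res l) → NoMem α z →
        ∃ (d2 : C) (m : d2 ⟶ d), Mem' (ov α d2) (x.res m) := by
      intro d1 z
      refine el_induction (C := C) (P := fun {d1} z => ∀ (l : d1 ⟶ d), Mem' z (x.res l) →
        NoMem α z → ∃ (d2 : C) (m : d2 ⟶ d), Mem' (ov α d2) (x.res m)) ?_ z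
      intro d1 z hind l hz hnz
      have hzo : IsOrd' z := (hx.res l).mem hz
      by_cases hall : ∃ (d2 : C) (m : d2 ⟶ d1) (i : z.nm.I) (k : d2 ⟶ z.nm.D i),
          m ≫ z.ar = k ≫ z.nm.e i ∧ NoMem α (z.el i k)
      · obtain ⟨d2, m, i, k, h1, h2⟩ := hall
        refine hind d2 i k (m ≫ l) ?_ h2
        have h3 := mem_el z m i k h1
        have h4 := hx.1 d2 (m ≫ l) (z.res m) (z.el i k) h3 (by simpa using hz.res m)
        exact h4
      · -- all the elements of `z` are in `ov α`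
        push Not at hall
        have hsubz : ∀ (d2 : C) (m : d2 ⟶ d1) (w : Val C d2), Mem' w (z.res m) →
            Mem' w ((ov α d1).res m) := by
          intro d2 m w hw
          refine sub_of_el (x := z) (y := ov α d1) (fun d3 l3 i k hk => ?_) m w hw
          rw [mem_ov_res]
          by_contra hnm
          obtain ⟨d4, m4, h4⟩ := not_mem_dense hnm
          refine hall d4 (m4 ≫ l3) i (m4 ≫ k) (by simp [hk]) fun d5 m5 h5 => ?_
          refine h4 d5 m5 (Mem'.congr_right (ov_res α _).symm ?_)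
          simpa using h5
        have hno' : ¬ ∃ (d2 : C) (m : d2 ⟶ d1) (β : Ordinal.{u}), β < α ∧
            Eq' (z.res m) (ov β d2) := by
          rintro ⟨d2, m, β, hβ, h⟩
          exact hnz d2 m (Mem'.congr_left h.symm (ov_mem_iff.2 hβ))
        have h6 := key z hzo hno'
        have heqz : Eq' z (ov α d1) := by
          refine eq_of_sub hsubz (fun d2 m w hw => ?_)
          rw [mem_ov_res, mem_ov] at hw
          refine Mem'.of_dense fun d3 k => ?_
          obtain ⟨d4, m', β, hβ, h4⟩ := hw d3 k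
          refine ⟨d4, m', Mem'.congr_left h4.symm ?_⟩
          have h7 := (h6 β hβ).res ((m' ≫ k) ≫ m)
          have h8 := Mem'.congr_left (ov_res β _) h7
          simpa using h8
        exact ⟨d1, l, Mem'.congr_left heqz hz⟩
    obtain ⟨d2, m, h2⟩ := main z l hz hnz
    exact ⟨d2, m, Or.inl h2⟩

/-- every value misses some canonical ordinal, at all the stages below -/
lemma exists_not_mem {d : C} (x : Val C d) : ∃ α : Ordinal.{u}, ∀ (d1 : C) (l : d1 ⟶ d),
    ¬ Mem' (ov α d1) (x.res l) := by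
  by_contra H
  push Not at H
  -- for each `α` a stage and an element
  have h1 : ∀ α : Ordinal.{u}, ∃ (s : Σ (d2 : C) (j : x.nm.I), (d2 ⟶ x.nm.D j)),
      Eq' (ov α s.1) (x.el s.2.1 s.2.2) := by
    intro α
    obtain ⟨d1, l, h⟩ := H α
    obtain ⟨d2, m, j, k, -, h3⟩ := h d1 (𝟙 d1)
    refine ⟨⟨d2, j, k⟩, ?_⟩
    exact (ov_res α _).symm.trans h3
  choose s hs using h1
  have hinj : Function.Injective s := by
    intro α β hab
    have h2 := hs α
    have h3 := hs β
    rw [hab] at h2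
    exact ov_eq_iff.1 (h2.trans h3.symm)
  have : Small.{u} Ordinal.{u} := small_of_injective hinj
  exact not_small_ordinal.{u} this

/-- **a value which is forced to be an ordinal is densely a canonical ordinal** -/
theorem ord_dense {d : C} {x : Val C d} (hx : IsOrd' x) (d1 : C) (l : d1 ⟶ d) :
    ∃ (d2 : C) (m : d2 ⟶ d1) (α : Ordinal.{u}), Eq' (x.res (m ≫ l)) (ov α d2) := by
  obtain ⟨α, hα⟩ := exists_not_mem x
  obtain ⟨d2, m, h⟩ := ord_compare α (x.res l) (hx.res l)
  rw [Val.res_res] at h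
  rcases h with h | ⟨β, -, h⟩
  · exact absurd h (hα d2 _)
  · exact ⟨d2, m, β, h⟩


end Crest.Agent.R296.CatOrdx622
end

-- ▼ part R296/NotAC_929
section

/-!
Row 296 (S0448), helper929.  **Block C, leaf C6: every label condition forces the negation of choice.**

* `famv` : the value given by a family of members; `mem_famv`;
* `gen s c` : the generic point `x_s` at the condition `c` (`x_s|h = x_{hs}`), `gen_inj`;
* `zr r c` : the set `Z_r = {x_s : s f0 = r}`, `Zv c` : the set `{Z_r : r ≠ 1}`;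
* `not_ac : Fs c (∼acAx)`.
-/

set_option autoImplicit false
set_option linter.unusedSimpArgs false

namespace Crest.Agent.R296.NotACx929

open CategoryTheory FirstOrder FirstOrder.Language Crest.LogicCS.SetTheory
open Crest.Agent.R296.CatFx365 Crest.Agent.R296.CatFrcx365 Crest.Agent.R296.IfAx378
open Crest.Agent.R296.CondCx153 Crest.Agent.R296.Locx929 Crest.Agent.R296.CatOrdx622
open Crest.Agent.R296.CatZFx365

/-! ### values given by a family of members -/

section fam
universe u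
variable {C : Type u} [Category.{u} C]

/-- the value whose members over `f : b ⟶ c` are `v b f j`, `A b f j` -/
def famv {c : C} (J : Type u) (A : ∀ (b : C), (b ⟶ c) → J → Prop)
    (v : ∀ (b : C), (b ⟶ c) → J → Val C b) : Val C c :=
  mkv (Σ (b : C) (f : b ⟶ c), {j : J // A b f j}) (fun t => t.1) (fun t => t.2.1)
    (fun t => v t.1 t.2.1 t.2.2.1)

lemma mem_famv {c : C} {J : Type u} {A : ∀ (b : C), (b ⟶ c) → J → Prop}
    {v : ∀ (b : C), (b ⟶ c) → J → Val C b}
    (mono : ∀ (b b' : C) (f : b ⟶ c) (k : b' ⟶ b) (j : J), A b f j →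
      ∃ j', A b' (k ≫ f) j' ∧ Eq' ((v b f j).res k) (v b' (k ≫ f) j'))
    {c' : C} (h : c' ⟶ c) (z : Val C c') : Mem' z ((famv J A v).res h) ↔
      ∀ (d1 : C) (l : d1 ⟶ c'), ∃ (d2 : C) (m : d2 ⟶ d1) (j : J), A d2 ((m ≫ l) ≫ h) j ∧
        Eq' (z.res (m ≫ l)) (v d2 ((m ≫ l) ≫ h) j) := by
  rw [famv, mem_mkv]
  refine forall_congr' fun d1 => forall_congr' fun l => exists_congr fun d2 => exists_congr fun m => ?_
  constructor
  · rintro ⟨⟨b, f, j, hj⟩, k, h1, h2⟩
    obtain ⟨j', hj', h3⟩ := mono b d2 f k j hj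
    change (m ≫ l) ≫ h = k ≫ f at h1
    refine ⟨j', by rw [h1]; exact hj', ?_⟩
    have h4 := h2.trans h3
    rwa [← h1] at h4
  · rintro ⟨j, hj, h2⟩
    refine ⟨⟨d2, (m ≫ l) ≫ h, j, hj⟩, 𝟙 d2, ?_, ?_⟩
    · exact (Category.id_comp _).symm
    · change Eq' (z.res (m ≫ l)) ((v d2 ((m ≫ l) ≫ h) j).res (𝟙 d2))
      rw [Val.res_id]
      exact h2

end fam

variable {P : Type 1} [Monoid P] [IsGood P]

/-! ### generic points -/

/-- the generic point `x_s` at the condition `c` -/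
noncomputable def gen (s : P) (c : Cond P) : Val (Cond P) c :=
  famv (ULift.{1} Ordinal.{0}) (fun b f i => (f.1 * s, (i.down, true)) ∈ b.q)
    (fun b _ i => ov (Ordinal.lift.{1, 0} i.down) b)

lemma mem_gen (s : P) {c c' : Cond P} (h : c' ⟶ c) (z : Val (Cond P) c') :
    Mem' z ((gen s c).res h) ↔
      ∀ (d1 : Cond P) (l : d1 ⟶ c'), ∃ (d2 : Cond P) (m : d2 ⟶ d1) (i : Ordinal.{0}),
        ((m ≫ l).1 * (h.1 * s), (i, true)) ∈ d2.q ∧
          Eq' (z.res (m ≫ l)) (ov (Ordinal.lift.{1, 0} i) d2) := by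
  rw [gen, mem_famv]
  · refine forall_congr' fun d1 => forall_congr' fun l => exists_congr fun d2 =>
      exists_congr fun m => ?_
    constructor
    · rintro ⟨⟨i⟩, h1, h2⟩
      refine ⟨i, ?_, h2⟩
      rw [← mul_assoc]
      exact h1
    · rintro ⟨i, h1, h2⟩
      refine ⟨⟨i⟩, ?_, h2⟩
      rw [← mul_assoc] at h1
      exact h1
  · intro b b' f k j hj
    refine ⟨j, ?_, ov_res _ k⟩
    have := arr_mem k hj
    rw [← mul_assoc] at this
    exact this

lemma mem_gen' (s : P) {c : Cond P} (z : Val (Cond P) c) :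
    Mem' z (gen s c) ↔
      ∀ (d1 : Cond P) (l : d1 ⟶ c), ∃ (d2 : Cond P) (m : d2 ⟶ d1) (i : Ordinal.{0}),
        ((m ≫ l).1 * s, (i, true)) ∈ d2.q ∧
          Eq' (z.res (m ≫ l)) (ov (Ordinal.lift.{1, 0} i) d2) := by
  have := mem_gen s (𝟙 c) z
  rw [Val.res_id] at this
  rw [this]
  simp

lemma gen_res (s : P) {c c' : Cond P} (h : c' ⟶ c) :
    Eq' ((gen s c).res h) (gen (h.1 * s) c') := by
  refine ext' fun d1 l z => ?_
  rw [Val.res_res, mem_gen, mem_gen]
  simp only [comp_val, mul_assoc]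

/-- the positive bits -/
lemma gen_true {s : P} {c : Cond P} {i : Ordinal.{0}} (h : (s, (i, true)) ∈ c.q) :
    Mem' (ov (Ordinal.lift.{1, 0} i) c) (gen s c) := by
  rw [mem_gen']
  intro d1 l
  refine ⟨d1, 𝟙 d1, i, ?_, ?_⟩
  · rw [Category.id_comp]
    exact arr_mem l h
  · exact ov_res _ _

/-- the negative bits -/
lemma gen_false {s : P} {c : Cond P} {i : Ordinal.{0}} (h : (s, (i, false)) ∈ c.q) :
    ¬ Mem' (ov (Ordinal.lift.{1, 0} i) c) (gen s c) := by
  intro H
  rw [mem_gen'] at H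
  obtain ⟨d2, m, j, h1, h2⟩ := H c (𝟙 c)
  have h3 : Eq' (ov (Ordinal.lift.{1, 0} i) d2) (ov (Ordinal.lift.{1, 0} j) d2) :=
    (ov_res _ _).symm.trans h2
  rw [ov_eq_iff, Ordinal.lift_inj] at h3
  subst h3
  have h4 := arr_mem (m ≫ 𝟙 c) h
  exact d2.h.con _ _ h1 h4


/-- two fresh coordinates for two points at the same time -/
lemma exists_fresh2 (c : Cond P) (s t : P) : ∃ i : Ordinal.{0}, ∀ b, (s, (i, b)) ∉ c.q ∧ (t, (i, b)) ∉ c.q := by
  by_contra H
  push Not at H
  have hs := c.h.small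
  have : Small.{0} Ordinal.{0} := by
    have h1 : ∀ i : Ordinal.{0}, ∃ x : P × Bool, (x.1, (i, x.2)) ∈ c.q := by
      intro i
      obtain ⟨b, hb⟩ := H i
      by_cases h : (s, (i, b)) ∈ c.q
      · exact ⟨(s, b), h⟩
      · exact ⟨(t, b), hb h⟩
    choose x hx using h1
    refine small_of_injective (β := c.q) (f := fun i => ⟨((x i).1, (i, (x i).2)), hx i⟩) ?_
    intro i j hij
    simp only [Subtype.mk.injEq, Prod.mk.injEq] at hij
    exact hij.2.1
  exact not_small_ordinal.{0, 0} this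

/-- adding a label -/
lemma exists_add (c : Cond P) (s : P) (l : Lab) (h : (s, Lab.neg l) ∉ c.q) :
    ∃ d : Cond P, c.q ⊆ d.q ∧ (s, l) ∈ d.q ∧ ∀ x, x ∈ d.q → x ∈ c.q ∨ x = (s, l) := by
  have hc : IsCond (P := P) {(s, l)} := by
    refine ⟨inferInstance, ?_⟩
    intro t l' h1 h2
    rw [Set.mem_singleton_iff] at h1 h2
    obtain ⟨rfl, rfl⟩ := Prod.mk.inj h1
    have := (Prod.mk.inj h2).2
    exact Lab.neg_ne _ this
  refine ⟨⟨c.q ∪ {(s, l)}, c.h.union hc ?_⟩, Set.subset_union_left, Or.inr rfl, fun x hx => hx⟩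
  intro t l' h1 h2
  rw [Set.mem_singleton_iff, Prod.mk.injEq] at h2
  obtain ⟨rfl, h3⟩ := h2
  apply h
  rw [← h3]
  simpa using h1

/-- different points are never forced equal -/
theorem gen_inj {s t : P} {c : Cond P} (H : Eq' (gen s c) (gen t c)) : s = t := by
  by_contra hst
  obtain ⟨i, hi⟩ := exists_fresh2 c s t
  obtain ⟨d, h1, h2, h3⟩ := exists_add c s (i, true) (hi false).1
  have h4 : (t, Lab.neg (i, false)) ∉ d.q := by
    intro h
    rcases h3 _ h with h | h
    · exact (hi true).2 h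
    · exact hst (Prod.mk.inj h).1.symm
  obtain ⟨e, h5, h6, -⟩ := exists_add d t (i, false) h4
  have k : e ⟶ c := inc (h1.trans h5)
  have hk : (inc (h1.trans h5) : e ⟶ c).1 = 1 := rfl
  have h7 := ((gen_res s (inc (h1.trans h5) : e ⟶ c)).symm.trans
    (H.res (inc (h1.trans h5) : e ⟶ c))).trans (gen_res t (inc (h1.trans h5) : e ⟶ c))
  rw [hk, one_mul, one_mul] at h7
  exact gen_false h6 (Mem'.congr_right h7 (gen_true (h5 h2)))

/-! ### the sets `Z_r` and `Z` -/

variable (f0 : P)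

/-- `Z_r = {x_s : s f0 = r}` -/
noncomputable def zr (r : P) (c : Cond P) : Val (Cond P) c :=
  famv P (fun _ f s => s * f0 = f.1 * r) (fun b _ s => gen s b)

lemma mem_zr (r : P) {c c' : Cond P} (h : c' ⟶ c) (z : Val (Cond P) c') :
    Mem' z ((zr f0 r c).res h) ↔
      ∀ (d1 : Cond P) (l : d1 ⟶ c'), ∃ (d2 : Cond P) (m : d2 ⟶ d1) (s : P),
        s * f0 = (m ≫ l).1 * (h.1 * r) ∧ Eq' (z.res (m ≫ l)) (gen s d2) := by
  rw [zr, mem_famv]
  · simp only [comp_val, mul_assoc]
  · intro b b' f k s hs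
    refine ⟨k.1 * s, ?_, gen_res s k⟩
    rw [mul_assoc, hs, comp_val, mul_assoc]

lemma mem_zr' (r : P) {c : Cond P} (z : Val (Cond P) c) :
    Mem' z (zr f0 r c) ↔
      ∀ (d1 : Cond P) (l : d1 ⟶ c), ∃ (d2 : Cond P) (m : d2 ⟶ d1) (s : P),
        s * f0 = (m ≫ l).1 * r ∧ Eq' (z.res (m ≫ l)) (gen s d2) := by
  have := mem_zr f0 r (𝟙 c) z
  rw [Val.res_id] at this
  rw [this]
  simp

lemma zr_res (r : P) {c c' : Cond P} (h : c' ⟶ c) :
    Eq' ((zr f0 r c).res h) (zr f0 (h.1 * r) c') := by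
  refine ext' fun d1 l z => ?_
  rw [Val.res_res, mem_zr, mem_zr]
  simp only [comp_val, mul_assoc]

lemma gen_mem_zr {s r : P} {c : Cond P} (h : s * f0 = r) : Mem' (gen s c) (zr f0 r c) := by
  rw [mem_zr']
  intro d1 l
  refine ⟨d1, 𝟙 d1, l.1 * s, ?_, ?_⟩
  · rw [mul_assoc, h, Category.id_comp]
  · rw [Category.id_comp]
    exact gen_res s l


/-- `Z = {Z_r : r ≠ 1}` -/
noncomputable def Zv (c : Cond P) : Val (Cond P) c :=
  famv P (fun _ _ r => r ≠ 1) (fun b _ r => zr f0 r b)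

lemma mem_Zv {c c' : Cond P} (h : c' ⟶ c) (z : Val (Cond P) c') :
    Mem' z ((Zv f0 c).res h) ↔
      ∀ (d1 : Cond P) (l : d1 ⟶ c'), ∃ (d2 : Cond P) (m : d2 ⟶ d1) (r : P),
        r ≠ 1 ∧ Eq' (z.res (m ≫ l)) (zr f0 r d2) := by
  rw [Zv, mem_famv]
  intro b b' f k r hr
  exact ⟨k.1 * r, mul_ne_one_right hr _, zr_res f0 r k⟩

lemma zr_mem_Zv {r : P} (hr : r ≠ 1) {c c' : Cond P} (h : c' ⟶ c) :
    Mem' (zr f0 r c') ((Zv f0 c).res h) := by
  rw [mem_Zv]
  intro d1 l
  refine ⟨d1, 𝟙 d1, l.1 * r, mul_ne_one_right hr _, ?_⟩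
  rw [Category.id_comp]
  exact zr_res f0 r l

/-! ### choice fails -/

section lits
variable {C : Type 1} [Category.{1} C] {d : C} (a b c x y : Val C d)
lemma s5_0 : sn (sn (sn (sn (sn (e0 d) a) b) c) x) y 0 = a := rfl
lemma s5_1 : sn (sn (sn (sn (sn (e0 d) a) b) c) x) y 1 = b := rfl
lemma s5_2 : sn (sn (sn (sn (sn (e0 d) a) b) c) x) y 2 = c := rfl
lemma s5_3 : sn (sn (sn (sn (sn (e0 d) a) b) c) x) y 3 = x := rfl
lemma s5_4 : sn (sn (sn (sn (sn (e0 d) a) b) c) x) y 4 = y := rfl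
end lits

/-- **no choice**: `σ` cannot be a choice set of `Z` -/
theorem no_choice (hG : GenS P) (hl : LetS P) (hf0 : f0 ≠ 1) {c : Cond P} (σ : Val (Cond P) c)
    (H : ∀ (d : Cond P) (g : d ⟶ c) (x : Val (Cond P) d), Mem' x ((Zv f0 c).res g) →
      ∀ (d1 : Cond P) (l : d1 ⟶ d), ∃ (d2 : Cond P) (m : d2 ⟶ d1) (y : Val (Cond P) d2),
        Mem' y (σ.res ((m ≫ l) ≫ g)) ∧ Mem' y (x.res (m ≫ l)) ∧
          ∀ (d3 : Cond P) (k : d3 ⟶ d2) (z : Val (Cond P) d3),
            Mem' z (σ.res (k ≫ (m ≫ l) ≫ g)) → Mem' z (x.res (k ≫ m ≫ l)) → Eq' z (y.res k)) :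
    False := by
  -- the point `r`
  obtain ⟨r, hr⟩ := exists_ne_one hl
  obtain ⟨d2, m, y, hy1, hy2, hy3⟩ := H (push r c) (pushArr r c) (zr f0 r (push r c))
    (zr_mem_Zv f0 hr _) (push r c) (𝟙 _)
  rw [Category.comp_id] at hy1 hy2
  obtain ⟨d3, m', s, hs, hys⟩ := (mem_zr f0 r m y).1 hy2 d2 (𝟙 d2)
  rw [Category.comp_id] at hs hys
  set ρ : P := m'.1 * (m.1 * r) with hρ
  have hρ1 : ρ ≠ 1 := mul_ne_one_right (mul_ne_one_right hr _) _
  obtain ⟨g, g', hgg, hfree⟩ := fa hG hl ρ ρ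
  have hc : Compat (push g d3).q (push g' d3).q := by
    intro z l h3 h4
    obtain ⟨s1, h5, rfl⟩ := mem_psh.1 h3
    obtain ⟨s2, h6, h7⟩ := mem_psh.1 h4
    obtain ⟨u, rfl, rfl⟩ := hfree s1 s2 h7
    exact d3.h.con _ _ h5 h6
  let e : Cond P := un _ _ hc
  let G : e ⟶ d3 := arr g fun s l hs => Or.inl (mem_psh.2 ⟨s, hs, rfl⟩)
  let G' : e ⟶ d3 := arr g' fun s l hs => Or.inr (mem_psh.2 ⟨s, hs, rfl⟩)
  have hG1 : G.1 = g := rfl
  have hG2 : G'.1 = g' := rfl
  have harr : (G ≫ m') ≫ m ≫ pushArr r c = (G' ≫ m') ≫ m ≫ pushArr r c := by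
    ext
    simp only [comp_val, pushArr_val, hG1, hG2]
    have h1 : g * m'.1 * (m.1 * r) = g * ρ := by rw [hρ, mul_assoc]
    have h2 : g' * m'.1 * (m.1 * r) = g' * ρ := by rw [hρ, mul_assoc]
    rw [h1, h2, hgg]
  have hz1 : Mem' (y.res (G' ≫ m')) (σ.res ((G ≫ m') ≫ (m ≫ 𝟙 _) ≫ pushArr r c)) := by
    rw [Category.comp_id, harr]
    have := hy1.res (G' ≫ m')
    rwa [Val.res_res] at this
  have hz2 : Mem' (y.res (G' ≫ m')) ((zr f0 r (push r c)).res ((G ≫ m') ≫ m ≫ 𝟙 _)) := by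
    rw [Category.comp_id]
    have h1 := hy2.res (G' ≫ m')
    rw [Val.res_res] at h1
    refine Mem'.congr_right (zr_res f0 r _).symm (Mem'.congr_right ?_ (Mem'.congr_right
      (zr_res f0 r _) h1))
    have h2 : ((G' ≫ m') ≫ m).1 * r = ((G ≫ m') ≫ m).1 * r := by
      simp only [comp_val, hG1, hG2, mul_assoc]
      rw [← hρ, hgg]
    rw [h2]
    exact Eq'.refl _
  have h5 := hy3 e (G ≫ m') (y.res (G' ≫ m')) hz1 hz2
  rw [← Val.res_res, ← Val.res_res] at h5
  have h6 : Eq' (gen (g' * s) e) (gen (g * s) e) :=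
    (((gen_res s G').symm.trans (hys.res G').symm).trans h5).trans
      ((hys.res G).trans (gen_res s G))
  have h7 := gen_inj h6
  obtain ⟨t, ht, -⟩ := hfree s s h7.symm
  rw [ht, mul_assoc] at hs
  have h8 : t * f0 = 1 := IsGood.lc ρ _ _ (by rw [hs, mul_one])
  exact mul_ne_one_right hf0 t h8

lemma mem_Zv_indep {c c' c2 : Cond P} (h : c' ⟶ c) (h2 : c' ⟶ c2) (z : Val (Cond P) c') :
    Mem' z ((Zv f0 c).res h) ↔ Mem' z ((Zv f0 c2).res h2) := by
  rw [mem_Zv, mem_Zv]

/-- members of `Z` are nonempty -/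
lemma Z_nonempty (hG : GenS P) (hf0 : f0 ≠ 1) {c d : Cond P} (h : d ⟶ c) (x : Val (Cond P) d)
    (hx : Mem' x ((Zv f0 c).res h)) (d1 : Cond P) (l : d1 ⟶ d) :
    ∃ (d2 : Cond P) (m : d2 ⟶ d1) (y : Val (Cond P) d2), Mem' y (x.res (m ≫ l)) := by
  rw [mem_Zv] at hx
  obtain ⟨d2, m, r, hr, h1⟩ := hx d1 l
  obtain ⟨s, hs, -⟩ := hG f0 r ∅ inferInstance hf0 hr (by simp)
  exact ⟨d2, m, gen s d2, Mem'.congr_right h1.symm (gen_mem_zr f0 hs)⟩

/-- members of `Z` are pairwise disjoint -/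
lemma Z_disj {c d : Cond P} (h : d ⟶ c) (x x' : Val (Cond P) d)
    (hx : Mem' x ((Zv f0 c).res h)) (hx' : Mem' x' ((Zv f0 c).res h))
    (H : ∀ (d1 : Cond P) (l : d1 ⟶ d), ∃ (d2 : Cond P) (m : d2 ⟶ d1) (y : Val (Cond P) d2),
      Mem' y (x.res (m ≫ l)) ∧ Mem' y (x'.res (m ≫ l))) : Eq' x x' := by
  refine Eq'.of_dense fun d1 l => ?_
  obtain ⟨d2, m, y, h1, h2⟩ := H d1 l
  obtain ⟨d3, m3, r, -, h3⟩ := (mem_Zv f0 h x).1 hx d2 (m ≫ l)
  obtain ⟨d4, m4, r', -, h4⟩ := (mem_Zv f0 h x').1 hx' d3 (m3 ≫ m ≫ l)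
  have h5 := h1.res (m4 ≫ m3)
  have h6 := h2.res (m4 ≫ m3)
  rw [Val.res_res] at h5 h6
  have e1 : (m4 ≫ m3) ≫ m ≫ l = m4 ≫ m3 ≫ m ≫ l := by simp
  rw [e1] at h5 h6
  have h7 := h3.res m4
  rw [Val.res_res] at h7
  -- `x = Z_{m4 r}`, `x' = Z_{r'}` at `d4`
  have h8 : Mem' (y.res (m4 ≫ m3)) (zr f0 (m4.1 * r) d4) :=
    Mem'.congr_right (zr_res f0 r m4) (Mem'.congr_right h7 h5)
  have h9 : Mem' (y.res (m4 ≫ m3)) (zr f0 r' d4) := Mem'.congr_right h4 h6
  obtain ⟨d5, m5, s, hs, hys⟩ := (mem_zr' f0 _ _).1 h8 d4 (𝟙 d4)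
  obtain ⟨d6, m6, s', hs', hys'⟩ := (mem_zr' f0 _ _).1 h9 d5 (m5 ≫ 𝟙 d4)
  have h10 : Eq' (gen (m6.1 * s) d6) (gen s' d6) := by
    have := hys.res m6
    rw [Val.res_res] at this
    exact ((gen_res s m6).symm.trans this.symm).trans hys'
  have h11 := gen_inj h10
  have h12 : m4.1 * r = r' := by
    have e2 : (m6 ≫ m5 ≫ 𝟙 d4).1 * (m4.1 * r) = (m6 ≫ m5 ≫ 𝟙 d4).1 * r' := by
      rw [← hs', ← h11, mul_assoc, hs, comp_val, mul_assoc]
    exact IsGood.lc _ _ _ e2
  refine ⟨d4, m4 ≫ m3 ≫ m, ?_⟩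
  have e3 : (m4 ≫ m3 ≫ m) ≫ l = m4 ≫ m3 ≫ m ≫ l := by simp
  rw [e3]
  refine (h7.trans (zr_res f0 r m4)).trans ?_
  rw [h12]
  exact h4.symm

/-- **leaf C6**: every label condition forces `¬ AC` -/
theorem not_ac (hG : GenS P) (hl : LetS P) (hf0 : f0 ≠ 1) (c : Cond P) :
    Fs c (∼acAx) := by
  unfold Fs acAx
  rw [fc_not]
  intro w hw H
  simp only [fc_all, fc_iff, fc_ex, fc_imp, fc_and, fc_vmem, fc_veq, vr_sn, vr_e0,
    Val.res_res, s5_0, s5_1, s5_2, s5_3, s5_4, s4_0, s4_1, s4_2, s4_3, s3_0, s3_1, s3_2,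
    s2_0, s2_1, s1_0] at H
  have H1 := H w (𝟙 w) (Zv f0 w) w (𝟙 w)
  obtain ⟨c', μ, σ, hσ⟩ := H1 ⟨fun d2 h1 x d3 h2 hx d1 g => by
      have := Z_nonempty f0 hG hf0 _ _ hx d1 g
      simpa using this, fun d2 h1 x d3 h2 x' d4 h3 ⟨⟨hx, hx'⟩, hd⟩ => by
      refine Z_disj f0 _ _ _ hx hx' fun d1 l => ?_
      obtain ⟨d5, m, y, h4, h5⟩ := hd d1 l
      exact ⟨d5, m, y, by simpa using h4, by simpa using h5⟩⟩ w (𝟙 w)
  refine no_choice f0 hG hl hf0 σ fun d g x hx d1 l => ?_
  obtain ⟨d2, m, y, ⟨h1, h2⟩, h3⟩ := hσ d g x d (𝟙 d)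
    (by
      rw [Val.res_id]
      exact (mem_Zv_indep f0 _ _ _).1 hx) d1 l
  refine ⟨d2, m, y, by simpa using h2, by simpa using h1, fun d3 k z hz hz' => ?_⟩
  have := h3 d3 k z d3 (𝟙 d3) ⟨by simpa using hz', by simpa using hz⟩
  simpa using this

end Crest.Agent.R296.NotACx929
end

-- ▼ part R296/Sat_566
section

/-!
# Row 296, block B (helper566): forcing over a category, truth lemmas, satisfiability

`Sys C` = names over the objects of a category `C` (an arrow `d ⟶ c` means that `d` extends `c`), with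
forced equality `E` and forced membership `M`, regular and compatible with restriction, restriction being
functorial up to forced equality.

* `Sys.F` the forcing relation for formulas of set theory
* `F_congr`, `F_mono`, `F_reg`, `F_not`, `F_ex`, `F_and`, `F_or`, `F_iff`
* `Sys.sat` : a theory forced by one object is satisfiable
-/

set_option autoImplicit false

universe u v w

open CategoryTheory FirstOrder FirstOrder.Language Crest.LogicCS.SetTheory Filter

namespace Crest.Agent.R296.Satx566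

/-- names with forced equality and membership -/
structure Sys (C : Type u) [Category.{v} C] where
  /-- names -/
  Nm : C → Type w
  /-- restriction -/
  res : ∀ {c d : C}, (d ⟶ c) → Nm c → Nm d
  /-- forced equality -/
  E : ∀ c : C, Nm c → Nm c → Prop
  /-- forced membership -/
  M : ∀ c : C, Nm c → Nm c → Prop
  E_refl : ∀ {c : C} (x : Nm c), E c x x
  E_symm : ∀ {c : C} {x y : Nm c}, E c x y → E c y x
  E_trans : ∀ {c : C} {x y z : Nm c}, E c x y → E c y z → E c x z
  M_congr : ∀ {c : C} {x x' y y' : Nm c}, E c x x' → E c y y' → M c x y → M c x' y'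
  E_mono : ∀ {c d : C} (f : d ⟶ c) {x y : Nm c}, E c x y → E d (res f x) (res f y)
  M_mono : ∀ {c d : C} (f : d ⟶ c) {x y : Nm c}, M c x y → M d (res f x) (res f y)
  E_reg : ∀ {c : C} {x y : Nm c}, (∀ (d : C) (f : d ⟶ c), ∃ (e : C) (g : e ⟶ d),
    E e (res (g ≫ f) x) (res (g ≫ f) y)) → E c x y
  M_reg : ∀ {c : C} {x y : Nm c}, (∀ (d : C) (f : d ⟶ c), ∃ (e : C) (g : e ⟶ d),
    M e (res (g ≫ f) x) (res (g ≫ f) y)) → M c x y
  res_id : ∀ {c : C} (x : Nm c), E c (res (𝟙 c) x) x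
  res_comp : ∀ {c d e : C} (f : d ⟶ c) (g : e ⟶ d) (x : Nm c), E e (res g (res f x)) (res (g ≫ f) x)

instance instIsEmptyFun (n : ℕ) : IsEmpty (setL.Functions n) := inferInstanceAs (IsEmpty Empty)

/-- the variable of a term -/
def tv {k : ℕ} : setL.Term (Empty ⊕ Fin k) → Fin k
  | Term.var (Sum.inl x) => x.elim
  | Term.var (Sum.inr i) => i
  | Term.func f _ => isEmptyElim f

namespace Sys

variable {C : Type u} [Category.{v} C] (S : Sys.{u, v, w} C)

/-- forced atomic formula -/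
def relF (c : C) : ∀ {l : ℕ}, setL.Relations l → (Fin l → S.Nm c) → Prop
  | _, SetRel.mem, v => S.M c (v 0) (v 1)

/-- **the forcing relation** -/
def F : ∀ {k : ℕ}, setL.BoundedFormula Empty k → ∀ c : C, (Fin k → S.Nm c) → Prop
  | _, .falsum, _, _ => False
  | _, .equal t₁ t₂, c, a => S.E c (a (tv t₁)) (a (tv t₂))
  | _, .rel R ts, c, a => S.relF c R fun i => a (tv (ts i))
  | _, .imp φ ψ, c, a => ∀ (d : C) (f : d ⟶ c), F φ d (fun i => S.res f (a i)) →
      F ψ d (fun i => S.res f (a i))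
  | _, .all φ, c, a => ∀ (d : C) (f : d ⟶ c) (x : S.Nm d),
      F φ d (Fin.snoc (fun i => S.res f (a i)) x)

variable {S}

theorem relF_congr {c : C} {l : ℕ} (R : setL.Relations l) {v v' : Fin l → S.Nm c}
    (h : ∀ i, S.E c (v i) (v' i)) (hr : S.relF c R v) : S.relF c R v' := by
  cases R with
  | mem => exact S.M_congr (h 0) (h 1) hr

theorem relF_mono {c d : C} (f : d ⟶ c) {l : ℕ} (R : setL.Relations l) {v : Fin l → S.Nm c}
    (hr : S.relF c R v) : S.relF d R fun i => S.res f (v i) := by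
  cases R with
  | mem => exact S.M_mono f hr

theorem relF_reg {c : C} {l : ℕ} (R : setL.Relations l) {v : Fin l → S.Nm c}
    (h : ∀ (d : C) (f : d ⟶ c), ∃ (e : C) (g : e ⟶ d), S.relF e R fun i => S.res (g ≫ f) (v i)) :
    S.relF c R v := by
  cases R with
  | mem => exact S.M_reg h

/-- forced equality is a congruence -/
theorem F_congr {k : ℕ} (φ : setL.BoundedFormula Empty k) : ∀ {c : C} {a a' : Fin k → S.Nm c},
    (∀ i, S.E c (a i) (a' i)) → S.F φ c a → S.F φ c a' := by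
  induction φ with
  | falsum => exact fun _ h => h
  | equal t₁ t₂ => exact fun h h' => S.E_trans (S.E_symm (h _)) (S.E_trans h' (h _))
  | rel R ts => exact fun h h' => relF_congr R (fun i => h _) h'
  | imp φ ψ h1 h2 =>
    intro c a a' h h' d f hf
    exact h2 (fun i => S.E_mono f (h i)) (h' d f (h1 (fun i => S.E_symm (S.E_mono f (h i))) hf))
  | all φ h1 =>
    intro c a a' h h' d f x
    refine h1 (fun i => ?_) (h' d f x)
    refine Fin.lastCases ?_ (fun i => ?_) i
    · simpa using S.E_refl x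
    · simpa using S.E_mono f (h i)


theorem F_mono {k : ℕ} (φ : setL.BoundedFormula Empty k) {c d : C} (f : d ⟶ c)
    {a : Fin k → S.Nm c} (h : S.F φ c a) : S.F φ d fun i => S.res f (a i) := by
  cases φ with
  | falsum => exact h
  | equal t₁ t₂ => exact S.E_mono f h
  | rel R ts => exact relF_mono f R h
  | imp φ ψ =>
    intro e g hg
    exact F_congr ψ (fun i => S.E_symm (S.res_comp f g _))
      (h e (g ≫ f) (F_congr φ (fun i => S.res_comp f g _) hg))
  | all φ =>
    intro e g x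
    refine F_congr φ (fun i => ?_) (h e (g ≫ f) x)
    refine Fin.lastCases ?_ (fun i => ?_) i
    · simpa using S.E_refl x
    · simpa using S.E_symm (S.res_comp f g _)

/-- at the same object -/
theorem F_imp_id {k : ℕ} {φ ψ : setL.BoundedFormula Empty k} {c : C} {a : Fin k → S.Nm c}
    (h : S.F (φ.imp ψ) c a) (h' : S.F φ c a) : S.F ψ c a :=
  F_congr ψ (fun _ => S.res_id _) (h c (𝟙 c) (F_congr φ (fun _ => S.E_symm (S.res_id _)) h'))

theorem F_all_id {k : ℕ} {φ : setL.BoundedFormula Empty (k + 1)} {c : C} {a : Fin k → S.Nm c}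
    (h : S.F φ.all c a) (x : S.Nm c) : S.F φ c (Fin.snoc a x) := by
  refine F_congr φ (fun i => ?_) (h c (𝟙 c) x)
  refine Fin.lastCases ?_ (fun i => ?_) i
  · simpa using S.E_refl x
  · simpa using S.res_id _

/-- forcing is local for the dense topology -/
theorem F_reg {k : ℕ} (φ : setL.BoundedFormula Empty k) : ∀ {c : C} {a : Fin k → S.Nm c},
    (∀ (d : C) (f : d ⟶ c), ∃ (e : C) (g : e ⟶ d), S.F φ e fun i => S.res (g ≫ f) (a i)) →
      S.F φ c a := by
  induction φ with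
  | falsum =>
    intro c a h
    obtain ⟨e, g, h⟩ := h c (𝟙 c)
    exact h
  | equal t₁ t₂ => exact fun h => S.E_reg h
  | rel R ts => exact fun h => relF_reg R h
  | imp φ ψ h1 h2 =>
    intro c a h d f hf
    refine h2 fun e g => ?_
    obtain ⟨e', g', h'⟩ := h e (g ≫ f)
    refine ⟨e', g', ?_⟩
    have h3 := F_imp_id h' (F_congr φ (fun i => ?_) (F_mono φ (g' ≫ g) hf))
    · refine F_congr ψ (fun i => ?_) h3
      have := S.res_comp f (g' ≫ g) (a i)
      rw [Category.assoc] at this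
      exact S.E_symm this
    · have := S.res_comp f (g' ≫ g) (a i)
      rwa [Category.assoc] at this
  | all φ h1 =>
    intro c a h d f x
    refine h1 fun e g => ?_
    obtain ⟨e', g', h'⟩ := h e (g ≫ f)
    refine ⟨e', g', ?_⟩
    have h3 := F_all_id h' (S.res (g' ≫ g) x)
    refine F_congr φ (fun i => ?_) h3
    refine Fin.lastCases ?_ (fun i => ?_) i
    · simpa using S.E_refl _
    · have := S.res_comp f (g' ≫ g) (a i)
      rw [Category.assoc] at this
      simpa using S.E_symm this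

/-! ### connectives -/




theorem F_all {k : ℕ} {φ : setL.BoundedFormula Empty (k + 1)} {c : C} {a : Fin k → S.Nm c} :
    S.F φ.all c a ↔ ∀ (d : C) (f : d ⟶ c) (x : S.Nm d),
      S.F φ d (Fin.snoc (fun i => S.res f (a i)) x) := Iff.rfl

theorem F_not {k : ℕ} {φ : setL.BoundedFormula Empty k} {c : C} {a : Fin k → S.Nm c} :
    S.F (∼φ) c a ↔ ∀ (d : C) (f : d ⟶ c), ¬ S.F φ d (fun i => S.res f (a i)) := Iff.rfl

/-- nothing and its negation -/
theorem F_not_self {k : ℕ} {φ : setL.BoundedFormula Empty k} {c : C} {a : Fin k → S.Nm c}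
    (h : S.F φ c a) : ¬ S.F (∼φ) c a := fun h' => F_imp_id h' h

/-- if a formula is not forced, an extension forces its negation -/
theorem exists_F_not {k : ℕ} {φ : setL.BoundedFormula Empty k} {c : C} {a : Fin k → S.Nm c}
    (h : ¬ S.F φ c a) : ∃ (d : C) (f : d ⟶ c), S.F (∼φ) d (fun i => S.res f (a i)) := by
  by_contra h'
  push Not at h'
  apply h
  refine F_reg φ fun d f => ?_
  have h1 := h' d f
  rw [F_not] at h1
  push Not at h1
  obtain ⟨e, g, h2⟩ := h1
  exact ⟨e, g, F_congr φ (fun i => S.res_comp f g _) h2⟩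


/-- decision -/
theorem F_decide {k : ℕ} (φ : setL.BoundedFormula Empty k) (c : C) (a : Fin k → S.Nm c) :
    ∃ (d : C) (f : d ⟶ c), S.F φ d (fun i => S.res f (a i)) ∨
      S.F (∼φ) d (fun i => S.res f (a i)) := by
  by_cases h : S.F φ c a
  · exact ⟨c, 𝟙 c, Or.inl (F_mono φ _ h)⟩
  · obtain ⟨d, f, h1⟩ := exists_F_not h
    exact ⟨d, f, Or.inr h1⟩








/-! ### the tower -/

/-- requirements: a formula and names for its variables -/
abbrev Rq : Type := Σ k : ℕ, setL.BoundedFormula Empty k × (Fin k → ℕ)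

instance countable_formulas : Countable (Σ k : ℕ, setL.BoundedFormula Empty k) := by
  have h := BoundedFormula.card_le (L := setL) (α := Empty)
  rw [← Cardinal.mk_le_aleph0_iff]
  refine h.trans (max_le le_rfl ?_)
  have h1 : ∀ l, Countable (setL.Relations l) := fun l => by
    have : Subsingleton (setL.Relations l) := ⟨fun a b => by cases a; cases b; rfl⟩
    infer_instance
  have h2 : Countable setL.Symbols := by
    have : ∀ l, Countable (setL.Functions l) := fun l => inferInstance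
    exact (inferInstance : Countable ((Σ l, setL.Functions l) ⊕ (Σ l, setL.Relations l)))
  have h3 : setL.card ≤ Cardinal.aleph0 := Cardinal.mk_le_aleph0_iff.2 h2
  simpa using h3

instance countable_Rq : Countable Rq := by
  have : ∀ k, Countable (setL.BoundedFormula Empty k) := fun k =>
    (sigma_mk_injective (i := k) (β := fun k => setL.BoundedFormula Empty k)).countable
  infer_instance

instance : Nonempty Rq := ⟨⟨0, ⊥, Fin.elim0⟩⟩

variable (S)

/-- a world and names -/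
structure St where
  /-- world -/
  c : C
  /-- names -/
  x : ℕ → S.Nm c

variable {S}

/-- one step of the tower: requirement `r` at index `n` -/
def Good (r : Rq) (n : ℕ) (s t : St S) : Prop :=
  (∃ f : t.c ⟶ s.c, ∀ i, i ≠ n → t.x i = S.res f (s.x i)) ∧
  ((∀ i, r.2.2 i < n) → S.F r.2.1 t.c (fun i => t.x (r.2.2 i)) ∨
    S.F (∼r.2.1) t.c (fun i => t.x (r.2.2 i))) ∧
  ((∀ i, r.2.2 i < n) → ∀ ψ : setL.BoundedFormula Empty (r.1 + 1), r.2.1 = ψ.all →
    S.F (∼r.2.1) t.c (fun i => t.x (r.2.2 i)) →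
      S.F (∼ψ) t.c (Fin.snoc (fun i => t.x (r.2.2 i)) (t.x n)))

theorem exists_good (r : Rq) (n : ℕ) (s : St S) : ∃ t, Good r n s t := by
  obtain ⟨k, φ, v⟩ := r
  by_cases hv : ∀ i, v i < n
  swap
  · exact ⟨⟨s.c, fun i => S.res (𝟙 _) (s.x i)⟩, ⟨𝟙 _, fun _ _ => rfl⟩, fun h => absurd h hv,
      fun h => absurd h hv⟩
  obtain ⟨d, f, h⟩ := F_decide φ s.c (fun i => s.x (v i))
  by_cases hex : ∃ ψ : setL.BoundedFormula Empty (k + 1), φ = ψ.all
  swap
  · refine ⟨⟨d, fun i => S.res f (s.x i)⟩, ⟨f, fun _ _ => rfl⟩, fun _ => h, fun _ ψ hψ =>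
      absurd ⟨ψ, hψ⟩ hex⟩
  obtain ⟨ψ, rfl⟩ := hex
  rcases h with h | h
  · refine ⟨⟨d, fun i => S.res f (s.x i)⟩, ⟨f, fun _ _ => rfl⟩, fun _ => Or.inl h,
      fun _ ψ' _ h' => absurd h' (F_not_self h)⟩
  · have h1 : ¬ S.F ψ.all d (fun i => S.res f (s.x (v i))) := fun h' => F_not_self h' h
    rw [F_all] at h1
    push Not at h1
    obtain ⟨e, g, y, h2⟩ := h1
    obtain ⟨e', g', h3⟩ := exists_F_not h2
    have key : ∀ i, S.E e' (S.res g' (S.res g (S.res f (s.x i)))) (S.res ((g' ≫ g) ≫ f) (s.x i)) :=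
      fun i => S.E_trans (S.res_comp g g' _) (S.res_comp f (g' ≫ g) _)
    have hne : ∀ i, v i ≠ n := fun i => (hv i).ne
    refine ⟨⟨e', Function.update (fun i => S.res ((g' ≫ g) ≫ f) (s.x i)) n (S.res g' y)⟩,
      ⟨(g' ≫ g) ≫ f, fun i hi => by simp [Function.update_of_ne hi]⟩, fun _ => Or.inr ?_,
      fun _ ψ' hψ' _ => ?_⟩
    · refine F_congr (∼ψ.all) (fun i => ?_) (F_mono (∼ψ.all) (g' ≫ g) h)
      simpa [Function.update_of_ne (hne i)] using S.res_comp f (g' ≫ g) _
    · have e1 : ψ = ψ' := by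
        have h5 : BoundedFormula.all ψ = BoundedFormula.all ψ' := hψ'
        injection h5
      subst e1
      refine F_congr (∼ψ) (fun i => ?_) h3
      refine Fin.lastCases ?_ (fun i => ?_) i
      · simpa using S.E_refl _
      · simpa [Function.update_of_ne (hne i)] using key (v i)

/-- enumeration of the requirements -/
noncomputable def enum : ℕ → Rq := Classical.choose (exists_surjective_nat Rq)


section tower

variable (s0 : St S)

/-- the tower -/
noncomputable def tw : ℕ → St S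
  | 0 => s0
  | n + 1 => Classical.choose (exists_good (enum n.unpair.1) n (tw n))

theorem tw_good (n : ℕ) : Good (enum n.unpair.1) n (tw s0 n) (tw s0 (n + 1)) :=
  Classical.choose_spec (exists_good (enum n.unpair.1) n (tw s0 n))

theorem tw_mono {n m : ℕ} (h : n ≤ m) : ∃ f : (tw s0 m).c ⟶ (tw s0 n).c,
    ∀ i < n, S.E _ ((tw s0 m).x i) (S.res f ((tw s0 n).x i)) := by
  induction m, h using Nat.le_induction with
  | base => exact ⟨𝟙 _, fun i _ => S.E_symm (S.res_id _)⟩
  | succ m hnm ih =>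
    obtain ⟨f, hf⟩ := ih
    obtain ⟨g, hg⟩ := (tw_good s0 m).1
    refine ⟨g ≫ f, fun i hi => ?_⟩
    rw [hg i (by omega)]
    exact S.E_trans (S.E_mono g (hf i hi)) (S.res_comp f g _)


/-- forced by some stage of the tower -/
def T {k : ℕ} (φ : setL.BoundedFormula Empty k) (v : Fin k → ℕ) : Prop :=
  ∃ n, (∀ i, v i < n) ∧ S.F φ (tw s0 n).c (fun i => (tw s0 n).x (v i))









/-- equality of indices -/
def eqv (i j : ℕ) : Prop :=
  ∃ n, i < n ∧ j < n ∧ S.E (tw s0 n).c ((tw s0 n).x i) ((tw s0 n).x j)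

/-- membership of indices -/
def memv (i j : ℕ) : Prop :=
  ∃ n, i < n ∧ j < n ∧ S.M (tw s0 n).c ((tw s0 n).x i) ((tw s0 n).x j)

theorem E_up {n m i j : ℕ} (hnm : n ≤ m) (hi : i < n) (hj : j < n)
    (h : S.E (tw s0 n).c ((tw s0 n).x i) ((tw s0 n).x j)) :
    S.E (tw s0 m).c ((tw s0 m).x i) ((tw s0 m).x j) := by
  obtain ⟨f, hf⟩ := tw_mono s0 hnm
  exact S.E_trans (hf i hi) (S.E_trans (S.E_mono f h) (S.E_symm (hf j hj)))


/-- the equivalence relation -/
def stoid : Setoid ℕ where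
  r := eqv s0
  iseqv :=
    { refl := fun i => ⟨i + 1, i.lt_succ_self, i.lt_succ_self, S.E_refl _⟩
      symm := fun ⟨n, hi, hj, h⟩ => ⟨n, hj, hi, S.E_symm h⟩
      trans := fun ⟨n, hi, hj, h⟩ ⟨m, hj', hk, h'⟩ => ⟨max n m, hi.trans_le (le_max_left n m),
        hk.trans_le (le_max_right n m), S.E_trans (E_up s0 (le_max_left n m) hi hj h)
          (E_up s0 (le_max_right n m) hj' hk h')⟩ }

/-- **the model** -/
def Md : Type := Quotient (stoid s0)

/-- element of the model -/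
def cl (i : ℕ) : Md s0 := Quotient.mk (stoid s0) i




/-- membership of the model -/
def memQ (a b : Md s0) : Prop := ∃ i j, cl s0 i = a ∧ cl s0 j = b ∧ memv s0 i j


/-- interpretation of the relation symbols -/
def relQ : ∀ {l : ℕ}, setL.Relations l → (Fin l → Md s0) → Prop
  | _, SetRel.mem, v => memQ s0 (v 0) (v 1)

instance : setL.Structure (Md s0) where
  funMap f := isEmptyElim f
  RelMap R v := relQ s0 R v

instance : Nonempty (Md s0) := ⟨cl s0 0⟩



end tower


end Sys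

end Crest.Agent.R296.Satx566
end

-- ▼ part R296/FSys_879
section

/-!
Row 296, block B (helper879): abstract forcing systems over a category.

`FSys C` : objects `c : C`, sets of names `Nm c`, restriction `res h : Nm c → Nm d` along `h : d ⟶ c`
(functorial up to forced equality), forced membership `M c a b` and forced equality `E c a b`,
monotone, regular (dense below ⇒ forced), `E` a congruence.

`S.Frc φ c v` : forcing of a bounded formula of `setL`, by recursion.
-/

set_option autoImplicit false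

open FirstOrder FirstOrder.Language Crest.LogicCS.SetTheory CategoryTheory

namespace Crest.Agent.R296

universe w u v

/-- an abstract forcing system over a category -/
structure FSys (C : Type u) [Category.{w} C] where
  Nm : C → Type v
  nm0 : ∀ c, Nm c
  res : ∀ {d c : C}, (d ⟶ c) → Nm c → Nm d
  M : ∀ c : C, Nm c → Nm c → Prop
  E : ∀ c : C, Nm c → Nm c → Prop
  res_id : ∀ {c : C} (a : Nm c), E c (res (𝟙 c) a) a
  res_comp : ∀ {e d c : C} (k : e ⟶ d) (h : d ⟶ c) (a : Nm c), E e (res k (res h a)) (res (k ≫ h) a)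
  E_refl : ∀ {c : C} (a : Nm c), E c a a
  E_symm : ∀ {c : C} {a b : Nm c}, E c a b → E c b a
  E_trans : ∀ {c : C} {a b x : Nm c}, E c a b → E c b x → E c a x
  E_mono : ∀ {d c : C} (h : d ⟶ c) {a b : Nm c}, E c a b → E d (res h a) (res h b)
  M_mono : ∀ {d c : C} (h : d ⟶ c) {a b : Nm c}, M c a b → M d (res h a) (res h b)
  E_reg : ∀ {c : C} {a b : Nm c},
    (∀ (d : C) (h : d ⟶ c), ∃ (e : C) (k : e ⟶ d), E e (res (k ≫ h) a) (res (k ≫ h) b)) → E c a b
  M_reg : ∀ {c : C} {a b : Nm c},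
    (∀ (d : C) (h : d ⟶ c), ∃ (e : C) (k : e ⟶ d), M e (res (k ≫ h) a) (res (k ≫ h) b)) → M c a b
  M_congr : ∀ {c : C} {a a' b b' : Nm c}, E c a a' → E c b b' → M c a b → M c a' b'

namespace FSys

variable {C : Type u} [Category.{w} C] (S : FSys.{w, u, v} C)

/-- the variable of a term of `setL` (no function symbols) -/
def tix {n : ℕ} : setL.Term (Empty ⊕ Fin n) → Fin n
  | .var (Sum.inr i) => i
  | .var (Sum.inl e) => e.elim
  | .func f _ => Empty.elim f

@[simp] theorem tix_inr {n : ℕ} (i : Fin n) :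
    tix (Term.var (Sum.inr i) : setL.Term (Empty ⊕ Fin n)) = i := rfl



variable {S}















/-! ### derived connectives -/












end FSys

end Crest.Agent.R296
end

-- ▼ part R296/CatDic_566
section

/-!
# Row 296, block B (helper566): dictionary, semantic half

* `up x y`, `op x y` : unordered and ordered pairs; `op_inj`
* `fc_isSing`, `fc_isUPair`, `fc_isOPair`, `fc_pairMem`
-/

set_option autoImplicit false

universe u

open CategoryTheory FirstOrder FirstOrder.Language Crest.LogicCS.SetTheory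
open Crest.Agent.R296.CatFx365 Crest.Agent.R296.CatFrcx365

namespace Crest.Agent.R296.CatDicx566

variable {C : Type u} [Category.{u} C]

/-! ### dense families -/

/-- `P` holds densely over the extensions of `d` -/
def Dn {d : C} (P : ∀ {d' : C}, (d' ⟶ d) → Prop) : Prop :=
  ∀ (d1 : C) (l : d1 ⟶ d), ∃ (d2 : C) (m : d2 ⟶ d1), P (m ≫ l)

/-- monotone families -/
def Mn {d : C} (P : ∀ {d' : C}, (d' ⟶ d) → Prop) : Prop :=
  ∀ {d' d'' : C} (h : d' ⟶ d) (g : d'' ⟶ d'), P h → P (g ≫ h)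

theorem Dn.and {d : C} {P Q : ∀ {d' : C}, (d' ⟶ d) → Prop} (hP : Dn (d := d) P) (hQ : Dn (d := d) Q)
    (mP : Mn (d := d) P) : Dn (d := d) fun h => P h ∧ Q h := by
  intro d1 l
  obtain ⟨d2, m, h1⟩ := hP d1 l
  obtain ⟨d3, m', h2⟩ := hQ d2 (m ≫ l)
  exact ⟨d3, m' ≫ m, by simpa using mP _ m' h1, by simpa using h2⟩

theorem Dn.imp {d : C} {P Q : ∀ {d' : C}, (d' ⟶ d) → Prop} (hP : Dn (d := d) P)
    (h : ∀ {d' : C} (k : d' ⟶ d), P k → Q k) : Dn (d := d) Q := by
  intro d1 l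
  obtain ⟨d2, m, h1⟩ := hP d1 l
  exact ⟨d2, m, h _ h1⟩

theorem Dn.bind {d : C} {P Q : ∀ {d' : C}, (d' ⟶ d) → Prop} (hP : Dn (d := d) P)
    (h : ∀ {d' : C} (k : d' ⟶ d), P k → ∃ (d'' : C) (g : d'' ⟶ d'), Q (g ≫ k)) : Dn (d := d) Q := by
  intro d1 l
  obtain ⟨d2, m, h1⟩ := hP d1 l
  obtain ⟨d3, g, h2⟩ := h _ h1
  exact ⟨d3, g ≫ m, by simpa using h2⟩

theorem eq_of_dn {d : C} {x y : Val C d}
    (H : Dn (d := d) fun h => Eq' (x.res h) (y.res h)) : Eq' x y := Eq'.of_dense H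

theorem mem_of_dn {d : C} {x y : Val C d}
    (H : Dn (d := d) fun h => Mem' (x.res h) (y.res h)) : Mem' x y := Mem'.of_dense H


/-! ### pairs -/

/-- unordered pair -/
def up {d : C} (x y : Val C d) : Val C d :=
  mkv (ULift.{u} Bool) (fun _ => d) (fun _ => 𝟙 d) (fun b => if b.down then x else y)

/-- ordered pair -/
def op {d : C} (x y : Val C d) : Val C d := up (up x x) (up x y)

theorem mem_up_res {d d' : C} (x y : Val C d) (h : d' ⟶ d) (z : Val C d') :
    Mem' z ((up x y).res h) ↔ Dn (d := d') fun k => Eq' (z.res k) (x.res (k ≫ h)) ∨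
      Eq' (z.res k) (y.res (k ≫ h)) := by
  unfold up
  rw [mem_mkv]
  refine forall_congr' fun d1 => forall_congr' fun l => exists_congr fun d2 => exists_congr fun m => ?_
  constructor
  · rintro ⟨b, k, h1, h2⟩
    obtain rfl : (m ≫ l) ≫ h = k := by simpa using h1
    rcases b with ⟨_ | _⟩
    · exact Or.inr h2
    · exact Or.inl h2
  · rintro (h1 | h1)
    · exact ⟨⟨true⟩, (m ≫ l) ≫ h, by simp, h1⟩
    · exact ⟨⟨false⟩, (m ≫ l) ≫ h, by simp, h1⟩

theorem mem_up {d : C} (x y z : Val C d) :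
    Mem' z (up x y) ↔ Dn (d := d) fun k => Eq' (z.res k) (x.res k) ∨ Eq' (z.res k) (y.res k) := by
  have := mem_up_res x y (𝟙 d) z
  simpa using this

theorem mem_up_left {d : C} (x y : Val C d) : Mem' x (up x y) := by
  rw [mem_up]
  exact fun d1 l => ⟨d1, 𝟙 d1, Or.inl (Eq'.refl _)⟩

theorem mem_up_right {d : C} (x y : Val C d) : Mem' y (up x y) := by
  rw [mem_up]
  exact fun d1 l => ⟨d1, 𝟙 d1, Or.inr (Eq'.refl _)⟩

theorem up_res {d d' : C} (x y : Val C d) (h : d' ⟶ d) :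
    Eq' ((up x y).res h) (up (x.res h) (y.res h)) := by
  refine ext' fun d1 l z => ?_
  rw [Val.res_res, mem_up_res, mem_up_res]
  refine forall_congr' fun d2 => forall_congr' fun m => exists_congr fun d3 => exists_congr fun k => ?_
  simp

theorem up_congr {d : C} {x x' y y' : Val C d} (hx : Eq' x x') (hy : Eq' y y') :
    Eq' (up x y) (up x' y') := by
  refine ext' fun d1 l z => ?_
  rw [mem_up_res, mem_up_res]
  refine forall_congr' fun d2 => forall_congr' fun m => exists_congr fun d3 => exists_congr fun k => ?_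
  refine or_congr ⟨fun h => h.trans (hx.res _), fun h => h.trans (hx.res _).symm⟩
    ⟨fun h => h.trans (hy.res _), fun h => h.trans (hy.res _).symm⟩

theorem up_inj {d : C} {x y x' y' : Val C d} (h : Eq' (up x y) (up x' y')) :
    Dn (d := d) fun k => (Eq' (x.res k) (x'.res k) ∧ Eq' (y.res k) (y'.res k)) ∨
      (Eq' (x.res k) (y'.res k) ∧ Eq' (y.res k) (x'.res k)) := by
  have m1 := (mem_up _ _ _).1 (Mem'.congr_right h (mem_up_left x y))
  have m2 := (mem_up _ _ _).1 (Mem'.congr_right h (mem_up_right x y))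
  have m3 := (mem_up _ _ _).1 (Mem'.congr_right h.symm (mem_up_left x' y'))
  have m4 := (mem_up _ _ _).1 (Mem'.congr_right h.symm (mem_up_right x' y'))
  have mono : ∀ a b c e : Val C d, Mn (d := d) fun k => Eq' (a.res k) (b.res k) ∨
      Eq' (c.res k) (e.res k) := fun a b c e {d' d''} k g H =>
    H.imp (fun H => by simpa using H.res g) (fun H => by simpa using H.res g)
  refine (((m1.and m2 (mono _ _ _ _)).and (m3.and m4 (mono _ _ _ _)) ?_)).imp ?_
  · intro d' d'' k g H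
    exact ⟨mono _ _ _ _ k g H.1, mono _ _ _ _ k g H.2⟩
  · rintro d' k ⟨⟨h1, h2⟩, h3, h4⟩
    rcases h1 with h1 | h1
    · rcases h2 with h2 | h2
      · rcases h4 with h4 | h4
        · exact Or.inl ⟨h1, h2.trans (h1.symm.trans h4.symm)⟩
        · exact Or.inl ⟨h1, h4.symm⟩
      · exact Or.inl ⟨h1, h2⟩
    · rcases h2 with h2 | h2
      · exact Or.inr ⟨h1, h2⟩
      · rcases h3 with h3 | h3
        · exact Or.inr ⟨h1, (h2.trans (h1.symm.trans h3.symm))⟩
        · exact Or.inr ⟨h1, h3.symm⟩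

theorem op_res {d d' : C} (x y : Val C d) (h : d' ⟶ d) :
    Eq' ((op x y).res h) (op (x.res h) (y.res h)) :=
  (up_res _ _ h).trans (up_congr (up_res _ _ h) (up_res _ _ h))

theorem op_congr {d : C} {x x' y y' : Val C d} (hx : Eq' x x') (hy : Eq' y y') :
    Eq' (op x y) (op x' y') := up_congr (up_congr hx hx) (up_congr hx hy)

/-- `{x} = {a, b}` forces `x = a` and `x = b` -/
theorem sing_eq {d : C} {x a b : Val C d} (h : Eq' (up x x) (up a b)) : Eq' x a ∧ Eq' x b := by
  have h1 := up_inj h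
  constructor
  · refine eq_of_dn (h1.imp fun k H => ?_)
    rcases H with H | H
    · exact H.1
    · exact H.2
  · refine eq_of_dn (h1.imp fun k H => ?_)
    rcases H with H | H
    · exact H.2
    · exact H.1

/-- **ordered pairs** -/
theorem op_inj {d : C} {x y x' y' : Val C d} :
    Eq' (op x y) (op x' y') ↔ Eq' x x' ∧ Eq' y y' := by
  constructor
  swap
  · exact fun h => op_congr h.1 h.2
  intro h
  have h1 := up_inj h
  have key : Dn (d := d) fun k => Eq' (x.res k) (x'.res k) ∧ Eq' (y.res k) (y'.res k) := by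
    refine h1.bind ?_
    rintro d' k (⟨h2, h3⟩ | ⟨h2, h3⟩)
    · have h4 := ((up_res x x k).symm.trans (h2.trans (up_res x' x' k)))
      have h5 := ((up_res x y k).symm.trans (h3.trans (up_res x' y' k)))
      have h6 := (sing_eq h4).1
      obtain ⟨d'', g, h7⟩ := up_inj h5 d' (𝟙 d')
      refine ⟨d'', g, ?_⟩
      have h6' : Eq' (x.res (g ≫ k)) (x'.res (g ≫ k)) := by simpa using h6.res g
      refine ⟨h6', ?_⟩
      rcases h7 with ⟨-, h7⟩ | ⟨h7, h8⟩
      · simpa using h7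
      · have h7' : Eq' (x.res (g ≫ k)) (y'.res (g ≫ k)) := by simpa using h7
        have h8' : Eq' (y.res (g ≫ k)) (x'.res (g ≫ k)) := by simpa using h8
        exact h8'.trans (h6'.symm.trans h7')
    · have h4 := ((up_res x x k).symm.trans (h2.trans (up_res x' y' k)))
      have h5 := ((up_res x y k).symm.trans (h3.trans (up_res x' x' k)))
      have h6 := sing_eq h4
      have h7 := sing_eq h5.symm
      refine ⟨d', 𝟙 d', ?_, ?_⟩
      · simpa using h6.1
      · simpa using h7.2.symm.trans (h6.1.symm.trans h6.2)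
  exact ⟨eq_of_dn (key.imp fun k H => H.1), eq_of_dn (key.imp fun k H => H.2)⟩

/-! ### formulas -/

section formulas

variable {n : ℕ} {d : C} (v : Fin n → Val C d)

theorem ext_iff {x y : Val C d} :
    Eq' x y ↔ ∀ (d1 : C) (l : d1 ⟶ d) (z : Val C d1), Mem' z (x.res l) ↔ Mem' z (y.res l) :=
  ⟨fun h _ l _ => ⟨Mem'.congr_right (h.res l), Mem'.congr_right (h.res l).symm⟩, ext'⟩

/-- a formula `∀ z, P z ↔ Q z` -/
theorem fc_all_iff (p q : setL.BoundedFormula Empty (n + 1)) : Fc (∀' (p ⇔ q)) v ↔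
    ∀ (d1 : C) (l : d1 ⟶ d) (z : Val C d1), Fc p (sn (vr l v) z) ↔ Fc q (sn (vr l v) z) := by
  constructor
  · intro H d1 l z
    have h1 := (fc_iff _ _ _).1 (H d1 l z) d1 (𝟙 d1)
    simpa using h1
  · intro H d1 l z
    rw [fc_iff]
    intro d2 h
    have h1 := H d2 (h ≫ l) (z.res h)
    simpa using h1

/-- a formula `∀ z, P z → Q z` -/
theorem fc_all_imp (p q : setL.BoundedFormula Empty (n + 1)) : Fc (∀' (p ⟹ q)) v ↔
    ∀ (d1 : C) (l : d1 ⟶ d) (z : Val C d1), Fc p (sn (vr l v) z) → Fc q (sn (vr l v) z) := by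
  constructor
  · intro H d1 l z
    have h1 := (H d1 l z) d1 (𝟙 d1)
    simpa using h1
  · intro H d1 l z d2 h
    have h1 := H d2 (h ≫ l) (z.res h)
    simpa using h1

theorem fc_isUPair (w a b : Fin n) : Fc (isUPair w a b) v ↔ Eq' (v w) (up (v a) (v b)) := by
  rw [ext_iff]
  unfold isUPair
  rw [fc_all_iff]
  refine forall_congr' fun d1 => forall_congr' fun l => forall_congr' fun z => ?_
  rw [mem_up_res, fc_vmem, fc_or]
  refine iff_congr (by simp) ?_
  refine forall_congr' fun d3 => forall_congr' fun g => exists_congr fun d4 =>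
      exists_congr fun m => ?_
  rw [fc_veq, fc_veq]
  simp

theorem fc_isSing (w a : Fin n) : Fc (isSing w a) v ↔ Eq' (v w) (up (v a) (v a)) := by
  rw [ext_iff]
  unfold isSing
  rw [fc_all_iff]
  refine forall_congr' fun d1 => forall_congr' fun l => forall_congr' fun z => ?_
  rw [mem_up_res, fc_vmem, fc_veq]
  refine iff_congr (by simp) ?_
  simp only [sn_last, sn_castSucc, vr_apply, or_self]
  constructor
  · intro h d2 m
    exact ⟨d2, 𝟙 d2, by simpa using h.res m⟩
  · intro h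
    refine eq_of_dn (h.imp fun k h => ?_)
    simpa using h

theorem fc_isOPair (p a b : Fin n) : Fc (isOPair p a b) v ↔ Eq' (v p) (op (v a) (v b)) := by
  rw [ext_iff]
  unfold isOPair
  rw [fc_all_iff]
  refine forall_congr' fun d1 => forall_congr' fun l => forall_congr' fun z => ?_
  unfold op
  rw [mem_up_res, fc_vmem, fc_or]
  refine iff_congr (by simp) ?_
  refine forall_congr' fun d3 => forall_congr' fun g => exists_congr fun d4 =>
      exists_congr fun m => ?_
  rw [fc_isSing, fc_isUPair]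
  simp only [sn_last, sn_castSucc, vr_apply, Val.res_res]
  exact or_congr ⟨fun h => h.trans (up_res _ _ _).symm, fun h => h.trans (up_res _ _ _)⟩
    ⟨fun h => h.trans (up_res _ _ _).symm, fun h => h.trans (up_res _ _ _)⟩

/-- **pairs in a relation** -/
theorem fc_pairMem (f a b : Fin n) : Fc (pairMem f a b) v ↔ Mem' (op (v a) (v b)) (v f) := by
  unfold pairMem
  rw [fc_ex]
  constructor
  · intro H
    refine mem_of_dn fun d1 l => ?_
    obtain ⟨d2, m, x, h⟩ := H d1 l
    rw [fc_and, fc_vmem, fc_isOPair] at h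
    refine ⟨d2, m, ?_⟩
    have h1 : Eq' x (op ((v a).res (m ≫ l)) ((v b).res (m ≫ l))) := by simpa using h.2
    have h2 : Mem' x ((v f).res (m ≫ l)) := by simpa using h.1
    exact Mem'.congr_left (h1.trans (op_res _ _ _).symm) h2
  · intro H d1 l
    refine ⟨d1, 𝟙 d1, (op (v a) (v b)).res l, ?_⟩
    rw [fc_and, fc_vmem, fc_isOPair]
    refine ⟨?_, ?_⟩
    · simpa using H.res l
    · simpa using op_res _ _ _

/-- two quantifiers and an implication -/
theorem fc_all2_imp (p q : setL.BoundedFormula Empty (n + 2)) : Fc (∀' ∀' (p ⟹ q)) v ↔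
    ∀ (d1 : C) (l : d1 ⟶ d) (x y : Val C d1), Fc p (sn (sn (vr l v) x) y) →
      Fc q (sn (sn (vr l v) x) y) := by
  constructor
  · intro H d1 l x y
    have h1 := (fc_all_imp _ p q).1 (H d1 l x) d1 (𝟙 d1) y
    simpa using h1
  · intro H d1 l x
    rw [fc_all_imp]
    intro d2 l2 y
    have h1 := H d2 (l2 ≫ l) (x.res l2) y
    simpa using h1


/-- existential formulas -/
theorem fc_ex' (p : setL.BoundedFormula Empty (n + 1)) : Fc (∃' p) v ↔
    Dn (d := d) fun {d'} k => ∃ x : Val C d', Fc p (sn (vr k v) x) := by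
  rw [fc_ex]
  rfl

end formulas

/-! ### semantic notions -/

section sem

variable {d : C}


/-- `g` is the graph of an injective map from `Y` into `X` -/
def InjV (g Y X : Val C d) : Prop :=
  (∀ (d1 : C) (l : d1 ⟶ d) (b : Val C d1), Mem' b (Y.res l) → Dn (d := d1) fun {d2} k =>
    ∃ a : Val C d2, Mem' a (X.res (k ≫ l)) ∧ Mem' (op (b.res k) a) (g.res (k ≫ l))) ∧
  (∀ (d1 : C) (l : d1 ⟶ d) (b a a' : Val C d1), Mem' b (Y.res l) → Mem' (op b a) (g.res l) →
    Mem' (op b a') (g.res l) → Eq' a a') ∧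
  (∀ (d1 : C) (l : d1 ⟶ d) (b b' a : Val C d1), Mem' b (Y.res l) → Mem' b' (Y.res l) →
    Mem' (op b a) (g.res l) → Mem' (op b' a) (g.res l) → Eq' b b')

/-- transitive -/
def TransV (a : Val C d) : Prop :=
  ∀ (d1 : C) (l : d1 ⟶ d) (y z : Val C d1), Mem' z y → Mem' y (a.res l) → Mem' z (a.res l)

/-- ordinal -/
def OrdV (a : Val C d) : Prop :=
  TransV a ∧ ∀ (d1 : C) (l : d1 ⟶ d) (y : Val C d1), Mem' y (a.res l) → TransV y

variable {n : ℕ} (v : Fin n → Val C d)



theorem fc_isTrans (a : Fin n) : Fc (isTrans a) v ↔ TransV (v a) := by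
  unfold isTrans TransV
  rw [fc_all2_imp]
  refine forall_congr' fun d1 => forall_congr' fun l => forall_congr' fun y =>
    forall_congr' fun z => ?_
  rw [fc_and, fc_vmem, fc_vmem, fc_vmem]
  simp

theorem fc_isOrd (a : Fin n) : Fc (isOrd a) v ↔ OrdV (v a) := by
  unfold isOrd OrdV
  rw [fc_and, fc_isTrans, fc_all_imp]
  refine and_congr Iff.rfl ?_
  refine forall_congr' fun d1 => forall_congr' fun l => forall_congr' fun y => ?_
  rw [fc_vmem, fc_isTrans]
  simp

end sem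

/-! ### the principles -/

theorem InjV.res {d d' : C} (h : d' ⟶ d) {g Y X : Val C d} (H : InjV g Y X) :
    InjV (g.res h) (Y.res h) (X.res h) := by
  refine ⟨fun d1 l b hb => ?_, fun d1 l b a a' => ?_, fun d1 l b b' a => ?_⟩
  · have := H.1 d1 (l ≫ h) b (by simpa using hb)
    refine this.imp fun k hk => ?_
    simpa using hk
  · have := H.2.1 d1 (l ≫ h) b a a'
    simpa using this
  · have := H.2.2 d1 (l ≫ h) b b' a
    simpa using this


/-- **choice for families indexed by an ordinal** -/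
theorem acwoAx_of (H : ∀ (d : C) (α f : Val C d), OrdV α →
    (∀ (d1 : C) (l : d1 ⟶ d) (x : Val C d1), Mem' x (α.res l) → Dn (d := d1) fun {d2} k =>
      ∃ y : Val C d2, Mem' (op (x.res k) y) (f.res (k ≫ l))) →
    ∃ (d' : C) (h : d' ⟶ d) (g : Val C d'), ∀ (d1 : C) (l : d1 ⟶ d') (x : Val C d1),
      Mem' x (α.res (l ≫ h)) → Dn (d := d1) fun {d2} k => ∃ y : Val C d2,
        Mem' (op (x.res k) y) (g.res (k ≫ l)) ∧ Mem' (op (x.res k) y) (f.res (k ≫ l ≫ h)) ∧
        ∀ (d3 : C) (m : d3 ⟶ d2) (y' : Val C d3), Mem' (op (x.res (m ≫ k)) y') (g.res (m ≫ k ≫ l)) →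
          Eq' y' (y.res m)) (c : C) : Fs c acwoAx := by
  unfold Fs acwoAx
  rw [fc_all2_imp]
  intro d l α f h1
  rw [fc_and, fc_isOrd, fc_all_imp] at h1
  rw [fc_ex']
  intro d1 l1
  have hA : OrdV (α.res l1) := by
    have h2 : OrdV α := h1.1
    refine ⟨fun d2 l2 y z hz hy => ?_, fun d2 l2 y hy => ?_⟩
    · have := h2.1 d2 (l2 ≫ l1) y z hz (by simpa using hy)
      simpa using this
    · exact h2.2 d2 (l2 ≫ l1) y (by simpa using hy)
  have hB : ∀ (d2 : C) (l2 : d2 ⟶ d1) (x : Val C d2), Mem' x ((α.res l1).res l2) →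
      Dn (d := d2) fun {d3} k => ∃ y : Val C d3, Mem' (op (x.res k) y) ((f.res l1).res (k ≫ l2)) := by
    intro d2 l2 x hx
    have h2 := h1.2 d2 (l2 ≫ l1) x
    rw [fc_vmem, fc_ex'] at h2
    have hx' : Mem' x (α.res (l2 ≫ l1)) := by simpa using hx
    refine (h2 hx').imp ?_
    rintro d3 k ⟨y, hy⟩
    rw [fc_pairMem] at hy
    refine ⟨y, ?_⟩
    have h4 : Mem' (op (x.res k) y) ((f.res (l2 ≫ l1)).res k) := hy
    simpa using h4
  obtain ⟨d', h, g, hg⟩ := H d1 (α.res l1) (f.res l1) hA hB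
  refine ⟨d', h, g, ?_⟩
  rw [fc_all_imp]
  intro d2 l2 x hx
  rw [fc_ex']
  have hx' : Mem' x ((α.res l1).res (l2 ≫ h)) := by
    have h3 : Mem' x ((α.res (h ≫ l1)).res l2) := hx
    simpa using h3
  refine (hg d2 l2 x hx').imp ?_
  rintro d3 k ⟨y, hy1, hy2, hy3⟩
  refine ⟨y, ?_⟩
  rw [fc_and, fc_and, fc_pairMem, fc_pairMem, fc_all_imp]
  refine ⟨⟨?_, ?_⟩, ?_⟩
  · show Mem' (op (x.res k) y) ((g.res l2).res k)
    simpa using hy1
  · show Mem' (op (x.res k) y) ((((f.res (h ≫ l1))).res l2).res k)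
    simpa using hy2
  · intro d4 m y' hy'
    rw [fc_pairMem] at hy'
    rw [fc_veq]
    have h4 : Mem' (op ((x.res k).res m) y') (((g.res l2).res k).res m) := hy'
    show Eq' y' (y.res m)
    exact hy3 d4 m y' (by simpa using h4)


end Crest.Agent.R296.CatDicx566
end

-- ▼ part R296/CatAcwo_622
section

/-!
Row 296 (S0448), helper622.  **Block C.1 in abstract form: `acwoAx` is forced over every small category
with the projection property `Proj`.**

`Proj C` : every `c₀` has an arrow `F : d₀ ⟶ c₀` such that for every dense sieve `D` on `c₀`, every arrow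
`h : m ⟶ d₀` has an extension `k : m' ⟶ m` for which `k ≫ h` factors through a monomorphism `i : e ⟶ d₀`
with `i ≫ F ∈ D`.
-/

set_option autoImplicit false
set_option linter.unusedSimpArgs false

namespace Crest.Agent.R296.CatAcwox622

open CategoryTheory FirstOrder FirstOrder.Language Crest.LogicCS.SetTheory
open Crest.Agent.R296.CatFx365 Crest.Agent.R296.CatFrcx365
open Crest.Agent.R296.CatOrdx622 Crest.Agent.R296.CatDicx566

universe u

/-- the projection property -/
def Proj (C : Type u) [Category.{u} C] : Prop :=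
  ∀ c0 : C, ∃ (d0 : C) (F : d0 ⟶ c0), ∀ D : ∀ n : C, (n ⟶ c0) → Prop,
    (∀ (n n' : C) (g : n' ⟶ n) (a : n ⟶ c0), D n a → D n' (g ≫ a)) →
    (∀ (n : C) (a : n ⟶ c0), ∃ (n' : C) (g : n' ⟶ n), D n' (g ≫ a)) →
    ∀ (m : C) (h : m ⟶ d0), ∃ (m' : C) (k : m' ⟶ m) (e : C) (i : e ⟶ d0) (j : m' ⟶ e),
      Mono i ∧ D e (i ≫ F) ∧ k ≫ h = j ≫ i

variable {C : Type u} [Category.{u} C]

section choice

variable {c0 d0 : C} (F : d0 ⟶ c0) (f : Val C c0)

/-- the sieve of stages where the fibre over `β` has an element -/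
def DS (β : Ordinal.{u}) (n : C) (a : n ⟶ c0) : Prop :=
  ∃ y : Val C n, Mem' (op (ov β n) y) (f.res a)

lemma DS.comp {β : Ordinal.{u}} {n n' : C} (g : n' ⟶ n) {a : n ⟶ c0} (H : DS f β n a) :
    DS f β n' (g ≫ a) := by
  obtain ⟨y, hy⟩ := H
  refine ⟨y.res g, ?_⟩
  have h1 := hy.res g
  rw [Val.res_res] at h1
  exact Mem'.congr_left ((op_res _ _ _).trans (op_congr (ov_res _ _) (Eq'.refl _))) h1

/-- arrows into `d0` -/
abbrev TT (d0 : C) : Type u := Σ e : C, (e ⟶ d0)

/-- good keys for `β` -/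
def Good (β : Ordinal.{u}) (t : TT d0) : Prop := Mono t.2 ∧ DS f β t.1 (t.2 ≫ F)

/-- `h` factors through the key -/
def Fac {m : C} (t : TT d0) (h : m ⟶ d0) : Prop := ∃ j : m ⟶ t.1, j ≫ t.2 = h

lemma Fac.comp {m m' : C} {t : TT d0} {h : m ⟶ d0} (w : m' ⟶ m) (H : Fac t h) : Fac t (w ≫ h) := by
  obtain ⟨j, rfl⟩ := H
  exact ⟨w ≫ j, by simp⟩

/-- `t` is decided to be the least good key through which `h` factors -/
def Dec (β : Ordinal.{u}) (t : TT d0) {m : C} (h : m ⟶ d0) : Prop :=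
  Good F f β t ∧ Fac t h ∧
    ∀ t' : TT d0, WellOrderingRel t' t → Good F f β t' → ∀ (m' : C) (w : m' ⟶ m), ¬ Fac t' (w ≫ h)

variable {F f}

lemma Dec.comp {β : Ordinal.{u}} {t : TT d0} {m m' : C} {h : m ⟶ d0} (w : m' ⟶ m)
    (H : Dec F f β t h) : Dec F f β t (w ≫ h) := by
  refine ⟨H.1, H.2.1.comp w, fun t' ht' hg m'' w' hf => H.2.2 t' ht' hg m'' (w' ≫ w) ?_⟩
  simpa using hf

lemma Dec.uniq {β : Ordinal.{u}} {t t' : TT d0} {m : C} {h : m ⟶ d0}
    (H : Dec F f β t h) (H' : Dec F f β t' h) : t = t' := by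
  rcases trichotomous_of (WellOrderingRel (α := TT d0)) t t' with h1 | h1 | h1
  · exact absurd (by simpa using H.2.1) (H'.2.2 t h1 H.1 m (𝟙 m))
  · exact h1
  · exact absurd (by simpa using H'.2.1) (H.2.2 t' h1 H'.1 m (𝟙 m))

/-- keys are decided densely -/
lemma Dec.dense {β : Ordinal.{u}}
    (hP : ∀ (m : C) (h : m ⟶ d0), ∃ (m' : C) (k : m' ⟶ m) (e : C) (i : e ⟶ d0) (j : m' ⟶ e),
      Mono i ∧ DS f β e (i ≫ F) ∧ k ≫ h = j ≫ i) {m : C} (h : m ⟶ d0) :
    ∃ (m' : C) (w : m' ⟶ m) (t : TT d0), Dec F f β t (w ≫ h) := by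
  obtain ⟨m1, k, e, i, j, hi, hD, hk⟩ := hP m h
  have hne : {t : TT d0 | Good F f β t ∧ ∃ (m' : C) (w : m' ⟶ m), Fac t (w ≫ h)}.Nonempty :=
    ⟨⟨e, i⟩, ⟨hi, hD⟩, m1, k, j, hk.symm⟩
  have hwf : WellFounded (WellOrderingRel (α := TT d0)) := WellOrderingRel.isWellOrder.wf
  obtain ⟨hg, m2, w, hf⟩ := hwf.min_mem _ hne
  refine ⟨m2, w, _, hg, hf, fun t' ht' hg' m3 w' hf' => ?_⟩
  exact hwf.not_lt_min {t : TT d0 | Good F f β t ∧ ∃ (m' : C) (w : m' ⟶ m), Fac t (w ≫ h)}
    (x := t') ⟨hg', m3, w' ≫ w, by simpa using hf'⟩ ht'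

/-- the chosen element -/
noncomputable def Yv {β : Ordinal.{u}} {t : TT d0} (H : Good F f β t) : Val C t.1 :=
  Classical.choose H.2

lemma Yv_spec {β : Ordinal.{u}} {t : TT d0} (H : Good F f β t) :
    Mem' (op (ov β t.1) (Yv H)) (f.res (t.2 ≫ F)) := Classical.choose_spec H.2

/-- index type of the graph of the choice function -/
def IX (F : d0 ⟶ c0) (f : Val C c0) (α : Ordinal.{u}) : Type u :=
  {s : α.ToType × TT d0 × TT d0 //
    Dec F f ((Ordinal.ToType.mk.symm s.1 : Set.Iio α) : Ordinal.{u}) s.2.2 s.2.1.2}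

/-- ordinal of an index -/
noncomputable def IX.o {α : Ordinal.{u}} (s : IX F f α) : Ordinal.{u} :=
  ((Ordinal.ToType.mk.symm s.1.1 : Set.Iio α) : Ordinal.{u})

/-- lift through the key -/
noncomputable def IX.lift {α : Ordinal.{u}} (s : IX F f α) : s.1.2.1.1 ⟶ s.1.2.2.1 :=
  Classical.choose s.2.2.1

lemma IX.lift_spec {α : Ordinal.{u}} (s : IX F f α) : s.lift ≫ s.1.2.2.2 = s.1.2.1.2 :=
  Classical.choose_spec s.2.2.1

/-- value of an index -/
noncomputable def IX.val {α : Ordinal.{u}} (s : IX F f α) : Val C s.1.2.1.1 :=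
  (Yv s.2.1).res s.lift

variable (F f)

/-- the graph of the choice function -/
noncomputable def gv (α : Ordinal.{u}) : Val C d0 :=
  mkv (IX F f α) (fun s => s.1.2.1.1) (fun s => s.1.2.1.2) (fun s => op (ov s.o _) s.val)

variable {F f}

/-- pairs of the graph at a decided stage -/
lemma mem_gv_of {α β : Ordinal.{u}} (hβ : β < α) {t : TT d0} {m : C} {h : m ⟶ d0}
    (H : Dec F f β t h) (j : m ⟶ t.1) (hj : j ≫ t.2 = h) :
    Mem' (op (ov β m) ((Yv H.1).res j)) ((gv F f α).res h) := by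
  have hs : Dec F f ((Ordinal.ToType.mk.symm (Ordinal.ToType.mk ⟨β, hβ⟩) : Set.Iio α) : Ordinal.{u})
      t h := by simpa using H
  let s : IX F f α := ⟨(Ordinal.ToType.mk ⟨β, hβ⟩, ⟨m, h⟩, t), hs⟩
  have hso : s.o = β := by simp [s, IX.o]
  rw [gv, mem_mkv]
  intro d1 l
  refine ⟨d1, 𝟙 d1, s, l, by simp [s], ?_⟩
  have hmono : Mono t.2 := H.1.1
  have hlift : s.lift = j := by
    have h1 : s.lift ≫ t.2 = j ≫ t.2 := by
      rw [hj]; exact s.lift_spec
    exact (cancel_mono t.2).1 h1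
  have hval : s.val = (Yv H.1).res j := by
    have h2 : s.val = (Yv s.2.1).res s.lift := rfl
    rw [h2, hlift]
    congr 1
    simp only [Yv]
    congr 1
    ext y
    have h3 : ((Ordinal.ToType.mk.symm s.1.1 : Set.Iio α) : Ordinal.{u}) = β := hso
    rw [h3]
  have e1 : Eq' (op (ov β m) ((Yv H.1).res j)) (op (ov s.o m) s.val) := by
    rw [hso, hval]
    exact Eq'.refl _
  simpa using e1.res l

/-- elimination of pairs of the graph -/
lemma mem_gv_elim {α β : Ordinal.{u}} {m : C} {h : m ⟶ d0} {y : Val C m}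
    (H : Mem' (op (ov β m) y) ((gv F f α).res h)) (d1 : C) (l : d1 ⟶ m) :
    ∃ (d2 : C) (k : d2 ⟶ d1) (t : TT d0) (hd : Dec F f β t ((k ≫ l) ≫ h)) (j : d2 ⟶ t.1),
      j ≫ t.2 = (k ≫ l) ≫ h ∧ Eq' (y.res (k ≫ l)) ((Yv hd.1).res j) := by
  rw [gv, mem_mkv] at H
  obtain ⟨d2, k, s, k', h1, h2⟩ := H d1 l
  have h3 : Eq' (op (ov β d2) (y.res (k ≫ l))) (op (ov s.o d2) (s.val.res k')) :=
    ((op_congr (ov_res β _).symm (Eq'.refl _)).trans (op_res _ _ _).symm).trans
      ((h2.trans (op_res _ _ _)).trans (op_congr (ov_res _ _) (Eq'.refl _)))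
  have h4 : β = s.o := ov_eq_iff.1 ((op_inj.1 h3).1)
  have h5 := (op_inj.1 h3).2
  have h6 : Dec F f β s.1.2.2 s.1.2.1.2 := by
    rw [h4]; exact s.2
  have h7 : Dec F f β s.1.2.2 ((k ≫ l) ≫ h) := by
    rw [h1]; exact h6.comp k'
  refine ⟨d2, k, s.1.2.2, h7, k' ≫ s.lift, ?_, ?_⟩
  · rw [Category.assoc, s.lift_spec, h1]
  · refine h5.trans ?_
    have h8 : s.val = (Yv s.2.1).res s.lift := rfl
    rw [h8, Val.res_res]
    have h9 : Yv s.2.1 = Yv h7.1 := by
      simp only [Yv]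
      congr 1
      ext y
      change Mem' (op (ov s.o s.1.2.2.1) y) _ ↔ _
      rw [h4]
    rw [h9]
    exact Eq'.refl _

/-- the graph is single valued -/
lemma gv_unique {α β : Ordinal.{u}} {m : C} {h : m ⟶ d0} {y y' : Val C m}
    (H : Mem' (op (ov β m) y) ((gv F f α).res h))
    (H' : Mem' (op (ov β m) y') ((gv F f α).res h)) : Eq' y y' := by
  refine Eq'.of_dense fun d1 l => ?_
  obtain ⟨d2, k, t, hd, j, hj, hy⟩ := mem_gv_elim H d1 l
  obtain ⟨d3, k', t', hd', j', hj', hy'⟩ := mem_gv_elim H' d2 (k ≫ l)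
  refine ⟨d3, k' ≫ k, ?_⟩
  have e1 : (k' ≫ k ≫ l) ≫ h = k' ≫ (k ≫ l) ≫ h := by simp
  have hd2 : Dec F f β t ((k' ≫ k ≫ l) ≫ h) := by
    rw [e1]; exact hd.comp k'
  obtain rfl : t = t' := hd2.uniq hd'
  have hmono : Mono t.2 := hd.1.1
  have hjj : k' ≫ j = j' := by
    rw [← cancel_mono t.2, hj', Category.assoc, hj, e1]
  have h1 := hy.res k'
  rw [Val.res_res, Val.res_res, hjj] at h1
  have h2 := h1.trans hy'.symm
  simpa using h2

/-- the graph is total and contained in `f` -/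
lemma gv_total
    (hP : ∀ D : ∀ n : C, (n ⟶ c0) → Prop,
      (∀ (n n' : C) (g : n' ⟶ n) (a : n ⟶ c0), D n a → D n' (g ≫ a)) →
      (∀ (n : C) (a : n ⟶ c0), ∃ (n' : C) (g : n' ⟶ n), D n' (g ≫ a)) →
      ∀ (m : C) (h : m ⟶ d0), ∃ (m' : C) (k : m' ⟶ m) (e : C) (i : e ⟶ d0) (j : m' ⟶ e),
        Mono i ∧ D e (i ≫ F) ∧ k ≫ h = j ≫ i) {α β : Ordinal.{u}} (hβ : β < α)
    (hf : ∀ (d1 : C) (l : d1 ⟶ c0), ∃ (d2 : C) (m : d2 ⟶ d1) (y : Val C d2),
      Mem' (op (ov β d2) y) (f.res (m ≫ l))) {m : C} (h : m ⟶ d0) :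
    ∃ (m' : C) (k : m' ⟶ m) (y : Val C m'), Mem' (op (ov β m') y) ((gv F f α).res (k ≫ h)) ∧
      Mem' (op (ov β m') y) (f.res ((k ≫ h) ≫ F)) := by
  have h1 := hP (DS f β) (fun n n' g a H => H.comp f g) (fun n a => by
    obtain ⟨d2, m, y, hy⟩ := hf n a
    exact ⟨d2, m, y, hy⟩)
  obtain ⟨m', w, t, hd⟩ := Dec.dense h1 h
  obtain ⟨j, hj⟩ := hd.2.1
  refine ⟨m', w, (Yv hd.1).res j, mem_gv_of hβ hd j hj, ?_⟩
  have h2 := (Yv_spec hd.1).res j
  rw [Val.res_res] at h2
  have h3 : j ≫ t.2 ≫ F = (w ≫ h) ≫ F := by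
    rw [← hj, Category.assoc]
  rw [h3] at h2
  exact Mem'.congr_left ((op_res _ _ _).trans (op_congr (ov_res _ _) (Eq'.refl _))) h2

end choice

/-- **the choice principle for ordinal-indexed families is forced** -/
theorem acwo_forced (hP : Proj C) (c : C) : Fs c acwoAx := by
  refine acwoAx_of (fun d α f hα hf => ?_) c
  -- `α` is a canonical ordinal over some extension
  obtain ⟨c0, l0, κ, hκ⟩ := ord_dense (x := α) hα d (𝟙 d)
  rw [Category.comp_id] at hκ
  obtain ⟨d0, F, hF⟩ := hP c0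
  have hfib : ∀ β < κ, ∀ (d1 : C) (l : d1 ⟶ c0), ∃ (d2 : C) (m : d2 ⟶ d1) (y : Val C d2),
      Mem' (op (ov β d2) y) ((f.res l0).res (m ≫ l)) := by
    intro β hβ d1 l
    have h1 : Mem' (ov β d1) (α.res (l ≫ l0)) := by
      have h2 : Mem' (ov β d1) ((ov κ c0).res l) := by
        rw [mem_ov_res]; exact ov_mem_iff.2 hβ
      have h3 := Mem'.congr_right (hκ.res l).symm h2
      simpa using h3
    obtain ⟨d2, m, y, hy⟩ := hf d1 (l ≫ l0) (ov β d1) h1 d1 (𝟙 d1)
    rw [Category.comp_id] at hy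
    refine ⟨d2, m, y, ?_⟩
    have h2 := Mem'.congr_left (op_congr (ov_res β m) (Eq'.refl y)) hy
    simpa using h2
  refine ⟨d0, F ≫ l0, gv F (f.res l0) κ, fun d1 l x hx => ?_⟩
  -- `x` is densely some `ov β`
  have hx' : Mem' x (ov κ d1) := by
    have h1 := hκ.res (l ≫ F)
    rw [Val.res_res] at h1
    have h2 : Mem' x ((ov κ c0).res (l ≫ F)) := Mem'.congr_right h1 (by simpa using hx)
    rwa [mem_ov_res] at h2
  rw [mem_ov] at hx'
  intro d2 l2
  obtain ⟨d3, m3, β, hβ, h3⟩ := hx' d2 l2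
  obtain ⟨d4, k, y, hy1, hy2⟩ := gv_total hF hβ (hfib β hβ) ((m3 ≫ l2) ≫ l)
  have h4 : Eq' (x.res ((k ≫ m3) ≫ l2)) (ov β d4) := by
    have h5 := (h3.res k).trans (ov_res β k)
    simpa using h5
  refine ⟨d4, k ≫ m3, y, ?_, ?_, fun d5 m5 y' hy' => ?_⟩
  · have h5 := Mem'.congr_left (op_congr h4.symm (Eq'.refl y)) hy1
    simpa using h5
  · have h5 := Mem'.congr_left (op_congr h4.symm (Eq'.refl y)) hy2
    simpa using h5
  · -- uniqueness
    have h5 : Eq' (x.res (m5 ≫ (k ≫ m3) ≫ l2)) (ov β d5) := by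
      have h6 := (h4.res m5).trans (ov_res β m5)
      simpa using h6
    have h6 : Mem' (op (ov β d5) y') ((gv F (f.res l0) κ).res (m5 ≫ (k ≫ m3) ≫ l2 ≫ l)) := by
      have h7 := Mem'.congr_left (op_congr h5 (Eq'.refl y')) hy'
      simpa using h7
    have h7 : Mem' (op (ov β d5) (y.res m5)) ((gv F (f.res l0) κ).res (m5 ≫ (k ≫ m3) ≫ l2 ≫ l)) := by
      have h8 := Mem'.congr_left ((op_res _ _ _).trans (op_congr (ov_res β m5) (Eq'.refl _)))
        (hy1.res m5)
      simpa using h8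
    exact gv_unique h6 h7

end Crest.Agent.R296.CatAcwox622
end

-- ▼ part R296/ACWO_622
section

/-!
Row 296 (S0448), helper622.  **Block C.1: the label category `Cond P` has the projection property, hence
forces `acwoAx`.**  Uses only `IsGood P`, `GenS P` and a non-unit `f0`.
-/

set_option autoImplicit false

namespace Crest.Agent.R296.ACWOx622

open CategoryTheory FirstOrder FirstOrder.Language Crest.LogicCS.SetTheory
open Crest.Agent.R296.CatFx365 Crest.Agent.R296.CatFrcx365 Crest.Agent.R296.IfAx378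
open Crest.Agent.R296.CondCx153 Crest.Agent.R296.Locx929 Crest.Agent.R296.CatAcwox622

variable {P : Type 1} [Monoid P] [IsGood P]

/-- **the projection property of the label category** -/
theorem proj_cond (hG : GenS P) (f0 : P) (hf0 : f0 ≠ 1) : Proj (Cond P) := by
  intro c0
  refine ⟨push f0 c0, pushArr f0 c0, fun D hD1 hD2 m h => ?_⟩
  -- the condition `t = (h f0)⁻¹ m`
  have ht : c0.q ⊆ (pull (h.1 * f0) m).q := by
    rintro ⟨s, l⟩ hs
    have h1 : (f0 * s, l) ∈ (push f0 c0).q := mem_psh.2 ⟨s, hs, rfl⟩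
    have h2 := arr_mem h h1
    rw [← mul_assoc] at h2
    exact h2
  obtain ⟨n0, a0, hn0⟩ := hD2 (pull (h.1 * f0) m) (inc ht)
  -- an arrow different from `1` and `f0`
  obtain ⟨n, a, hn, ha1, ha2⟩ : ∃ (n : Cond P) (a : n ⟶ pull (h.1 * f0) m), D n (a ≫ inc ht) ∧
      a.1 ≠ 1 ∧ a.1 ≠ f0 := by
    refine ⟨push f0 (push f0 n0), pushArr f0 _ ≫ pushArr f0 n0 ≫ a0, ?_, ?_, ?_⟩
    · have h1 := hD1 _ _ (pushArr f0 (push f0 n0) ≫ pushArr f0 n0) _ hn0
      simpa using h1
    · change f0 * (f0 * a0.1) ≠ 1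
      exact mul_ne_one_left hf0 _
    · change f0 * (f0 * a0.1) ≠ f0
      intro h1
      have h2 : f0 * a0.1 = 1 := IsGood.lc f0 _ _ (by rw [h1, mul_one])
      exact mul_ne_one_left hf0 _ h2
  -- the generic `q`
  have hS : Small.{0} {s : P | s ≠ 1 ∧ ∃ l, (h.1 * s, l) ∈ m.q} := by
    have h1 : Small.{0} (supp (pull h.1 m)) := small_supp _
    exact small_subset (t := {s : P | s ≠ 1 ∧ ∃ l, (h.1 * s, l) ∈ m.q}) (s := supp (pull h.1 m))
      (fun s hs => hs.2)
  obtain ⟨q, hq, hgen⟩ := hG a.1 f0 {s : P | s ≠ 1 ∧ ∃ l, (h.1 * s, l) ∈ m.q} hS ha1 hf0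
    (fun hx => hx.1 rfl)
  have hq1 : q ≠ 1 := by
    rintro rfl
    rw [one_mul] at hq
    exact ha2 hq
  -- the monomorphism `1 : q n ⟶ f0 c0`
  have hi : (push f0 c0).q ⊆ (push q n).q := by
    rintro ⟨p, l⟩ hp
    obtain ⟨s, hs, rfl⟩ := mem_psh.1 hp
    refine mem_psh.2 ⟨a.1 * s, arr_mem a (ht hs), ?_⟩
    have h5 : f0 * s = (q * a.1) * s := congrArg (· * s) hq.symm
    rw [h5, mul_assoc]
  -- the union
  have hc : Compat m.q (push (h.1 * q) n).q := by
    intro z l hz hz'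
    obtain ⟨s', hs', rfl⟩ := mem_psh.1 hz'
    have h1 : q * s' ≠ 1 := mul_ne_one_left hq1 _
    rw [mul_assoc] at hz
    obtain ⟨r, hr⟩ := hgen (q * s') ⟨h1, l, hz⟩ s' ⟨1, by rw [mul_one]⟩
    have h2 : s' = a.1 * r := by
      refine IsGood.lc q _ _ ?_
      rw [hr, ← mul_assoc, hq]
    have h3 : (r, l) ∈ (pull (h.1 * f0) m).q := by
      change ((h.1 * f0) * r, l) ∈ m.q
      rw [mul_assoc, ← hr]
      exact hz
    have h4 := arr_mem a h3
    rw [← h2] at h4
    exact n.h.con _ _ h4 hs'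
  refine ⟨un _ _ hc, inc (left_le_un hc), push q n, inc hi, arr h.1 fun s l hs => ?_, ?_, ?_, ?_⟩
  · refine Or.inr ?_
    obtain ⟨t, ht', rfl⟩ := mem_psh.1 hs
    exact mem_psh.2 ⟨t, ht', by rw [mul_assoc]⟩
  · refine ⟨fun g g' hgg => ?_⟩
    ext
    have h1 := congrArg Subtype.val hgg
    simpa using h1
  · have h1 := hD1 _ _ (pushArr q n) _ hn
    have h2 : pushArr q n ≫ a ≫ inc ht = inc hi ≫ pushArr f0 c0 := by
      ext
      simp [hq]
    rwa [h2] at h1
  · ext
    simp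

/-- **`acwoAx` is forced over the label category** -/
theorem acwo_cond (hG : GenS P) (f0 : P) (hf0 : f0 ≠ 1) (c : Cond P) : Fs c acwoAx :=
  acwo_forced (proj_cond hG f0 hf0) c

end Crest.Agent.R296.ACWOx622
end

-- ▼ part R296/AS2_537

/-!
# Row 296 (S0448), leaf A-S2 (helper537): the abstract S2 extension of a good monoid

`W P H` : words; `D.Irr` : irreducible words; `D.Ext` : the monoid of irreducible words.

* `lcm_base` : for `s : P` and `w ∉ s P'` the ideal `s P' ∩ w P'` is empty or generated by an element of `P`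
* `lcm_W` : right LCM
* `stS2 : StS2`
-/

set_option autoImplicit false
set_option linter.unusedSectionVars false

namespace Crest.Agent.R296.IfAx378

universe u v

/-- words: `c h1 (c h2 (… (p x)))` -/
inductive W (P : Type u) (H : Type v) : Type (max u v)
  | p : P → W P H
  | c : H → W P H → W P H

namespace W

variable {P : Type u} {H : Type v} [Monoid P] [MulAction P H]

/-- left action of `P` on words -/
def sm (s : P) : W P H → W P H
  | p x => p (s * x)
  | c h w => c (s • h) w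

instance : MulAction P (W P H) where
  smul := sm
  one_smul w := by
    cases w with
    | p x => exact congrArg W.p (one_mul x)
    | c h w => exact congrArg (fun k => W.c k w) (one_smul P h)
  mul_smul s t w := by
    cases w with
    | p x => exact congrArg W.p (mul_assoc s t x)
    | c h w => exact congrArg (fun k => W.c k w) (mul_smul s t h)

theorem nc {x : P} {h : H} {w : W P H} {q : Prop} (k : p x = c h w) : q := by cases k

theorem nc' {x : P} {h : H} {w : W P H} {q : Prop} (k : c h w = p x) : q := by cases k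

@[simp] theorem smul_p (s x : P) : s • (p x : W P H) = p (s * x) := rfl

@[simp] theorem smul_c (s : P) (h : H) (w : W P H) : s • c h w = c (s • h) w := rfl

end W

namespace S2Data

open W

variable {P : Type u} {H : Type v} [Monoid P] [IsGood P] [MulAction P H] (D : S2Data P H)

theorem smul_inj {s : P} {w w' : W P H} (D : S2Data P H) (h : s • w = s • w') : w = w' := by
  cases w with
  | p x =>
    cases w' with
    | p y =>
      rw [smul_p, smul_p, W.p.injEq] at h
      rw [IsGood.lc s x y h]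
    | c k y => rw [smul_p, smul_c] at h; exact W.nc h
  | c k x =>
    cases w' with
    | p y => rw [smul_p, smul_c] at h; exact W.nc' h
    | c l y =>
      rw [smul_c, smul_c, W.c.injEq] at h
      rw [D.lc s k l h.1, h.2]

/-- irreducible words -/
def Irr : W P H → Prop
  | p _ => True
  | c h w => Irr w ∧ ∀ w', w ≠ D.a h • w'

@[simp] theorem irr_p (x : P) : D.Irr (p x) := trivial

@[simp] theorem irr_c {h : H} {w : W P H} : D.Irr (c h w) ↔ D.Irr w ∧ ∀ w', w ≠ D.a h • w' :=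
  Iff.rfl

@[simp] theorem irr_smul {s : P} {w : W P H} : D.Irr (s • w) ↔ D.Irr w := by
  cases w with
  | p x => exact Iff.rfl
  | c h w => rw [smul_c, irr_c, irr_c, D.a_smul]

open Classical in
/-- letter times word -/
noncomputable def star (h : H) (w : W P H) : W P H :=
  if k : ∃ w', w = D.a h • w' then D.e h • k.choose else c h w

theorem star_smul (h : H) (w : W P H) : D.star h (D.a h • w) = D.e h • w := by
  have k : ∃ w', D.a h • w = D.a h • w' := ⟨w, rfl⟩
  rw [star, dif_pos k, ← smul_inj D k.choose_spec]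

theorem star_neg {h : H} {w : W P H} (k : ∀ w', w ≠ D.a h • w') : D.star h w = c h w := by
  rw [star, dif_neg]
  rintro ⟨w', e⟩
  exact k w' e

theorem star_cases (h : H) (w : W P H) :
    (∃ v, w = D.a h • v ∧ D.star h w = D.e h • v) ∨
      ((∀ w', w ≠ D.a h • w') ∧ D.star h w = c h w) := by
  by_cases k : ∃ w', w = D.a h • w'
  · obtain ⟨v, rfl⟩ := k
    exact Or.inl ⟨v, rfl, D.star_smul h v⟩
  · rw [not_exists] at k
    exact Or.inr ⟨k, D.star_neg k⟩

theorem irr_star {h : H} {w : W P H} (hw : D.Irr w) : D.Irr (D.star h w) := by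
  rcases D.star_cases h w with ⟨v, rfl, e⟩ | ⟨k, e⟩
  · rw [e, irr_smul]; exact D.irr_smul.1 hw
  · rw [e]; exact ⟨hw, k⟩

theorem smul_star (s : P) (h : H) (w : W P H) : s • D.star h w = D.star (s • h) w := by
  rcases D.star_cases h w with ⟨v, rfl, e⟩ | ⟨k, e⟩
  · rw [e, ← D.a_smul s h, star_smul, D.e_smul, mul_smul]
  · rw [e, smul_c, star_neg]
    rw [D.a_smul]; exact k

theorem c_ne_e {h : H} {w v : W P H} : c h w ≠ D.e h • v := by
  intro k
  cases v with
  | p x => exact W.nc' k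
  | c h' x =>
    rw [smul_c, W.c.injEq] at k
    exact D.irr h h' k.1.symm

theorem star_inj {h : H} {w w' : W P H} (k : D.star h w = D.star h w') : w = w' := by
  rcases D.star_cases h w with ⟨v, rfl, e⟩ | ⟨k1, e⟩ <;>
    rcases D.star_cases h w' with ⟨v', rfl, e'⟩ | ⟨k2, e'⟩ <;> rw [e, e'] at k
  · rw [smul_inj D k]
  · exact (D.c_ne_e k.symm).elim
  · exact (D.c_ne_e k).elim
  · rw [W.c.injEq] at k; exact k.2

/-- product of words -/
noncomputable def mul : W P H → W P H → W P H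
  | p s, x => s • x
  | c h w, x => D.star h (mul w x)

@[simp] theorem p_mul (s : P) (x : W P H) : D.mul (p s) x = s • x := rfl

@[simp] theorem c_mul (h : H) (w x : W P H) : D.mul (c h w) x = D.star h (D.mul w x) := rfl

theorem smul_mul (s : P) (w x : W P H) : D.mul (s • w) x = s • D.mul w x := by
  cases w with
  | p t => rw [smul_p, p_mul, p_mul, mul_smul]
  | c h w => rw [smul_c, c_mul, c_mul, smul_star]

theorem star_mul (h : H) (w x : W P H) : D.mul (D.star h w) x = D.star h (D.mul w x) := by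
  rcases D.star_cases h w with ⟨v, rfl, e⟩ | ⟨k, e⟩
  · rw [e, smul_mul, smul_mul, star_smul]
  · rw [e, c_mul]

theorem mul_assoc' (w x y : W P H) : D.mul (D.mul w x) y = D.mul w (D.mul x y) := by
  induction w with
  | p s => rw [p_mul, p_mul, smul_mul]
  | c h w ih => rw [c_mul, c_mul, star_mul, ih]

theorem one_mul' (x : W P H) : D.mul (p 1) x = x := by rw [p_mul, one_smul]

theorem mul_one' {w : W P H} (hw : D.Irr w) : D.mul w (p 1) = w := by
  induction w with
  | p s => rw [p_mul, smul_p, mul_one]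
  | c h w ih => rw [c_mul, ih hw.1, star_neg]; exact hw.2

theorem irr_mul (w : W P H) {x : W P H} (hx : D.Irr x) : D.Irr (D.mul w x) := by
  induction w with
  | p s => rw [p_mul, irr_smul]; exact hx
  | c h w ih => rw [c_mul]; exact D.irr_star ih

theorem mul_inj {w x y : W P H} (h : D.mul w x = D.mul w y) : x = y := by
  induction w with
  | p s => exact smul_inj D h
  | c k w ih => rw [c_mul, c_mul] at h; exact ih (D.star_inj h)

theorem e_ne_one (h : H) : D.e h ≠ 1 := by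
  intro k
  have := D.irr h h
  rw [k, one_smul] at this
  exact this rfl

theorem mul_eq_one {w x : W P H} (h : D.mul w x = p 1) : w = p 1 := by
  cases w with
  | p s =>
    cases x with
    | p t =>
      rw [p_mul, smul_p, W.p.injEq] at h
      rw [IsGood.unit s t h]
    | c k t => rw [p_mul, smul_c] at h; exact W.nc' h
  | c k w =>
    rw [c_mul] at h
    rcases D.star_cases k (D.mul w x) with ⟨v, _, e⟩ | ⟨_, e⟩
    · rw [e] at h
      cases v with
      | p t =>
        rw [smul_p, W.p.injEq] at h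
        exact (D.e_ne_one k (IsGood.unit _ _ h)).elim
      | c l t => rw [smul_c] at h; exact W.nc' h
    · rw [e] at h; exact W.nc' h

/-! ### ideals -/

/-- the right ideal generated by a word -/
def R (w : W P H) : Set (W P H) := {z | ∃ x, D.Irr x ∧ z = D.mul w x}

theorem mem_R_self {w : W P H} (hw : D.Irr w) : w ∈ D.R w := ⟨p 1, trivial, (D.mul_one' hw).symm⟩

theorem irr_of_mem {w z : W P H} (h : z ∈ D.R w) : D.Irr z := by
  obtain ⟨x, hx, rfl⟩ := h
  exact D.irr_mul w hx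

theorem R_subset {w z : W P H} (h : z ∈ D.R w) : D.R z ⊆ D.R w := by
  obtain ⟨x, hx, rfl⟩ := h
  rintro _ ⟨y, hy, rfl⟩
  exact ⟨D.mul x y, D.irr_mul x hy, D.mul_assoc' w x y⟩

theorem mem_R_p {s : P} {z : W P H} : z ∈ D.R (p s) ↔ D.Irr z ∧ ∃ x, z = s • x := by
  constructor
  · rintro ⟨x, hx, rfl⟩
    exact ⟨D.irr_mul _ hx, x, rfl⟩
  · rintro ⟨hz, x, rfl⟩
    exact ⟨x, D.irr_smul.1 hz, rfl⟩

theorem mem_R_c {h : H} {w z : W P H} : z ∈ D.R (c h w) ↔ ∃ y ∈ D.R w, z = D.star h y := by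
  constructor
  · rintro ⟨x, hx, rfl⟩
    exact ⟨_, ⟨x, hx, rfl⟩, rfl⟩
  · rintro ⟨_, ⟨x, hx, rfl⟩, rfl⟩
    exact ⟨x, hx, rfl⟩

/-- amalgamation of the action on words -/
theorem amal_W (D : S2Data P H) {s s' : P} {x y : W P H} (h : s • x = s' • y) :
    ∃ u v z, s * u = s' * v ∧ x = u • z ∧ y = v • z := by
  cases x with
  | p a =>
    cases y with
    | p b =>
      rw [smul_p, smul_p, W.p.injEq] at h
      exact ⟨a, b, p 1, h, by rw [smul_p, mul_one], by rw [smul_p, mul_one]⟩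
    | c k b => rw [smul_p, smul_c] at h; exact W.nc h
  | c k a =>
    cases y with
    | p b => rw [smul_p, smul_c] at h; exact W.nc' h
    | c l b =>
      rw [smul_c, smul_c, W.c.injEq] at h
      obtain ⟨u, v, h0, e1, e2, e3⟩ := D.lcm s s' k l h.1
      exact ⟨u, v, c h0 a, e1, by rw [smul_c, e2], by rw [smul_c, e3, h.2]⟩

/-- `P`-level ideals: empty or principal, generated by an element of `P` -/
theorem lcm_pp (s t : P) : D.R (p s) ∩ D.R (p t) = ∅ ∨
    ∃ m : P, s ∣ m ∧ t ∣ m ∧ D.R (p s) ∩ D.R (p t) = D.R (p m) := by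
  by_cases hne : (D.R (p s) ∩ D.R (p t)).Nonempty
  · right
    obtain ⟨z, hz1, hz2⟩ := hne
    obtain ⟨_, x, rfl⟩ := D.mem_R_p.1 hz1
    obtain ⟨_, y, hy⟩ := D.mem_R_p.1 hz2
    obtain ⟨u, v, _, e1, _, _⟩ := D.amal_W hy
    obtain ⟨u, v, e1, huv⟩ := IsGood.lcm _ _ _ _ e1
    refine ⟨s * u, ⟨u, rfl⟩, ⟨v, e1⟩, ?_⟩
    ext z
    constructor
    · rintro ⟨h1, h2⟩
      obtain ⟨hz, x, rfl⟩ := D.mem_R_p.1 h1
      obtain ⟨_, y, hy⟩ := D.mem_R_p.1 h2
      obtain ⟨u', v', z', e2, rfl, rfl⟩ := D.amal_W hy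
      obtain ⟨t', rfl, rfl⟩ := huv _ _ e2
      exact D.mem_R_p.2 ⟨hz, t' • z', by rw [mul_smul, mul_smul]⟩
    · intro h
      obtain ⟨hz, x, rfl⟩ := D.mem_R_p.1 h
      exact ⟨D.mem_R_p.2 ⟨hz, u • x, by rw [mul_smul]⟩,
        D.mem_R_p.2 ⟨hz, v • x, by rw [e1, mul_smul]⟩⟩
  · left
    exact Set.not_nonempty_iff_eq_empty.1 hne

theorem p_mem_R_p {s t : P} : (p t : W P H) ∈ D.R (p s) ↔ s ∣ t := by
  rw [mem_R_p]
  constructor
  · rintro ⟨_, x, hx⟩
    cases x with
    | p y => rw [smul_p, W.p.injEq] at hx; exact ⟨y, hx⟩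
    | c k y => rw [smul_c] at hx; exact W.nc hx
  · rintro ⟨x, rfl⟩
    exact ⟨trivial, p x, by rw [smul_p]⟩

theorem c_mem_R_p {s : P} {h : H} {w : W P H} :
    c h w ∈ D.R (p s) ↔ D.Irr (c h w) ∧ ∃ h', h = s • h' := by
  rw [mem_R_p]
  constructor
  · rintro ⟨hi, x, hx⟩
    cases x with
    | p y => rw [smul_p] at hx; exact W.nc' hx
    | c k y => rw [smul_c, W.c.injEq] at hx; exact ⟨hi, k, hx.1⟩
  · rintro ⟨hi, k, hk⟩
    exact ⟨hi, c k w, by rw [smul_c, hk]⟩

/-- quotient of an ideal by an element of `P` -/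
theorem div_R {s : P} {w : W P H} (h : D.R (p s) ∩ D.R w = ∅ ∨ ∃ m : P, D.R (p s) ∩ D.R w = D.R (p m)) :
    {v | s • v ∈ D.R w} = ∅ ∨ ∃ m : P, {v | s • v ∈ D.R w} = D.R (p m) := by
  have key : ∀ v, s • v ∈ D.R w ↔ s • v ∈ D.R (p s) ∩ D.R w := fun v =>
    ⟨fun h => ⟨D.mem_R_p.2 ⟨D.irr_of_mem h, v, rfl⟩, h⟩, fun h => h.2⟩
  rcases h with h | ⟨m, h⟩
  · left
    ext v
    rw [Set.mem_ofPred_eq, key, h]
    exact Iff.rfl
  · right
    have h1 : (p m : W P H) ∈ D.R (p s) := by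
      have : (p m : W P H) ∈ D.R (p s) ∩ D.R w := by rw [h]; exact D.mem_R_self trivial
      exact this.1
    obtain ⟨t, rfl⟩ := D.p_mem_R_p.1 h1
    refine ⟨t, ?_⟩
    ext v
    rw [Set.mem_ofPred_eq, key, h, mem_R_p, mem_R_p, irr_smul]
    refine and_congr_right fun _ => ?_
    constructor
    · rintro ⟨x, hx⟩
      rw [mul_smul] at hx
      exact ⟨x, smul_inj D hx⟩
    · rintro ⟨x, rfl⟩
      exact ⟨x, by rw [mul_smul]⟩

/-- **P-generated intersections** : `w ∉ s P'` -/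
theorem lcm_base {w : W P H} : ∀ {s : P}, D.Irr w → w ∉ D.R (p s) →
    D.R (p s) ∩ D.R w = ∅ ∨ ∃ m : P, D.R (p s) ∩ D.R w = D.R (p m) := by
  induction w with
  | p t =>
    intro s _ _
    rcases D.lcm_pp s t with h | ⟨m, _, _, h⟩
    · exact Or.inl h
    · exact Or.inr ⟨m, h⟩
  | c h w ih =>
    intro s hw hns
    have hw1 : w ∉ D.R (p (D.a h)) := by
      intro k
      obtain ⟨_, x, hx⟩ := D.mem_R_p.1 k
      exact hw.2 x hx
    have key : D.R (p s) ∩ D.R (c h w) = {z | ∃ v, D.a h • v ∈ D.R w ∧ z = D.e h • v ∧ z ∈ D.R (p s)} := by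
      ext z
      constructor
      · rintro ⟨h1, h2⟩
        obtain ⟨y, hy, rfl⟩ := D.mem_R_c.1 h2
        rcases D.star_cases h y with ⟨v, rfl, e⟩ | ⟨k, e⟩
        · exact ⟨v, hy, e, h1⟩
        · rw [e] at h1
          obtain ⟨_, h', hh⟩ := D.c_mem_R_p.1 h1
          exact (hns (D.c_mem_R_p.2 ⟨hw, h', hh⟩)).elim
      · rintro ⟨v, hv, rfl, h1⟩
        exact ⟨h1, D.mem_R_c.2 ⟨_, hv, (D.star_smul h v).symm⟩⟩
    rw [key]
    rcases D.div_R (ih hw.1 hw1) with h1 | ⟨m, h1⟩
    · left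
      ext z
      constructor
      · rintro ⟨v, hv, _, _⟩
        have : v ∈ {v | D.a h • v ∈ D.R w} := hv
        rw [h1] at this
        exact this
      · exact fun h => h.elim
    · have e2 : {z | ∃ v, D.a h • v ∈ D.R w ∧ z = D.e h • v ∧ z ∈ D.R (p s)} =
          D.R (p s) ∩ D.R (p (D.e h * m)) := by
        ext z
        constructor
        · rintro ⟨v, hv, rfl, h3⟩
          refine ⟨h3, ?_⟩
          have : v ∈ {v | D.a h • v ∈ D.R w} := hv
          rw [h1] at this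
          obtain ⟨hv', x, rfl⟩ := D.mem_R_p.1 this
          exact D.mem_R_p.2 ⟨D.irr_of_mem h3, x, by rw [mul_smul]⟩
        · rintro ⟨h3, h4⟩
          obtain ⟨hz, x, rfl⟩ := D.mem_R_p.1 h4
          refine ⟨m • x, ?_, by rw [mul_smul], h3⟩
          have : m • x ∈ {v | D.a h • v ∈ D.R w} := by
            rw [h1]
            exact D.mem_R_p.2 ⟨by rw [mul_smul, irr_smul] at hz; exact hz, x, rfl⟩
          exact this
      rw [e2]
      rcases D.lcm_pp s (D.e h * m) with h5 | ⟨m', _, _, h5⟩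
      · exact Or.inl h5
      · exact Or.inr ⟨m', h5⟩

theorem lcm_p (s : P) {w : W P H} (hw : D.Irr w) :
    D.R (p s) ∩ D.R w = ∅ ∨ ∃ m, D.Irr m ∧ D.R (p s) ∩ D.R w = D.R m := by
  by_cases h : w ∈ D.R (p s)
  · exact Or.inr ⟨w, hw, Set.inter_eq_right.2 (D.R_subset h)⟩
  · rcases D.lcm_base hw h with h | ⟨m, h⟩
    · exact Or.inl h
    · exact Or.inr ⟨p m, trivial, h⟩

/-- `{v | a • v ∈ R w}` for `w ∉ a P'` -/
theorem div_of_irr {h : H} {w : W P H} (hw : D.Irr (c h w)) :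
    {v | D.a h • v ∈ D.R w} = ∅ ∨ ∃ m : P, {v | D.a h • v ∈ D.R w} = D.R (p m) := by
  refine D.div_R (D.lcm_base hw.1 fun k => ?_)
  obtain ⟨_, x, hx⟩ := D.mem_R_p.1 k
  exact hw.2 x hx

theorem smul_image_R (s : P) (w : W P H) : (fun v => s • v) '' D.R w = D.R (s • w) := by
  ext z
  constructor
  · rintro ⟨_, ⟨x, hx, rfl⟩, rfl⟩
    exact ⟨x, hx, (D.smul_mul s w x).symm⟩
  · rintro ⟨x, hx, rfl⟩
    exact ⟨D.mul w x, ⟨x, hx, rfl⟩, (D.smul_mul s w x).symm⟩

theorem star_image_R (h : H) (w : W P H) : D.star h '' D.R w = D.R (D.star h w) := by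
  ext z
  constructor
  · rintro ⟨_, ⟨x, hx, rfl⟩, rfl⟩
    exact ⟨x, hx, (D.star_mul h w x).symm⟩
  · rintro ⟨x, hx, rfl⟩
    exact ⟨D.mul w x, ⟨x, hx, rfl⟩, (D.star_mul h w x).symm⟩

/-- case `h = e h' • h''` of the LCM -/
theorem lcm_sub {h h' h'' : H} {w w' : W P H} (e : h = D.e h' • h'') (hw : D.Irr (c h w))
    (hw' : D.Irr (c h' w')) : D.R (c h w) ∩ D.R (c h' w') = ∅ ∨
      ∃ m, D.Irr m ∧ D.R (c h w) ∩ D.R (c h' w') = D.R m := by
  have hw'' : D.Irr (c h'' w) := by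
    rw [e, ← smul_c, irr_smul] at hw
    exact hw
  have key : D.R (c h w) ∩ D.R (c h' w') =
      (fun v => D.e h' • v) '' (D.R (c h'' w) ∩ {v | D.a h' • v ∈ D.R w'}) := by
    ext z
    constructor
    · rintro ⟨h1, h2⟩
      rw [e, ← smul_c, ← smul_image_R] at h1
      obtain ⟨x, hx, rfl⟩ := h1
      obtain ⟨y, hy, hz⟩ := D.mem_R_c.1 h2
      rcases D.star_cases h' y with ⟨v, rfl, e'⟩ | ⟨_, e'⟩
      · rw [e'] at hz
        rw [smul_inj D hz] at hx ⊢
        exact ⟨v, ⟨hx, hy⟩, rfl⟩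
      · rw [e'] at hz
        exact (D.c_ne_e hz.symm).elim
    · rintro ⟨x, ⟨hx, hx'⟩, rfl⟩
      refine ⟨?_, D.mem_R_c.2 ⟨_, hx', (D.star_smul h' x).symm⟩⟩
      rw [e, ← smul_c, ← smul_image_R]
      exact ⟨x, hx, rfl⟩
  rw [key]
  rcases D.div_of_irr hw' with h1 | ⟨m, h1⟩
  · left
    rw [h1, Set.inter_empty, Set.image_empty]
  · rw [h1, Set.inter_comm]
    rcases D.lcm_p m hw'' with h2 | ⟨n, hn, h2⟩
    · left; rw [h2, Set.image_empty]
    · right
      refine ⟨D.e h' • n, D.irr_smul.2 hn, ?_⟩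
      rw [h2]
      exact D.smul_image_R _ _

/-- **LCM of irreducible words** -/
theorem lcm_W {w : W P H} : ∀ {w' : W P H}, D.Irr w → D.Irr w' → D.R w ∩ D.R w' = ∅ ∨
    ∃ m, D.Irr m ∧ D.R w ∩ D.R w' = D.R m := by
  induction w with
  | p s => intro w' _ hw'; exact D.lcm_p s hw'
  | c h w ih =>
    intro w' hw hw'
    cases w' with
    | p s => rw [Set.inter_comm]; exact D.lcm_p s hw
    | c h' w' =>
      by_cases hh : h = h'
      · subst hh
        have key : D.R (c h w) ∩ D.R (c h w') = D.star h '' (D.R w ∩ D.R w') := by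
          ext z
          constructor
          · rintro ⟨h1, h2⟩
            obtain ⟨y, hy, rfl⟩ := D.mem_R_c.1 h1
            obtain ⟨y', hy', e⟩ := D.mem_R_c.1 h2
            rw [← D.star_inj e] at hy'
            exact ⟨y, ⟨hy, hy'⟩, rfl⟩
          · rintro ⟨y, ⟨hy, hy'⟩, rfl⟩
            exact ⟨D.mem_R_c.2 ⟨y, hy, rfl⟩, D.mem_R_c.2 ⟨y, hy', rfl⟩⟩
        rw [key]
        rcases ih hw.1 hw'.1 with h1 | ⟨m, hm, h1⟩
        · left; rw [h1, Set.image_empty]
        · right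
          exact ⟨D.star h m, D.irr_star hm, by rw [h1, star_image_R]⟩
      · by_cases ha : ∃ h'', h = D.e h' • h''
        · obtain ⟨h'', e⟩ := ha
          exact D.lcm_sub e hw hw'
        · by_cases hb : ∃ h'', h' = D.e h • h''
          · obtain ⟨h'', e⟩ := hb
            rw [Set.inter_comm]
            exact D.lcm_sub e hw' hw
          · have key : D.R (c h w) ∩ D.R (c h' w') =
                ((fun v => D.e h • v) '' {v | D.a h • v ∈ D.R w}) ∩
                ((fun v => D.e h' • v) '' {v | D.a h' • v ∈ D.R w'}) := by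
              ext z
              constructor
              · rintro ⟨h1, h2⟩
                obtain ⟨y, hy, rfl⟩ := D.mem_R_c.1 h1
                obtain ⟨y', hy', e⟩ := D.mem_R_c.1 h2
                rcases D.star_cases h y with ⟨v, rfl, e1⟩ | ⟨_, e1⟩ <;>
                  rcases D.star_cases h' y' with ⟨v', rfl, e2⟩ | ⟨_, e2⟩ <;>
                  rw [e1, e2] at e
                · exact ⟨⟨v, hy, e1.symm⟩, ⟨v', hy', by rw [e1]; exact e.symm⟩⟩
                · exfalso
                  cases v with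
                  | p x => rw [smul_p] at e; exact W.nc e
                  | c k x =>
                    rw [smul_c, W.c.injEq] at e
                    exact hb ⟨k, e.1.symm⟩
                · exfalso
                  cases v' with
                  | p x => rw [smul_p] at e; exact W.nc' e
                  | c k x =>
                    rw [smul_c, W.c.injEq] at e
                    exact ha ⟨k, e.1⟩
                · rw [W.c.injEq] at e
                  exact (hh e.1).elim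
              · rintro ⟨⟨v, hv, rfl⟩, ⟨v', hv', e⟩⟩
                refine ⟨D.mem_R_c.2 ⟨_, hv, (D.star_smul h v).symm⟩,
                  D.mem_R_c.2 ⟨_, hv', ?_⟩⟩
                rw [star_smul]; exact e.symm
            rw [key]
            rcases D.div_of_irr hw with h1 | ⟨m, h1⟩
            · left; rw [h1, Set.image_empty, Set.empty_inter]
            · rcases D.div_of_irr hw' with h2 | ⟨m', h2⟩
              · left; rw [h2, Set.image_empty, Set.inter_empty]
              · rw [h1, h2, smul_image_R, smul_image_R, smul_p, smul_p]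
                rcases D.lcm_pp (D.e h * m) (D.e h' * m') with h3 | ⟨n, _, _, h3⟩
                · exact Or.inl h3
                · exact Or.inr ⟨p n, trivial, h3⟩

/-! ### the monoid -/

/-- the monoid of irreducible words -/
def Ext (D : S2Data P H) : Type (max u v) := {w : W P H // D.Irr w}

namespace Ext

noncomputable instance : Monoid D.Ext where
  mul x y := ⟨D.mul x.1 y.1, D.irr_mul x.1 y.2⟩
  mul_assoc x y z := Subtype.ext (D.mul_assoc' x.1 y.1 z.1)
  one := ⟨p 1, trivial⟩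
  one_mul x := Subtype.ext (D.one_mul' x.1)
  mul_one x := Subtype.ext (D.mul_one' x.2)



theorem dvd_iff {x z : D.Ext} : x ∣ z ↔ z.1 ∈ D.R x.1 := by
  constructor
  · rintro ⟨t, rfl⟩
    exact ⟨t.1, t.2, rfl⟩
  · rintro ⟨y, hy, e⟩
    exact ⟨⟨y, hy⟩, Subtype.ext e⟩

instance good : IsGood D.Ext where
  lc f g h k := by
    have := congrArg Subtype.val k
    exact Subtype.ext (D.mul_inj this)
  unit f g k := by
    have := congrArg Subtype.val k
    exact Subtype.ext (D.mul_eq_one this)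
  lcm f g x y h := by
    have hne : ((f * x).1) ∈ D.R f.1 ∩ D.R g.1 :=
      ⟨(dvd_iff D).1 ⟨x, rfl⟩, (dvd_iff D).1 ⟨y, h⟩⟩
    rcases D.lcm_W f.2 g.2 with k | ⟨m, hm, k⟩
    · rw [k] at hne; exact hne.elim
    · have h1 : m ∈ D.R f.1 ∩ D.R g.1 := by rw [k]; exact D.mem_R_self hm
      obtain ⟨u, hu⟩ := (dvd_iff D (x := f) (z := ⟨m, hm⟩)).2 h1.1
      obtain ⟨v, hv⟩ := (dvd_iff D (x := g) (z := ⟨m, hm⟩)).2 h1.2
      refine ⟨u, v, hu.symm.trans hv, fun x' y' e => ?_⟩
      have h2 : (f * x').1 ∈ D.R f.1 ∩ D.R g.1 :=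
        ⟨(dvd_iff D).1 ⟨x', rfl⟩, (dvd_iff D).1 ⟨y', e⟩⟩
      rw [k] at h2
      obtain ⟨t, ht⟩ := (dvd_iff D (x := ⟨m, hm⟩) (z := f * x')).2 h2
      have lc : ∀ f g h : D.Ext, f * g = f * h → g = h := fun f g h k =>
        Subtype.ext (D.mul_inj (congrArg Subtype.val k))
      refine ⟨t, lc f _ _ ?_, lc g _ _ ?_⟩
      · rw [ht, hu, mul_assoc]
      · rw [← e, ht, hv, mul_assoc]

/-- the embedding -/
noncomputable def of : P →* D.Ext where
  toFun x := ⟨p x, trivial⟩
  map_one' := rfl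
  map_mul' x y := Subtype.ext rfl

theorem of_val (x : P) : (of D x).1 = p x := rfl

theorem of_mul_val (s : P) (x : D.Ext) : (of D s * x).1 = s • x.1 := rfl

theorem a_not_dvd_one (h : H) : ∀ w', (p 1 : W P H) ≠ D.a h • w' := by
  intro w' k
  cases w' with
  | p x =>
    rw [smul_p, W.p.injEq] at k
    exact D.a_ne h (IsGood.unit _ _ k.symm)
  | c l x => rw [smul_c] at k; exact W.nc k

/-- the letters -/
def y (h : H) : D.Ext := ⟨c h (p 1), trivial, a_not_dvd_one D h⟩

theorem y_mul_val (h : H) (x : D.Ext) : (y D h * x).1 = D.star h x.1 := by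
  show D.star h ((1 : P) • x.1) = _
  rw [one_smul]

theorem of_dvd_iff {s : P} {x : D.Ext} : of D s ∣ x ↔ ∃ w, x.1 = s • w := by
  rw [dvd_iff, of_val, mem_R_p]
  exact ⟨fun h => h.2, fun h => ⟨x.2, h⟩⟩

theorem y_mul_of_not_dvd {h : H} {x : D.Ext} (hx : ¬ of D (D.a h) ∣ x) :
    (y D h * x).1 = c h x.1 := by
  rw [y_mul_val, star_neg]
  intro w' k
  exact hx ((of_dvd_iff D).2 ⟨w', k⟩)

/-- number of letters -/
def lenW : W P H → ℕ
  | p _ => 0
  | c _ w => lenW w + 1

theorem lenW_smul (s : P) (w : W P H) : lenW (s • w) = lenW w := by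
  cases w with
  | p x => rfl
  | c h w => rfl

theorem s2Ext : S2Ext D (of D) (y D) (fun x => lenW x.1) where
  good := good D
  cons :=
    { inj := fun x x' h => by
        have := congrArg Subtype.val h
        rw [of_val, of_val, W.p.injEq] at this
        exact this
      amal := fun f g x y h => by
        have h1 : f • x.1 = g • y.1 := congrArg Subtype.val h
        obtain ⟨u, v, z, e1, e2, e3⟩ := amal_W D h1
        have hz : D.Irr z := by
          have := x.2
          rw [e2, irr_smul] at this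
          exact this
        exact ⟨u, v, ⟨z, hz⟩, e1, Subtype.ext e2, Subtype.ext e3⟩ }
  act s h := Subtype.ext (by
    show s • c h (p 1) = c (s • h) (p 1)
    rfl)
  rel h := Subtype.ext (by
    rw [y_mul_val, of_val, of_val]
    have : (p (D.a h) : W P H) = D.a h • p 1 := by rw [smul_p, mul_one]
    rw [this, star_smul, smul_p, mul_one])
  len_ι _ := rfl
  len_mul s x := by
    show lenW ((of D s * x).1) = _
    rw [of_mul_val, lenW_smul]
  len_y h x hx := by
    show lenW ((y D h * x).1) = _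
    rw [y_mul_of_not_dvd D hx]
    rfl
  nf := by
    rintro ⟨w, hw⟩
    cases w with
    | p x => exact Or.inl ⟨x, rfl⟩
    | c h w =>
      obtain ⟨hw1, hw2⟩ := D.irr_c.1 hw
      refine Or.inr ⟨h, ⟨w, hw1⟩, ?_, ?_⟩
      · refine Subtype.ext ?_
        exact (D.star_neg hw2).symm.trans (y_mul_val D h ⟨w, hw1⟩).symm
      · intro k
        obtain ⟨w', e⟩ := (of_dvd_iff D).1 k
        exact hw2 w' e
  new h x s hx k := by
    have := congrArg Subtype.val k
    rw [y_mul_of_not_dvd D hx, of_val] at this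
    exact W.nc' this
  uniq h x h' x' hx hx' k := by
    have := congrArg Subtype.val k
    rw [y_mul_of_not_dvd D hx, y_mul_of_not_dvd D hx', W.c.injEq] at this
    exact ⟨this.1, Subtype.ext this.2⟩



end Ext

end S2Data

/-- **leaf A-S2** -/
theorem stS2 : StS2 := fun _ _ _ _ _ D =>
  ⟨D.Ext, inferInstance, S2Data.Ext.of D, S2Data.Ext.y D, _, S2Data.Ext.s2Ext D⟩

end Crest.Agent.R296.IfAx378
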