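import Crest.Agent.R296.OutA_378
import Crest.Agent.R296.AS2_537_Mg
import Crest.Agent.R296.ACap_565_Mg
import Crest.Agent.R296.IfA_378
import Crest.Agent.R296.T_774
import Crest.Agent.R296.Res_70
import Crest.Agent.R296.S2_667
import Crest.Agent.R296.CatOps_365
import Crest.Agent.R296.CondC_153
import Crest.Agent.R296.PPBr_365
import Crest.Agent.R296.LctSt_153
import Mathlib
import Crest.Agent.R296.Loc_929

-- ▼ part R296/Wire_378
section

/-!
# Row 296 (S0448): wiring check (helper378): everything except the partition principle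

The final file is helper365's; this is an independent check of the interfaces.
-/

set_option autoImplicit false

open CategoryTheory FirstOrder FirstOrder.Language Crest.LogicCS.SetTheory

namespace Crest.Agent.R296.Wirex378

open Crest.Agent.R296

theorem tower_exists : IfAx378.StTow := Towx281.stTow StS1x531.stS1 (StHx478.stH_of_stS2 IfAx378.stS2)

theorem kit {P : Type 1} [Monoid P] (T : IfAx378.Tower P) : LctStx153.Kit P T.A :=
  KitTx70.kit T (ACapx565.cap T) (AKitx779.kit_gen T) (AKitx779.kit_let T) (AKitx779.kit_tri T)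
    (AKitx779.kit_triD T)


theorem s0448_of_pp
    (hPP : ∀ (P : Type 1) [Monoid P] [IfAx378.IsGood P] (_ : IfAx378.Tower P),
      PPBrx365.PPOut (CondCx153.Cond P)) :
    Theory.IsSatisfiable (ZF ∪ {ppAx, acwoAx, ∼acAx}) := by
  obtain ⟨P, hM, ⟨T⟩⟩ := tower_exists
  have := T.good
  have K := kit T
  have hG : Locx929.GenS P := fun a b S h1 h2 h3 h4 => K.gen a b S (by assumption) (by assumption) (by assumption) (by assumption)
  have hL : Locx929.LetS P := fun S h1 h2 => K.letr S h1 h2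
  exact Endx365.sat_of_out (hPP P T) (CondCx153.Cond.bot P)
    (ACWOx622.acwo_cond hG T.f0 T.f0_ne _) (NotACx929.not_ac T.f0 hG hL T.f0_ne _)

end Crest.Agent.R296.Wirex378
end

-- ▼ part R296/TSt_774
section

/-! Row 296 (S0448), block A, leaf A-T: STATEMENTS of the T-lemma (A.7 of note 2054) for the tower
of `IfA_378`.  The letter of a datum `d` over `A β` (`β` odd) is `T.y β (Ltr.base d)`; `p` is any
point of `C = d.C` with `¬ b ∣ p` (for the T-data `b = p * f0`).  Proofs: `T_774.lean`. -/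

set_option autoImplicit false

namespace Crest.Agent.R296.TSx774

open Crest.Agent.R296.IfAx378

section
variable {P : Type 1} [Monoid P] {A : Submonoid P}

/-- `C ⊆ v D` for `C` closed over the submonoid `A` and `v : P`. -/
def DownP (C : Closed A) (v : P) : Prop := ∃ s ∈ C.S, v ∣ (s : P)

/-- `z ∈ C` for `C` closed over the submonoid `A` and `z : P`. -/
def MemP (C : Closed A) (z : P) : Prop :=
  (∀ s ∈ C.S, (s : P) ∣ z) ∧ ∀ (s r : A) (x : P), C.R s r → z = (r : P) * x → z = (s : P) * x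

/-- `f ~_C g` for `C` closed over the submonoid `A` and `f g : P`. -/
def SimP (C : Closed A) (f g : P) : Prop := ∃ x y : A, f * (x : P) = g * (y : P) ∧ C.R x y

end

section
variable {P : Type 1} [Monoid P] (T : Tower P)

/-- the letter of the datum `d` over `A β` -/
noncomputable def eta (β : Ordinal.{0}) (d : Datum (T.A β)) : P := (T.y β (Ltr.base d) : P)

/-- (T3): `η a = b`, `η ∈ C`, `η P ∩ P_β ⊆ b P`. -/
def StT3 : Prop := ∀ (β : Ordinal.{0}), β % 2 = 1 → ∀ d : Datum (T.A β),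
  eta T β d * (d.a : P) = (d.b : P) ∧ MemP d.C (eta T β d) ∧ eta T β d ∈ T.A (Order.succ β) ∧
  ∀ e : P, eta T β d * e ∈ T.A β → (d.b : P) ∣ eta T β d * e

/-- (T1): if `p, η x ∈ u P` and `x ∉ a P` then `C ⊆ u D`. -/
def StT1 : Prop := ∀ (β : Ordinal.{0}), β % 2 = 1 → ∀ (d : Datum (T.A β)) (p : T.A β),
  ¬ (d.b : P) ∣ (p : P) →
  ∀ u x : P, u ∣ (p : P) → u ∣ eta T β d * x → ¬ (d.a : P) ∣ x → DownP d.C u

/-- (T1'): for `u ∈ P_β` no hypothesis on `p` is needed. -/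
def StT1' : Prop := ∀ (β : Ordinal.{0}), β % 2 = 1 → ∀ (d : Datum (T.A β)) (u : T.A β) (x : P),
  (u : P) ∣ eta T β d * x → ¬ (d.a : P) ∣ x → DownP d.C (u : P)

/-- (T2): `s p = s' p'`, `s η z = s' η' z'`, `z ∉ a P`, `z' ∉ a' P` imply `η = η'` (same stage, same
datum), `z = z'` and `s ~_C s'`. -/
def StT2 : Prop := ∀ (β β' : Ordinal.{0}), β % 2 = 1 → β' % 2 = 1 →
  ∀ (d : Datum (T.A β)) (d' : Datum (T.A β')) (p : T.A β) (p' : T.A β'),
  d.C.Mem p → ¬ (d.b : P) ∣ (p : P) → d'.C.Mem p' → ¬ (d'.b : P) ∣ (p' : P) →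
  ∀ s s' z z' : P, s * p = s' * p' → s * eta T β d * z = s' * eta T β' d' * z' →
  ¬ (d.a : P) ∣ z → ¬ (d'.a : P) ∣ z' →
  (⟨β, d⟩ : Σ β, Datum (T.A β)) = ⟨β', d'⟩ ∧ z = z' ∧ SimP d.C s s'

end

end Crest.Agent.R296.TSx774
end

-- ▼ part R296/TBr_774
section

/-! Row 296 (S0448), block A, leaf A-T: the T-lemma for the tower of `IfA_378`
(proofs of the statements of `TSt_774`). -/

set_option autoImplicit false

namespace Crest.Agent.R296.TBrx774

open Crest.Agent.R296.IfAx378 Crest.Agent.R296.TSx774 Crest.Agent.R296.Tx774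

universe u

/-! ## good monoids, stages -/

theorem goodM {P : Type u} [Monoid P] (h : IsGood P) : GoodM P where
  canc := h.lc
  unit f g hfg := by
    have hf := h.unit f g hfg
    subst hf
    exact ⟨rfl, by simpa using hfg⟩
  lcm f g x := by
    rintro ⟨x1, rfl⟩ ⟨x2, h2⟩
    obtain ⟨u, v, huv, hmin⟩ := h.lcm f g x1 x2 h2
    refine ⟨f * u, Dvd.intro _ rfl, huv ▸ Dvd.intro _ rfl, ?_⟩
    rintro z ⟨z1, rfl⟩ ⟨z2, hz⟩
    obtain ⟨t, rfl, -⟩ := hmin _ _ hz
    exact ⟨t, by rw [mul_assoc]⟩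

theorem stage {P : Type u} [Monoid P] (G : IsGood P) (A : Submonoid P) (hc : Cons A.subtype) :
    Stage A where
  lu x t hx hxt := by
    obtain ⟨a, b, s, hab, h1, h2⟩ := hc.amal ⟨x * t, hxt⟩ ⟨x, hx⟩ 1 t (by simp)
    obtain ⟨-, hs⟩ := (goodM G).unit _ _ h1.symm
    subst hs
    rw [mul_one] at h2
    rw [h2]
    exact b.2
  lcm f g c hf hg := by
    rintro ⟨x1, rfl⟩ ⟨x2, h2⟩
    obtain ⟨u, v, huv, hmin⟩ := G.lcm f g x1 x2 h2
    obtain ⟨a, b, s, hab, h3, h4⟩ := hc.amal ⟨f, hf⟩ ⟨g, hg⟩ u v huv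
    have hab' : f * (a : P) = g * (b : P) := congrArg Subtype.val hab
    obtain ⟨t, ht1, -⟩ := hmin _ _ hab'
    have hts : t * s = 1 := by
      apply G.lc u
      rw [← mul_assoc, ← ht1, mul_one]
      exact h3.symm
    obtain ⟨-, hs⟩ := (goodM G).unit _ _ hts
    subst hs
    rw [mul_one] at h3
    have huA : u ∈ A := by rw [h3]; exact a.2
    refine ⟨f * u, A.mul_mem hf huA, Dvd.intro _ rfl, huv ▸ Dvd.intro _ rfl, ?_⟩
    rintro z ⟨z1, rfl⟩ ⟨z2, hz⟩
    obtain ⟨t, rfl, -⟩ := hmin _ _ hz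
    exact ⟨t, by rw [mul_assoc]⟩

/-- divisibility in a stage -/
theorem dvd_sub {P : Type u} [Monoid P] {A : Submonoid P} (h : Stage A) (f g : A) :
    f ∣ g ↔ (f : P) ∣ (g : P) := by
  constructor
  · rintro ⟨c, rfl⟩; exact ⟨c, rfl⟩
  · rintro ⟨c, hc⟩
    have : c ∈ A := h.lu _ _ f.2 (hc ▸ g.2)
    exact ⟨⟨c, this⟩, Subtype.ext hc⟩

section one
variable {P : Type 1} [Monoid P]

/-! ## (S1) steps -/

section s1
variable {A B : Submonoid P} {le : A ≤ B} {I J : Type*} {F : I → LAct A J} {κ : I → J → B}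

/-- head -/
theorem hd_ex (S : S1Ext F (Submonoid.inclusion le) κ) {d : P} (hB : d ∈ B) (hA : d ∉ A) :
    ∃ (s : A) (i : I) (j : J) (w : B), d = (s : P) * κ i j * w := by
  rcases S.nf ⟨d, hB⟩ with ⟨p, hp⟩ | ⟨s, i, j, w, h⟩
  · exact absurd (by rw [show d = (p : P) from congrArg Subtype.val hp]; exact p.2) hA
  · exact ⟨s, i, j, w, congrArg Subtype.val h⟩

open Classical in
/-- head -/
noncomputable def hdf (S : S1Ext F (Submonoid.inclusion le) κ) (d : P) : P :=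
  if h : d ∈ B ∧ d ∉ A then ((hd_ex S h.1 h.2).choose : P) else 1

theorem hdf_eq (G : IsGood P) (hSA : Stage A) (S : S1Ext F (Submonoid.inclusion le) κ)
    (s : A) (i : I) (j : J) (w : B) (hA : (s : P) * κ i j * w ∉ A) :
    hdf S ((s : P) * κ i j * w) = s := by
  have hB : (s : P) * κ i j * w ∈ B := B.mul_mem (B.mul_mem (le s.2) (κ i j).2) w.2
  have e : hdf S ((s : P) * κ i j * w) = ((hd_ex S hB hA).choose : P) := by
    unfold hdf; rw [dif_pos ⟨hB, hA⟩]
  rw [e]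
  obtain ⟨i', j', w', h⟩ := (hd_ex S hB hA).choose_spec
  set s' := (hd_ex S hB hA).choose
  have h' : Submonoid.inclusion le s * κ i j * w = Submonoid.inclusion le s' * κ i' j' * w' :=
    Subtype.ext h
  have h1 : s ∣ s' := (S.dvd s' i' j' w' s).1 (h' ▸ (S.dvd s i j w s).2 dvd_rfl)
  have h2 : s' ∣ s := (S.dvd s i j w s').1 (h' ▸ (S.dvd s' i' j' w' s').2 dvd_rfl)
  obtain ⟨x, hx⟩ := h1
  obtain ⟨y, hy⟩ := h2
  have hxy : (x : P) * y = 1 := by
    apply G.lc s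
    rw [mul_one, ← mul_assoc]
    have : (s : P) = s' * y := congrArg Subtype.val hy
    have h3 : (s' : P) = s * x := congrArg Subtype.val hx
    rw [← h3, ← this]
  obtain ⟨hx1, -⟩ := (goodM G).unit _ _ hxy
  have h3 : (s' : P) = s * x := congrArg Subtype.val hx
  rw [h3, hx1, mul_one]

theorem s1_new (S : S1Ext F (Submonoid.inclusion le) κ)
    (s : A) (i : I) (j : J) (w : B) : (s : P) * κ i j * w ∉ A := fun h =>
  S.new s i j w ⟨_, h⟩ (Subtype.ext rfl)

/-- the facts of an (S1) step -/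
noncomputable def step1 (G : IsGood P) (hSA : Stage A) (S : S1Ext F (Submonoid.inclusion le) κ) :
    Step1 A B where
  hd := hdf S
  le := le
  hdA d hB hA := by
    obtain ⟨s, i, j, w, rfl⟩ := hd_ex S hB hA
    rw [hdf_eq G hSA S s i j w hA]
    exact ⟨s.2, ⟨κ i j * w, by rw [mul_assoc]⟩⟩
  hdmul s hs d hB hA := by
    obtain ⟨s0, i, j, w, rfl⟩ := hd_ex S hB hA
    rw [hdf_eq G hSA S s0 i j w hA]
    have e : s * ((s0 : P) * κ i j * w) = ((⟨s, hs⟩ * s0 : A) : P) * κ i j * w := by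
      simp only [mul_assoc, Submonoid.coe_mul]
    rw [e, hdf_eq G hSA S _ i j w (s1_new S _ _ _ _)]
    rfl
  abs d hB hA x hx := by
    obtain ⟨s0, i, j, w, rfl⟩ := hd_ex S hB hA
    have e : (s0 : P) * κ i j * w * x = (s0 : P) * κ i j * (w * ⟨x, hx⟩ : B) := by
      simp only [mul_assoc, Submonoid.coe_mul]
    rw [e, hdf_eq G hSA S _ i j _ (s1_new S _ _ _ _), hdf_eq G hSA S _ i j _ hA]
    exact ⟨s1_new S _ _ _ _, rfl⟩

end s1

/-! ## (S2) steps -/

section s2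
variable {A B : Submonoid P} {le : A ≤ B}

/-- the relation of a datum, in the big monoid -/
def RD (d : Datum A) (s r : P) : Prop := ∃ s' r' : A, (s' : P) = s ∧ (r' : P) = r ∧ d.C.R s' r'

theorem RD_coe (d : Datum A) (s r : A) : RD d s r ↔ d.C.R s r := by
  constructor
  · rintro ⟨s', r', h1, h2, h⟩
    obtain rfl := Subtype.ext h1
    obtain rfl := Subtype.ext h2
    exact h
  · intro h; exact ⟨s, r, rfl, rfl, h⟩

theorem RD_cl (hSA : Stage A) (d : Datum A) : IsCl A (RD d) where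
  mem := by rintro _ _ ⟨s, r, rfl, rfl, -⟩; exact ⟨s.2, r.2⟩
  one := ⟨1, 1, rfl, rfl, d.C.refl 1 d.C.one⟩
  symm := by rintro _ _ ⟨s, r, rfl, rfl, h⟩; exact ⟨r, s, rfl, rfl, d.C.symm _ _ h⟩
  trans := by
    rintro _ _ q ⟨s, r, rfl, rfl, h⟩ ⟨r', q', h1, rfl, h'⟩
    obtain rfl := Subtype.ext h1
    exact ⟨s, q', rfl, rfl, d.C.trans _ _ _ h h'⟩
  up := by
    rintro s t hs ⟨x, y, hx, hy, h⟩
    have hx' : (⟨s, hs⟩ : A) ∣ x := (dvd_sub hSA _ _).2 ⟨t, hx⟩
    exact ⟨⟨s, hs⟩, ⟨s, hs⟩, rfl, rfl, d.C.refl _ (d.C.up _ _ hx' (d.C.dom _ _ h))⟩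
  dir := by
    rintro _ _ ⟨s, s', rfl, h1, h⟩ ⟨r, r', rfl, h2, h'⟩
    obtain ⟨m, hm, hsm, hrm⟩ := d.C.dir s r (d.C.dom _ _ h) (d.C.dom _ _ h')
    exact ⟨m, ⟨m, m, rfl, rfl, d.C.refl m hm⟩, (dvd_sub hSA _ _).1 hsm, (dvd_sub hSA _ _).1 hrm⟩
  restr := by
    rintro _ _ t ⟨s, r, rfl, rfl, h⟩ ⟨x, y, hx, hy, h'⟩
    have ht : t ∈ A := hSA.lu r t r.2 (hx ▸ x.2)
    obtain rfl : x = r * ⟨t, ht⟩ := Subtype.ext hx
    exact ⟨s * ⟨t, ht⟩, r * ⟨t, ht⟩, rfl, rfl, d.C.act _ _ _ h (d.C.dom _ _ h')⟩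
  ext := by
    rintro s r t hs hr ⟨x, y, hx, hy, h⟩
    have ht : t ∈ A := hSA.lu s t hs (hx ▸ x.2)
    obtain rfl : x = ⟨s, hs⟩ * ⟨t, ht⟩ := Subtype.ext hx
    obtain rfl : y = ⟨r, hr⟩ * ⟨t, ht⟩ := Subtype.ext hy
    exact ⟨⟨s, hs⟩, ⟨r, hr⟩, rfl, rfl, d.C.shrink _ _ _ h⟩

variable {y : Ltr A → B} {len : B → ℕ}

theorem y_decomp (S : S2All (Submonoid.inclusion le) y len) (d : Datum A) (s r : A)
    (hr : r ∈ d.C.S) : (y ⟨d, s, r, hr⟩ : P) = s * y ⟨d, 1, r, hr⟩ := by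
  have h := S.act s ⟨d, 1, r, hr⟩
  have e : Ltr.smul s ⟨d, 1, r, hr⟩ = ⟨d, s, r, hr⟩ := by
    simp [Ltr.smul]
  rw [e] at h
  exact (congrArg Subtype.val h).symm

theorem y_base (S : S2All (Submonoid.inclusion le) y len) (d : Datum A) (s r : A)
    (h : d.C.R s r) (hr : r ∈ d.C.S) : (y (Ltr.base d) : P) = s * y ⟨d, 1, r, hr⟩ := by
  rw [← y_decomp S d s r hr]
  have : (⟨d, s, r, hr⟩ : Ltr A).Eqv (Ltr.base d) := by
    refine ⟨rfl, 1, s, ?_, ?_⟩
    · show s * 1 = 1 * s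
      rw [mul_one, one_mul]
    · show d.C.R (r * 1) (1 * s)
      rw [mul_one, one_mul]
      exact d.C.symm _ _ h
  exact congrArg Subtype.val ((S.eqv _ _).1 this).symm

theorem y_t (G : IsGood P) (S : S2All (Submonoid.inclusion le) y len) (d : Datum A) {r : A} {t : P}
    (hr : r ∈ d.C.S) (h : (y (Ltr.base d) : P) = r * t) : t = y ⟨d, 1, r, hr⟩ := by
  apply G.lc r
  rw [← h, y_base S d r r (d.C.refl r hr) hr]

open Classical in
/-- the facts of an (S2) step -/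
noncomputable def step2 (G : IsGood P) (hSA : Stage A) (hSB : Stage B)
    (S : S2All (Submonoid.inclusion le) y len) : Step2 A B (Datum A) where
  R := RD
  a d := d.a
  b d := d.b
  y d := y (Ltr.base d)
  len p := if h : p ∈ B then len ⟨p, h⟩ else 0
  le := le
  cl := RD_cl hSA
  aA d := d.a.2
  bA d := d.b.2
  yB d := (y (Ltr.base d)).2
  a1 d h := d.a_ne (Subtype.ext h)
  bin d := by
    rintro _ _ ⟨s, r, rfl, rfl, h⟩
    obtain ⟨x, hx⟩ := d.b_mem.1 r (d.C.dom _ _ (d.C.symm _ _ h))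
    exact ⟨x, congrArg Subtype.val (d.b_mem.2 s r x h hx), congrArg Subtype.val hx⟩
  bnot d h := by
    obtain ⟨p, hp, -, hbp⟩ := d.ex_p
    exact hbp (hp.1 _ (d.C.dom _ _ ((RD_coe d d.b d.b).1 h)))
  ya d := by
    have h := S.rel (Ltr.base d) d.b (by simp [Ltr.base])
    have h' := congrArg Subtype.val h
    simpa [Ltr.base] using h'
  yin d := by
    rintro _ _ ⟨s, r, rfl, rfl, h⟩
    have hr : r ∈ d.C.S := d.C.dom _ _ (d.C.symm _ _ h)
    exact ⟨y ⟨d, 1, r, hr⟩, y_base S d s r h hr, y_base S d r r (d.C.refl r hr) hr⟩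
  nf p hB hA := by
    rcases S.nf ⟨p, hB⟩ with ⟨q, hq⟩ | ⟨⟨d, s, r, hr⟩, x, h, hx⟩
    · exact absurd (by rw [show p = (q : P) from congrArg Subtype.val hq]; exact q.2) hA
    · have e : p = (s : P) * y ⟨d, 1, r, hr⟩ * x := by
        rw [← y_decomp S d s r hr]
        exact congrArg Subtype.val h
      refine ⟨d, s, r, y ⟨d, 1, r, hr⟩, x, s.2, (RD_coe d r r).2 (d.C.refl r hr),
        y_base S d r r (d.C.refl r hr) hr, x.2, ?_, e, ?_⟩
      · intro h'
        exact hx ((dvd_sub hSB _ _).2 h')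
      · rw [dif_pos x.2, dif_pos hB, h]
        have := S.len_y ⟨d, s, r, hr⟩ x hx
        rw [this]
        exact Nat.lt_succ_self _
  new d m r t w hm hr ht hw haw := by
    obtain ⟨r', r'', rfl, h1, h2⟩ := hr
    have hrS : r' ∈ d.C.S := d.C.dom _ _ h2
    have ht' := y_t G S d hrS ht
    intro hmem
    refine S.new ⟨d, ⟨m, hm⟩, r', hrS⟩ ⟨w, hw⟩ ⟨_, hmem⟩ ?_ (Subtype.ext ?_)
    · intro h'
      exact haw ((dvd_sub hSB _ _).1 h')
    · show (y ⟨d, ⟨m, hm⟩, r', hrS⟩ : P) * w = m * t * w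
      rw [y_decomp S d, ht']
  uq d m r t w d' m' r' t' w' hm hm' hr hr' ht ht' hw hw' haw haw' he := by
    obtain ⟨r1, r2, rfl, h1, h2⟩ := hr
    obtain ⟨r1', r2', rfl, h1', h2'⟩ := hr'
    have hrS : r1 ∈ d.C.S := d.C.dom _ _ h2
    have hrS' : r1' ∈ d'.C.S := d'.C.dom _ _ h2'
    have ht1 := y_t G S d hrS ht
    have ht1' := y_t G S d' hrS' ht'
    obtain ⟨⟨hd, t1, t2, h3, h4⟩, h5⟩ := S.uniq ⟨d, ⟨m, hm⟩, r1, hrS⟩ ⟨w, hw⟩
      ⟨d', ⟨m', hm'⟩, r1', hrS'⟩ ⟨w', hw'⟩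
      (fun h' => haw ((dvd_sub hSB _ _).1 h')) (fun h' => haw' ((dvd_sub hSB _ _).1 h'))
      (by
        apply Subtype.ext
        show (y ⟨d, ⟨m, hm⟩, r1, hrS⟩ : P) * w = (y ⟨d', ⟨m', hm'⟩, r1', hrS'⟩ : P) * w'
        rw [y_decomp S d, y_decomp S d', ← ht1, ← ht1']
        exact he)
    exact ⟨hd, congrArg Subtype.val h5, t1, t2, congrArg Subtype.val h3,
      ⟨r1 * t1, r1' * t2, rfl, rfl, h4⟩⟩

end s2

theorem FP_iff {A : Submonoid P} (d : Datum A) (u : P) : FP (RD d) u ↔ DownP d.C u := by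
  constructor
  · rintro ⟨_, ⟨s, r, rfl, -, h⟩, hu⟩
    exact ⟨s, d.C.dom _ _ h, hu⟩
  · rintro ⟨s, hs, hu⟩
    exact ⟨s, (RD_coe d s s).2 (d.C.refl s hs), hu⟩

theorem MemP_of_InCl {A : Submonoid P} (G : IsGood P) (d : Datum A) {z : P} (h : InCl (RD d) z) :
    MemP d.C z := by
  refine ⟨fun s hs => ?_, fun s r x hR hx => ?_⟩
  · obtain ⟨t, ht, -⟩ := h s s ((RD_coe d s s).2 (d.C.refl s hs))
    exact ⟨t, ht⟩
  · obtain ⟨t, ht, ht'⟩ := h s r ((RD_coe d s r).2 hR)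
    have : x = t := G.lc r _ _ (by rw [← hx, ← ht'])
    rw [this]; exact ht

end one

end Crest.Agent.R296.TBrx774
end

-- ▼ part R296/TFin_774
section

/-! Row 296 (S0448), block A, leaf A-T: FINAL THEOREMS `stT3`, `stT1`, `stT1'`, `stT2`
(statements: `TSt_774.lean`). -/

set_option autoImplicit false

namespace Crest.Agent.R296.TFinx774

open Crest.Agent.R296.IfAx378 Crest.Agent.R296.TSx774 Crest.Agent.R296.Tx774
  Crest.Agent.R296.TBrx774

variable {P : Type 1} [Monoid P] (T : Tower P)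

theorem par (β : Ordinal.{0}) : β % 2 = 0 ∨ β % 2 = 1 := by
  have h2 : (2 : Ordinal.{0}) ≠ 0 := two_ne_zero
  have h : β % 2 < 2 := Ordinal.mod_lt β h2
  have h3 : β % 2 < Order.succ 1 := by
    rwa [Order.succ_eq_add_one, one_add_one_eq_two]
  rw [Order.lt_succ_iff] at h3
  rcases h3.lt_or_eq with h4 | h4
  · left
    exact Order.lt_one_iff.1 h4
  · right; exact h4

/-- induction above `α` -/
theorem ordInd {α : Ordinal.{0}} {Q : Ordinal.{0} → Prop} (h0 : Q α)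
    (hs : ∀ δ, α ≤ δ → Q δ → Q (Order.succ δ))
    (hl : ∀ γ, α < γ → Order.IsSuccLimit γ → (∀ δ < γ, α ≤ δ → Q δ) → Q γ) :
    ∀ γ, α ≤ γ → Q γ := by
  intro γ
  induction γ using WellFoundedLT.induction with
  | ind γ ih =>
    intro h
    rcases h.lt_or_eq with h | h
    · rcases Ordinal.zero_or_succ_or_isSuccLimit γ with h1 | ⟨δ, h1⟩ | h1
      · subst h1
        exact absurd h (not_lt_zero)
      · subst h1
        have h2 : α ≤ δ := Order.lt_succ_iff.1 h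
        exact hs δ h2 (ih δ (Order.lt_succ δ) h2)
      · exact hl γ h h1 ih
    · subst h; exact h0

theorem tstage (β : Ordinal.{0}) : Stage (T.A β) := stage T.good _ (T.cons β)

noncomputable def tstep1 (β : Ordinal.{0}) (h : β % 2 = 0) :
    Step1 (T.A β) (T.A (Order.succ β)) :=
  step1 T.good (tstage T β) (T.s1 β h)

noncomputable def tstep2 (β : Ordinal.{0}) (h : β % 2 = 1) :
    Step2 (T.A β) (T.A (Order.succ β)) (Datum (T.A β)) :=
  step2 T.good (tstage T β) (tstage T _) (T.s2 β h)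

/-- induction along the tower for statements about two elements -/
theorem tind (α : Ordinal.{0}) (Q : P → P → Prop)
    (h0 : ∀ u ∈ T.A α, ∀ x ∈ T.A α, Q u x)
    (hs : ∀ δ, α ≤ δ → (∀ u ∈ T.A δ, ∀ x ∈ T.A δ, Q u x) →
      ∀ u ∈ T.A (Order.succ δ), ∀ x ∈ T.A (Order.succ δ), Q u x) (u x : P) : Q u x := by
  have key : ∀ γ, α ≤ γ → ∀ u ∈ T.A γ, ∀ x ∈ T.A γ, Q u x := by
    refine ordInd h0 hs ?_
    intro γ h hγ ih u hu x hx
    obtain ⟨δ1, h1, hu1⟩ := T.lim γ hγ u hu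
    obtain ⟨δ2, h2, hx2⟩ := T.lim γ hγ x hx
    exact ih (max α (max δ1 δ2)) (max_lt h (max_lt h1 h2)) (le_max_left _ _) u
      (T.mono ((le_max_left _ _).trans (le_max_right _ _)) hu1) x
      (T.mono ((le_max_right _ _).trans (le_max_right _ _)) hx2)
  obtain ⟨β1, h1⟩ := T.exh u
  obtain ⟨β2, h2⟩ := T.exh x
  exact key (max α (max β1 β2)) (le_max_left _ _) u
    (T.mono ((le_max_left _ _).trans (le_max_right _ _)) h1) x
    (T.mono ((le_max_right _ _).trans (le_max_right _ _)) h2)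

theorem eta_mem (β : Ordinal.{0}) (d : Datum (T.A β)) : eta T β d ∈ T.A (Order.succ β) :=
  (T.y β (Ltr.base d)).2

/-- (T3) -/
theorem stT3 : StT3 T := by
  intro β hβ d
  have G := goodM T.good
  have hA := tstage T β
  have hB := tstage T (Order.succ β)
  let S := tstep2 T β hβ
  refine ⟨S.ya d, MemP_of_InCl T.good d (S.yin d), eta_mem T β d, ?_⟩
  intro e he
  have ha1 : ¬ (S.a d) ∣ (1 : P) := by
    rintro ⟨c, hc⟩
    exact S.a1 d (G.unit _ _ hc.symm).1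
  obtain ⟨g, -, hg⟩ := S.fact_ii G hA hB (i := d) (m := 1) (r := 1) (t := S.y d) (w := 1) (e := e)
    (T.A β).one_mem (S.cl d).one (by rw [one_mul]) (T.A _).one_mem ha1
    (by rw [one_mul, mul_one]; exact he)
  rw [one_mul, mul_one, one_mul, S.ya] at hg
  exact ⟨g, hg⟩

theorem not_eta_dvd (β : Ordinal.{0}) (hβ : β % 2 = 1) (d : Datum (T.A β)) (p : T.A β)
    (hp : ¬ (d.b : P) ∣ (p : P)) : ¬ eta T β d ∣ (p : P) := by
  rintro ⟨e, he⟩
  apply hp
  rw [he]
  exact (stT3 T β hβ d).2.2.2 e (he ▸ p.2)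

theorem T1_all (β : Ordinal.{0}) (hβ : β % 2 = 1) (d : Datum (T.A β)) (p : T.A β)
    (hp : ¬ (d.b : P) ∣ (p : P)) (u x : P) :
    u ∣ (p : P) → u ∣ eta T β d * x → ¬ (d.a : P) ∣ x → FP (RD d) u := by
  have G := goodM T.good
  refine tind T (Order.succ β)
    (fun u x => u ∣ (p : P) → u ∣ eta T β d * x → ¬ (d.a : P) ∣ x → FP (RD d) u) ?_ ?_ u x
  · exact (tstep2 T β hβ).T1_base G (tstage T β) (tstage T _) d p.2 hp
  · intro δ hδ ih
    have hη : eta T β d ∈ T.A δ := T.mono hδ (eta_mem T β d)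
    have hpδ : (p : P) ∈ T.A δ := T.mono ((Order.le_succ β).trans hδ) p.2
    rcases par δ with h | h
    · exact (tstep1 T δ h).T1_step G (tstage T δ) (tstage T _) hη hpδ ih
    · exact (tstep2 T δ h).T1_step G (tstage T δ) (tstage T _) hη hpδ
        (not_eta_dvd T β hβ d p hp) ih

/-- (T1) -/
theorem stT1 : StT1 T := fun β hβ d p hp u x h1 h2 h3 =>
  (FP_iff d u).1 (T1_all T β hβ d p hp u x h1 h2 h3)

theorem T1o_all (β : Ordinal.{0}) (hβ : β % 2 = 1) (d : Datum (T.A β)) (x : P) :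
    ∀ u ∈ T.A β, u ∣ eta T β d * x → ¬ (d.a : P) ∣ x → FP (RD d) u := by
  have G := goodM T.good
  refine tind T (Order.succ β)
    (fun _ x => ∀ u ∈ T.A β, u ∣ eta T β d * x → ¬ (d.a : P) ∣ x → FP (RD d) u) ?_ ?_ 1 x
  · intro _ _ x hx u hu
    exact (tstep2 T β hβ).T1o_base G (tstage T β) (tstage T _) d u hu x hx
  · intro δ hδ ih _ _ x hx u hu
    have hη : eta T β d ∈ T.A δ := T.mono hδ (eta_mem T β d)
    have ih' : T1oAt (T.A β) (T.A δ) (RD d) (eta T β d) (d.a : P) :=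
      fun u hu x hx => ih 1 (T.A δ).one_mem x hx u hu
    have hle : T.A β ≤ T.A δ := T.mono ((Order.le_succ β).trans hδ)
    rcases par δ with h | h
    · exact (tstep1 T δ h).T1o_step G (tstage T δ) (tstage T _) hle hη ih' u hu x hx
    · exact (tstep2 T δ h).T1o_step G (tstage T δ) (tstage T _) hle hη ih' u hu x hx

/-- (T1') -/
theorem stT1' : StT1' T := fun β hβ d u x h1 h2 =>
  (FP_iff d _).1 (T1o_all T β hβ d x u u.2 h1 h2)

theorem tdesc (δ : Ordinal.{0}) {s t : P} (hs : s ∈ T.A (Order.succ δ)) (ht : s * t ∈ T.A δ) :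
    t ∈ T.A δ := by
  have G := goodM T.good
  by_cases hsA : s ∈ T.A δ
  · exact (tstage T δ).lu s t hsA ht
  have htB : t ∈ T.A (Order.succ δ) :=
    (tstage T _).lu s t hs (T.mono (Order.le_succ δ) ht)
  rcases par δ with h | h
  · exact (tstep1 T δ h).desc s hs hsA t htB ht
  · exact (tstep2 T δ h).desc G (tstage T δ) (tstage T _) s hs hsA t htB ht

/-- common representatives: pushing `(u, u')` down to the stage `β'` -/
theorem rep {β β' : Ordinal.{0}} (hle : β ≤ β') (C : Closed (T.A β)) (C' : Closed (T.A β'))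
    {u u' : P} (hE : ∀ t, DownP C (u * t) ↔ DownP C' (u' * t)) (hu : DownP C u) :
    ∃ c, u * c ∈ T.A β' ∧ u' * c ∈ T.A β' ∧ DownP C (u * c) := by
  have key : ∀ γ, β' ≤ γ → (∃ c, u * c ∈ T.A γ ∧ u' * c ∈ T.A γ ∧ DownP C (u * c)) →
      ∃ c, u * c ∈ T.A β' ∧ u' * c ∈ T.A β' ∧ DownP C (u * c) := by
    refine ordInd id ?_ ?_
    · rintro δ hδ ih ⟨c, h1, h2, h3⟩
      obtain ⟨k', hk', e, he⟩ := (hE c).1 h3
      have heA : e ∈ T.A δ := tdesc T δ h2 (he ▸ T.mono hδ k'.2)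
      have h4 : DownP C' (u' * (c * e)) := ⟨k', hk', by rw [he, mul_assoc]⟩
      obtain ⟨k, hk, e', he'⟩ := (hE (c * e)).2 h4
      have h5 : u * (c * e) ∈ T.A (Order.succ δ) := by
        rw [← mul_assoc]
        exact (T.A _).mul_mem h1 (T.mono (Order.le_succ δ) heA)
      have heA' : e' ∈ T.A δ := tdesc T δ h5 (he' ▸ T.mono (hle.trans hδ) k.2)
      refine ih ⟨c * e * e', ?_, ?_, ?_⟩
      · rw [← mul_assoc, ← he']
        exact T.mono (hle.trans hδ) k.2
      · rw [← mul_assoc, ← mul_assoc, ← he]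
        exact (T.A δ).mul_mem (T.mono hδ k'.2) heA'
      · refine ⟨k, hk, ?_⟩
        rw [← mul_assoc, ← he']
    · rintro γ h hγ ih ⟨c, h1, h2, h3⟩
      obtain ⟨δ1, hd1, h4⟩ := T.lim γ hγ _ h1
      obtain ⟨δ2, hd2, h5⟩ := T.lim γ hγ _ h2
      exact ih (max β' (max δ1 δ2)) (max_lt h (max_lt hd1 hd2)) (le_max_left _ _)
        ⟨c, T.mono ((le_max_left _ _).trans (le_max_right _ _)) h4,
          T.mono ((le_max_right _ _).trans (le_max_right _ _)) h5, h3⟩
  obtain ⟨γ1, h1⟩ := T.exh u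
  obtain ⟨γ2, h2⟩ := T.exh u'
  refine key (max β' (max γ1 γ2)) (le_max_left _ _) ⟨1, ?_, ?_, ?_⟩
  · rw [mul_one]
    exact T.mono ((le_max_left _ _).trans (le_max_right _ _)) h1
  · rw [mul_one]
    exact T.mono ((le_max_right _ _).trans (le_max_right _ _)) h2
  · rwa [mul_one]

/-- `v` above `C` divides every element of `C` -/
theorem memP_dvd {A : Submonoid P} {C : Closed A} {z v : P} (hz : MemP C z) (hv : DownP C v) :
    v ∣ z := by
  obtain ⟨s, hs, h⟩ := hv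
  exact h.trans (hz.1 s hs)

theorem memP_coe (G : IsGood P) {A : Submonoid P} {C : Closed A} {p : A} (hp : C.Mem p) :
    MemP C (p : P) := by
  refine ⟨fun s hs => ?_, fun s r x hR hx => ?_⟩
  · obtain ⟨c, hc⟩ := hp.1 s hs
    exact ⟨c, congrArg Subtype.val hc⟩
  · have hr : r ∈ C.S := C.dom _ _ (C.symm _ _ hR)
    obtain ⟨c, hc⟩ := hp.1 r hr
    have h1 := hp.2 s r c hR hc
    have h2 : (p : P) = r * c := congrArg Subtype.val hc
    have : x = c := G.lc r _ _ (by rw [← hx, ← h2])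
    rw [this]
    exact congrArg Subtype.val h1

/-- half of (B) -/
theorem half {β β' : Ordinal.{0}} (hβ' : β' % 2 = 1)
    (d : Datum (T.A β)) (d' : Datum (T.A β')) (p : T.A β) (p' : T.A β')
    (hp : MemP d.C (p : P)) (hη : MemP d.C (eta T β d)) (hbp' : ¬ (d'.b : P) ∣ (p' : P))
    {u u' p0 q0 z z' : P} (h1 : (p : P) = u * p0) (h2 : (p' : P) = u' * p0)
    (h3 : eta T β d * z = u * q0) (h4 : eta T β' d' * z' = u' * q0) (hz' : ¬ (d'.a : P) ∣ z')
    (t : P) (ht : DownP d.C (u * t)) : DownP d'.C (u' * t) := by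
  obtain ⟨p1, hp1⟩ := memP_dvd hp ht
  have e1 : p0 = t * p1 := T.good.lc u _ _ (by rw [← h1, hp1, mul_assoc])
  obtain ⟨q1, hq1⟩ := memP_dvd hη ht
  have e2 : q0 = t * (q1 * z) := T.good.lc u _ _ (by
    rw [← h3]
    conv_lhs => rw [hq1]
    simp only [mul_assoc])
  refine stT1 T β' hβ' d' p' hbp' (u' * t) z' ⟨p1, ?_⟩ ⟨q1 * z, ?_⟩ hz'
  · rw [h2, e1, mul_assoc]
  · rw [h4, e2]; simp only [mul_assoc]

/-- different stages are impossible -/
theorem T2_lt {β β' : Ordinal.{0}} (hlt : β < β') (hβ : β % 2 = 1) (hβ' : β' % 2 = 1)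
    (d : Datum (T.A β)) (d' : Datum (T.A β')) (p : T.A β) (p' : T.A β')
    (hp : MemP d.C (p : P)) (hbp : ¬ (d.b : P) ∣ (p : P)) (hp' : MemP d'.C (p' : P))
    (hbp' : ¬ (d'.b : P) ∣ (p' : P))
    {u u' p0 q0 z z' : P} (h1 : (p : P) = u * p0) (h2 : (p' : P) = u' * p0)
    (h3 : eta T β d * z = u * q0) (h4 : eta T β' d' * z' = u' * q0) (hz : ¬ (d.a : P) ∣ z)
    (hz' : ¬ (d'.a : P) ∣ z') : False := by
  have hη : MemP d.C (eta T β d) := (stT3 T β hβ d).2.1
  have hη' : MemP d'.C (eta T β' d') := (stT3 T β' hβ' d').2.1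
  have hE : ∀ t, DownP d.C (u * t) ↔ DownP d'.C (u' * t) := fun t =>
    ⟨half T hβ' d d' p p' hp hη hbp' h1 h2 h3 h4 hz' t,
      half T hβ d' d p' p hp' hη' hbp h2 h1 h4 h3 hz t⟩
  have hu : DownP d.C u := stT1 T β hβ d p hbp u z ⟨p0, h1⟩ ⟨q0, h3⟩ hz
  obtain ⟨c, hc1, hc2, hc3⟩ := rep T hlt.le d.C d'.C hE hu
  obtain ⟨e0, he0⟩ := memP_dvd hη hc3
  have hηA : eta T β d ∈ T.A β' := T.mono (Order.succ_le_of_lt hlt) (eta_mem T β d)
  have he0A : e0 ∈ T.A β' := (tstage T β').lu _ _ hc1 (he0 ▸ hηA)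
  have e1 : q0 = c * (e0 * z) := T.good.lc u _ _ (by
    rw [← h3]
    conv_lhs => rw [he0]
    simp only [mul_assoc])
  have h5 : DownP d'.C (u' * c * e0) := by
    refine stT1' T β' hβ' d' ⟨u' * c * e0, (T.A β').mul_mem hc2 he0A⟩ z' ⟨z, ?_⟩ hz'
    rw [h4, e1]; simp only [mul_assoc]
  have h6 : DownP d.C (eta T β d) := by
    rw [he0, mul_assoc]
    rw [mul_assoc] at h5
    exact (hE (c * e0)).2 h5
  exact not_eta_dvd T β hβ d p hbp (memP_dvd hp h6)

/-- the same stage -/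
theorem T2_eq {β : Ordinal.{0}} (hβ : β % 2 = 1)
    (d : Datum (T.A β)) (d' : Datum (T.A β)) (p : T.A β) (p' : T.A β)
    (hp : MemP d.C (p : P)) (hbp : ¬ (d.b : P) ∣ (p : P)) (hp' : MemP d'.C (p' : P))
    (hbp' : ¬ (d'.b : P) ∣ (p' : P))
    {u u' p0 q0 z z' : P} (h1 : (p : P) = u * p0) (h2 : (p' : P) = u' * p0)
    (h3 : eta T β d * z = u * q0) (h4 : eta T β d' * z' = u' * q0) (hz : ¬ (d.a : P) ∣ z)
    (hz' : ¬ (d'.a : P) ∣ z') : d = d' ∧ z = z' ∧
      ∃ (s r : T.A β) (c : P), (s : P) = u * c ∧ (r : P) = u' * c ∧ d.C.R s r := by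
  have G := goodM T.good
  have hη : MemP d.C (eta T β d) := (stT3 T β hβ d).2.1
  have hη' : MemP d'.C (eta T β d') := (stT3 T β hβ d').2.1
  have hE : ∀ t, DownP d.C (u * t) ↔ DownP d'.C (u' * t) := fun t =>
    ⟨half T hβ d d' p p' hp hη hbp' h1 h2 h3 h4 hz' t,
      half T hβ d' d p' p hp' hη' hbp h2 h1 h4 h3 hz t⟩
  have hu : DownP d.C u := stT1 T β hβ d p hbp u z ⟨p0, h1⟩ ⟨q0, h3⟩ hz
  obtain ⟨c, hc1, hc2, hc3⟩ := rep T le_rfl d.C d'.C hE hu
  obtain ⟨t, ht⟩ := memP_dvd hη hc3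
  have e1 : q0 = c * (t * z) := T.good.lc u _ _ (by
    rw [← h3]
    conv_lhs => rw [ht]
    simp only [mul_assoc])
  have htB : t ∈ T.A (Order.succ β) :=
    (tstage T _).lu _ _ (T.mono (Order.le_succ β) hc1) (ht ▸ eta_mem T β d)
  have hr : RD d (u * c) (u * c) := by
    obtain ⟨k, hk, hck⟩ := hc3
    have : (⟨u * c, hc1⟩ : T.A β) ∣ k := (dvd_sub (tstage T β) _ _).2 hck
    exact (RD_coe d ⟨u * c, hc1⟩ ⟨u * c, hc1⟩).2 (d.C.refl _ (d.C.up _ _ this hk))
  have hζ : u' * c * t ∈ T.A (Order.succ β) :=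
    (T.A _).mul_mem (T.mono (Order.le_succ β) hc2) htB
  obtain ⟨hzz, hdd, x, x', hx, hR⟩ := tind T (Order.succ β)
    (fun z z' => ¬ (d.a : P) ∣ z → ¬ (d'.a : P) ∣ z' → u' * c * t * z = eta T β d' * z' → z = z' ∧
      (d = d' ∧ ∃ x x', u' * c * x = x' ∧ RD d (u * c * x) x'))
    ((tstep2 T β hβ).T2_base G (tstage T β) (tstage T _) d d' hc2 hr ht)
    (by
      intro δ hδ ih
      have hζ' : u' * c * t ∈ T.A δ := T.mono hδ hζ
      have hη'' : eta T β d' ∈ T.A δ := T.mono hδ (eta_mem T β d')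
      rcases par δ with h | h
      · exact (tstep1 T δ h).T2_step G (tstage T δ) (tstage T _) hζ' hη'' ih
      · exact (tstep2 T δ h).T2_step G (tstage T δ) (tstage T _) hζ' hη'' ih) z z' hz hz'
    (by rw [h4, e1]; simp only [mul_assoc])
  refine ⟨hdd, hzz, ?_⟩
  obtain ⟨s, r, hs, hr', hsr⟩ := hR
  exact ⟨s, r, c * x, by rw [hs, mul_assoc], by rw [hr', ← hx, mul_assoc], hsr⟩

/-- (T2) -/
theorem stT2 : StT2 T := by
  intro β β' hβ hβ' d d' p p' hp hbp hp' hbp' s s' z z' h1 h2 hz hz'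
  obtain ⟨u, v, huv, hmin⟩ := T.good.lcm s s' p p' h1
  obtain ⟨p0, hp0, hp0'⟩ := hmin _ _ h1
  obtain ⟨q0, hq0, hq0'⟩ := hmin (eta T β d * z) (eta T β' d' * z')
    (by rw [← mul_assoc, ← mul_assoc]; exact h2)
  have hpM := memP_coe T.good hp
  have hpM' := memP_coe T.good hp'
  rcases lt_trichotomy β β' with h | h | h
  · exact (T2_lt T h hβ hβ' d d' p p' hpM hbp hpM' hbp' hp0 hp0' hq0 hq0' hz hz').elim
  · subst h
    obtain ⟨rfl, rfl, s1, r1, c, e1, e2, hR⟩ :=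
      T2_eq T hβ d d' p p' hpM hbp hpM' hbp' hp0 hp0' hq0 hq0' hz hz'
    refine ⟨rfl, rfl, s1, r1, ?_, hR⟩
    rw [e1, e2, ← mul_assoc, ← mul_assoc, huv]
  · exact (T2_lt T h hβ' hβ d' d p' p hpM' hbp' hpM hbp hp0' hp0 hq0' hq0 hz' hz).elim

end Crest.Agent.R296.TFinx774
end

-- ▼ part R296/FiltC_70
section

/-!
Row 296 (S0448), helper70: the T-lemma in the FILTER form of `IfA2_378` (`TDat`, `TLem`), for the
literal tower of `IfA_378` (v1, closed sets).

* `filtC F : Closed P` = the closed set `(F, Q = 1)`: `R s r ↔ ∃ t, s * t = r * t ∧ r * t ∈ F`;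
* `TDat T` : `(β, F, a, b, p)`; `TDat.datum : Datum (T.A β)`; `etaF D : P` the letter;
* `tlem T : TLem T (etaF T)` : `rel`, `new`, `t3`, `t0`, `t1`, `t1'`, `t2` literally as in `IfA2_378`.
-/

set_option autoImplicit false

universe u v w

namespace Crest.Agent.R296.FiltCx70

open Crest.Agent.R296.IfAx378 Crest.Agent.R296.Resx70 Crest.Agent.R296.TSx774
  Crest.Agent.R296.TFinx774

section filt
variable {P : Type u} [Monoid P] [IsGood P]

/-- the closed set `(F, Q = 1)` -/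
def filtC (F : Filt P) : Closed P where
  toFilt := F
  R s r := ∃ t, s * t = r * t ∧ r * t ∈ F.S
  dom s r := by
    rintro ⟨t, h1, h2⟩
    exact F.up _ _ ⟨t, h1.symm⟩ h2
  refl s hs := ⟨1, rfl, by rwa [mul_one]⟩
  symm s r := by
    rintro ⟨t, h1, h2⟩
    exact ⟨t, h1.symm, by rwa [h1]⟩
  trans s r q := by
    rintro ⟨t, h1, h2⟩ ⟨t', h1', h2'⟩
    obtain ⟨m, hm, ⟨x, hx⟩, ⟨x', hx'⟩⟩ := F.dir _ _ h2 h2'
    have e : t * x = t' * x' := by
      apply lcan (f := r)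
      rw [← mul_assoc, ← hx, ← mul_assoc, h1', hx']
    refine ⟨t * x, ?_, ?_⟩
    · rw [← mul_assoc, h1, ← hx, e, ← mul_assoc, hx']
    · rw [e, ← mul_assoc, ← hx']
      exact hm
  act s r t := by
    rintro ⟨t0, h1, h2⟩ ht
    obtain ⟨m, hm, ⟨x, hx⟩, ⟨x', hx'⟩⟩ := F.dir _ _ h2 ht
    have e : t0 * x = t * x' := by
      apply lcan (f := r)
      rw [← mul_assoc, ← hx, ← mul_assoc, hx']
    refine ⟨x', ?_, ?_⟩
    · rw [mul_assoc, ← e, ← mul_assoc, h1, ← hx, ← hx']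
    · rw [← hx']
      exact hm
  shrink s r t := by
    rintro ⟨x, h1, h2⟩
    exact ⟨t * x, by rw [← mul_assoc, ← mul_assoc]; exact h1, by rw [← mul_assoc]; exact h2⟩

theorem filtC_mem {F : Filt P} {z : P} : (filtC F).Mem z ↔ ∀ s ∈ F.S, s ∣ z := by
  constructor
  · intro h s hs
    exact h.1 s hs
  · intro h
    refine ⟨h, ?_⟩
    rintro s r x ⟨t, h1, h2⟩ hx
    obtain ⟨c, hc⟩ := h _ h2
    have e : x = t * c := by
      apply lcan (f := r)
      rw [← hx, hc, mul_assoc]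
    rw [e, ← mul_assoc, h1, hc]


end filt

section tower
variable {P : Type 1} [Monoid P] (T : Tower P)

/-- a filter generated by `A α` is determined by its members in `A α` -/
theorem filt_ext {F G : Filt P} {α : Ordinal.{0}} (hF : GenBy T F α) (hG : GenBy T G α)
    (h : ∀ s ∈ T.A α, s ∈ F.S ↔ s ∈ G.S) : F = G := by
  have hS : F.S = G.S := by
    ext s
    constructor
    · intro hs
      obtain ⟨m, hm, h1, h2⟩ := hF s hs
      exact G.up _ _ h2 ((h m hm).1 h1)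
    · intro hs
      obtain ⟨m, hm, h1, h2⟩ := hG s hs
      exact F.up _ _ h2 ((h m hm).2 h1)
  cases F
  cases G
  simp only at hS
  subst hS
  rfl

/-- data of a T-letter -/
@[ext] structure TDat where
  β : Ordinal.{0}
  odd : β % 2 = 1
  F : Filt P
  a : P
  b : P
  p : P
  gen : GenBy T F β
  ha : a ∈ T.A β
  hb : b ∈ T.A β
  hp : p ∈ T.A β
  a_ne : a ≠ 1
  mem : ∀ s ∈ F.S, s ∣ p
  dvd : p ∣ b
  ndvd : ¬ b ∣ p

variable {T}

/-- the closed set of `A β` given by the filter `F` -/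
def FC (F : Filt P) (β : Ordinal.{0}) : Closed (T.A β) :=
  have := T.good
  cres T (filtC F) β



theorem FC_mem {F : Filt P} {β : Ordinal.{0}} {z : T.A β} (h : ∀ s ∈ F.S, s ∣ (z : P)) :
    (FC (T := T) F β).Mem z := by
  have := T.good
  refine ⟨fun s hs => (tDvd T).1 (h _ hs), fun s r x hR hx => ?_⟩
  have h2 := (filtC_mem.2 h).2 (s : P) (r : P) (x : P) hR (congrArg Subtype.val hx)
  exact Subtype.ext h2

theorem downP_FC {F : Filt P} {β : Ordinal.{0}} {v : P} (h : DownP (FC (T := T) F β) v) :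
    v ∈ F.S := by
  obtain ⟨s, hs, hv⟩ := h
  exact F.up _ _ hv hs

theorem simP_FC {F : Filt P} {β : Ordinal.{0}} {f g : P} (h : SimP (FC (T := T) F β) f g) :
    ∃ t ∈ F.S, f * t = g * t := by
  obtain ⟨x, y, h, t, h1, h2⟩ := h
  have h1' : (x : P) * t = y * t := h1
  refine ⟨(y : P) * t, h2, ?_⟩
  rw [← h1', ← mul_assoc, h, mul_assoc, ← h1']

/-- the datum of a `TDat` -/
def TDat.datum (D : TDat T) : Datum (T.A D.β) where
  C := FC D.F D.β
  a := ⟨D.a, D.ha⟩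
  b := ⟨D.b, D.hb⟩
  a_ne h := D.a_ne (congrArg Subtype.val h)
  b_mem := FC_mem fun s hs => (D.mem s hs).trans D.dvd
  ex_p := by
    refine ⟨⟨D.p, D.hp⟩, FC_mem D.mem, (tDvd T).1 D.dvd, fun h => D.ndvd ((tDvd T).2 h)⟩

variable (T)

/-- the letter of the datum `D` -/
noncomputable def etaF (D : TDat T) : P := eta T D.β D.datum

/-- A-T = T-lemma A.7, filter form (literally `IfA2_378`) -/
structure TLem (η : TDat T → P) : Prop where
  succ : ∀ D, η D ∈ T.A (Order.succ D.β)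
  new : ∀ D, η D ∉ T.A D.β
  rel : ∀ D, η D * D.a = D.b
  /-- (T3): `η` is in all members of `F`; so `s u = s' u`, `u ∈ F`, imply `s η = s' η` -/
  t3 : ∀ D, ∀ u ∈ D.F.S, u ∣ η D
  /-- (T0) -/
  t0 : ∀ D s z, s ∈ T.A D.β → s * η D * z ∈ T.A D.β → D.a ∣ z
  /-- (T1) -/
  t1 : ∀ D u z, u ∣ D.p → u ∣ η D * z → ¬ D.a ∣ z → u ∈ D.F.S
  /-- (T1') -/
  t1' : ∀ D u z, u ∈ T.A D.β → u ∣ η D * z → ¬ D.a ∣ z → u ∈ D.F.S
  /-- (T2) -/
  t2 : ∀ D D' s s' z z', s * D.p = s' * D'.p → s * η D * z = s' * η D' * z' →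
    ¬ D.a ∣ z → ¬ D'.a ∣ z' →
    D = D' ∧ z = z' ∧ ∃ u ∈ D.F.S, s * u = s' * u

theorem etaF_rel (D : TDat T) : etaF T D * D.a = D.b := (stT3 T D.β D.odd D.datum).1

theorem etaF_t0 (D : TDat T) (s z : P) (hs : s ∈ T.A D.β) (h : s * etaF T D * z ∈ T.A D.β) :
    D.a ∣ z := by
  have := T.good
  rw [mul_assoc] at h
  have h1 : etaF T D * z ∈ T.A D.β := tRight T hs h
  obtain ⟨x, hx⟩ := (stT3 T D.β D.odd D.datum).2.2.2 z h1
  refine ⟨x, ?_⟩
  apply lcan (f := etaF T D)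
  rw [← mul_assoc, etaF_rel]
  exact hx

/-- two data with the same letter data are equal -/
theorem tdat_eq {D D' : TDat T} (hβ : D.β = D'.β) (hd : HEq D.datum D'.datum) (hp : D.p = D'.p) :
    D = D' := by
  obtain ⟨β, odd, F, a, b, p, gen, ha, hb, hp1, a_ne, mem, dvd, ndvd⟩ := D
  obtain ⟨β', odd', F', a', b', p', gen', ha', hb', hp1', a_ne', mem', dvd', ndvd'⟩ := D'
  simp only at hβ hp
  subst hβ
  subst hp
  have hd' := eq_of_heq hd
  have hC := congrArg Datum.C hd'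
  have haa := congrArg (fun d : Datum (T.A β) => (d.a : P)) hd'
  have hbb := congrArg (fun d : Datum (T.A β) => (d.b : P)) hd'
  simp only [TDat.datum] at hC haa hbb
  subst haa
  subst hbb
  have hF : F = F' := by
    apply filt_ext T gen gen'
    intro s hs
    have h1 : (⟨s, hs⟩ : T.A β) ∈ (FC (T := T) F β).S ↔ (⟨s, hs⟩ : T.A β) ∈ (FC (T := T) F' β).S := by
      rw [hC]
    exact h1
  subst hF
  rfl

theorem tlem : TLem T (etaF T) where
  succ D := (stT3 T D.β D.odd D.datum).2.2.1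
  new D h := by
    have := T.good
    have h1 := etaF_t0 T D 1 1 (T.A D.β).one_mem (by rwa [one_mul, mul_one])
    exact D.a_ne (dvd_one h1)
  rel D := etaF_rel T D
  t3 D u hu := by
    obtain ⟨m, hm, h1, h2⟩ := D.gen u hu
    exact h2.trans ((stT3 T D.β D.odd D.datum).2.1.1 ⟨m, hm⟩ h1)
  t0 D s z hs h := etaF_t0 T D s z hs h
  t1 D u z h1 h2 h3 :=
    downP_FC (stT1 T D.β D.odd D.datum ⟨D.p, D.hp⟩ D.ndvd u z h1 h2 h3)
  t1' D u z hu h2 h3 :=
    downP_FC (stT1' T D.β D.odd D.datum ⟨u, hu⟩ z h2 h3)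
  t2 D D' s s' z z' h1 h2 h3 h4 := by
    have := T.good
    obtain ⟨he, hz, hs⟩ := stT2 T D.β D'.β D.odd D'.odd D.datum D'.datum ⟨D.p, D.hp⟩ ⟨D'.p, D'.hp⟩
      (FC_mem D.mem) D.ndvd (FC_mem D'.mem) D'.ndvd s s' z z' h1 h2 h3 h4
    obtain ⟨u, hu, hsu⟩ := simP_FC (T := T) hs
    have hp : D.p = D'.p := by
      obtain ⟨q, hq⟩ := D.mem u hu
      apply lcan (f := s')
      rw [← h1, hq, ← mul_assoc, ← mul_assoc, hsu]
    have h5 := Sigma.mk.inj_iff.1 he
    exact ⟨tdat_eq T h5.1 h5.2 hp, hz, u, hu, hsu⟩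

end tower

end Crest.Agent.R296.FiltCx70
end

-- ▼ part R296/OutA_70
section

/-!
Row 296 (S0448), helper70: **block A closed** (v1 interface): `outA : ∃ P T, Kit P T.A ∧ TLem T (etaF T) ∧ …`.
-/

set_option autoImplicit false

namespace Crest.Agent.R296.OutAx70

open Crest.Agent.R296.IfAx378 Crest.Agent.R296.Resx70 Crest.Agent.R296.LctStx153
  Crest.Agent.R296.FiltCx70


/-- everything block C needs -/
structure OutA (P : Type 1) [Monoid P] : Type 1 where
  T : Tower P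
  kit : Kit P T.A
  t : TLem T (etaF T)



end Crest.Agent.R296.OutAx70
end

-- ▼ part R296/PPc_564
section

/-!
# Row 296 (S0448), block C (helper564): the partition principle in `V^(C)`, Zorn form (note 2194)

`pp_core`: from a forced surjection `X → Y` over `c0` (an `FRel`) one gets, over the stage `q1 = f0 · c0`,
a family of entries `(D i ⟶ q1; y i, x i)` which is single valued, injective, total and with values in `X`.
The hypotheses on the monoid are collected in `Gen'`, `LetHyp`; the normal forms of names (LCT') in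
`NormHyp`.
-/

set_option autoImplicit false
set_option linter.unusedSectionVars false
set_option linter.unusedVariables false

open CategoryTheory

namespace Crest.Agent.R296.PPcx564

open Crest.Agent.R296.IfAx378 Crest.Agent.R296.CondCx153 Crest.Agent.R296.CatFx365
open Crest.Agent.R296.CatOpsx365

/-! ### maximal disjoint families -/

/-- Zorn: a maximal family for a reflexive symmetric relation "meet" -/
theorem exists_max {E : Type*} (R : E → E → Prop) (hr : ∀ a, R a a) (hs : ∀ a b, R a b → R b a) :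
    ∃ A : Set E, (∀ a ∈ A, ∀ b ∈ A, R a b → a = b) ∧ ∀ e, ∃ a ∈ A, R e a := by
  obtain ⟨A, hA⟩ := zorn_subset {A : Set E | ∀ a ∈ A, ∀ b ∈ A, R a b → a = b} (by
    intro c hc hch
    refine ⟨⋃₀ c, ?_, fun s hs => Set.subset_sUnion_of_mem hs⟩
    rintro a ⟨s, hs, ha⟩ b ⟨t, ht, hb⟩ hab
    rcases hch.total hs ht with h | h
    · exact hc ht a (h ha) b hb hab
    · exact hc hs a ha b (h hb) hab)
  refine ⟨A, hA.prop, fun e => ?_⟩
  by_contra hcon
  push Not at hcon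
  have h1 : (insert e A) ∈ {A : Set E | ∀ a ∈ A, ∀ b ∈ A, R a b → a = b} := by
    rintro a ha b hb hab
    rcases ha with rfl | ha <;> rcases hb with rfl | hb
    · rfl
    · exact absurd hab (hcon b hb)
    · exact absurd (hs _ _ hab) (hcon a ha)
    · exact hA.prop a ha b hb hab
  have h2 := hA.le_of_ge h1 (Set.subset_insert e A)
  exact hcon e (h2 (Set.mem_insert e A)) (hr e)

variable {P : Type 1} [Monoid P] [IsGood P]

/-! ### points of a value -/

/-- a point of the value `Z`: one of its elements, over some stage above `q` -/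
structure Pt {q : Cond P} (Z : Val (Cond P) q) : Type 1 where
  i : Z.nm.I
  st : Cond P
  ar : st ⟶ q
  k : st ⟶ Z.nm.D i
  hk : ar ≫ Z.ar = k ≫ Z.nm.e i

namespace Pt
variable {q : Cond P} {Z : Val (Cond P) q}

/-- value of a point -/
def val (t : Pt Z) : Val (Cond P) t.st := Z.el t.i t.k

/-- restriction of a point -/
abbrev rs (t : Pt Z) {d : Cond P} (g : d ⟶ t.st) : Pt Z :=
  ⟨t.i, d, g ≫ t.ar, g ≫ t.k, by rw [Category.assoc, t.hk, Category.assoc]⟩

theorem val_rs (t : Pt Z) {d : Cond P} (g : d ⟶ t.st) : (t.rs g).val = t.val.res g :=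
  (Val.res_el Z t.i t.k g).symm

theorem mem (t : Pt Z) : Mem' t.val (Z.res t.ar) := mem_el Z t.ar t.i t.k t.hk

/-- two points meet -/
def Meet (s t : Pt Z) : Prop := ∃ (e : Cond P) (k : e ⟶ s.st) (k' : e ⟶ t.st),
  k ≫ s.ar = k' ≫ t.ar ∧ Eq' (s.val.res k) (t.val.res k')

theorem Meet.refl (s : Pt Z) : Meet s s := ⟨s.st, 𝟙 _, 𝟙 _, rfl, Eq'.refl _⟩

theorem Meet.symm {s t : Pt Z} (h : Meet s t) : Meet t s := by
  obtain ⟨e, k, k', h1, h2⟩ := h
  exact ⟨e, k', k, h1.symm, h2.symm⟩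

/-- every member is densely a point -/
theorem exists_pt {d : Cond P} (h : d ⟶ q) (z : Val (Cond P) d) (hz : Mem' z (Z.res h)) :
    ∃ (t : Pt Z) (k : t.st ⟶ d), k ≫ h = t.ar ∧ Eq' (z.res k) t.val := by
  obtain ⟨d2, m, j, k, h1, h2⟩ := hz d (𝟙 d)
  refine ⟨⟨j, d2, m ≫ h, k, ?_⟩, m, rfl, ?_⟩
  · simpa using h1
  · have h3 : Eq' (z.res (m ≫ 𝟙 d)) (Z.el j k) := h2
    rw [Category.comp_id] at h3
    exact h3

end Pt

/-! ### forced relations -/

/-- a forced binary relation between values over the stages above `q` -/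
structure FRel (q : Cond P) where
  r : ∀ {d : Cond P}, (d ⟶ q) → Val (Cond P) d → Val (Cond P) d → Prop
  mono : ∀ {d d' : Cond P} (h : d ⟶ q) (g : d' ⟶ d) (x y : Val (Cond P) d), r h x y →
    r (g ≫ h) (x.res g) (y.res g)
  dense : ∀ {d : Cond P} (h : d ⟶ q) (x y : Val (Cond P) d),
    (∀ (d1 : Cond P) (g : d1 ⟶ d), ∃ (d2 : Cond P) (m : d2 ⟶ d1),
      r ((m ≫ g) ≫ h) (x.res (m ≫ g)) (y.res (m ≫ g))) → r h x y
  congr : ∀ {d : Cond P} (h : d ⟶ q) (x x' y y' : Val (Cond P) d), Eq' x x' → Eq' y y' →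
    r h x y → r h x' y'

/-! ### hypotheses -/

/-- generic solutions of `y a = b` (point version, `a = 1` allowed) -/
def Gen' (P : Type 1) [Monoid P] : Prop := ∀ (a b : P) (S : Set P), Small.{0} S → b ≠ 1 →
  ∃ y, y * a = b ∧ ∀ x, y * x ∈ S → b ∣ y * x

/-- free amalgamation of two arrows over the full restriction -/
def Amal (P : Type 1) [Monoid P] [IsGood P] : Prop := ∀ (e d e1 : Cond P) (l : e ⟶ d) (j : e1 ⟶ d),
  pul l.1 e.q ⊆ d.q → ∃ (e2 : Cond P) (h : e2 ⟶ e) (h' : e2 ⟶ e1), h ≫ l = h' ≫ j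

/-- the letters -/
structure LetHyp (P : Type 1) [Monoid P] (f0 : P) where
  Let : Ordinal.{0} → Filt P → P → P → P
  good : Ordinal.{0} → Filt P → P → P → Prop
  ev : ∀ (F : Filt P) (a p : P) (S : Set P), Small.{0} S → a ≠ 1 → (∀ u ∈ F.S, u ∣ p) →
    ∃ β0, ∀ β, β0 ≤ β → good β F a p ∧ ∀ x, Let β F a p * x ∈ S → (p * f0) ∣ Let β F a p * x
  rel : ∀ β F a p, good β F a p → Let β F a p * a = p * f0
  mem : ∀ β F a p, good β F a p → ∀ u ∈ F.S, u ∣ Let β F a p
  T2 : ∀ (β β' : Ordinal.{0}) (F F' : Filt P) (a p p' s s' z : P), good β F a p → good β' F' a p' →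
    s * p = s' * p' → s * Let β F a p * z = s' * Let β' F' a p' * z → ¬ a ∣ z →
    β = β' ∧ Let β F a p = Let β' F' a p' ∧ ∃ u ∈ F.S, s * u = s' * u

/-- normal form of a value -/
def Nor {d : Cond P} (x : Val (Cond P) d) : Prop :=
  (∀ (w : Cond P) (f g : w ⟶ d), Eq' (x.res f) (x.res g)) ∨
  ∃ F : Filt P, ∀ (w : Cond P) (f g : w ⟶ d), Eq' (x.res f) (x.res g) ↔ ∃ u ∈ F.S, f.1 * u = g.1 * u

/-- normal form of a pair (value, point) with the filter `F` -/
def NorP {d : Cond P} (y : Val (Cond P) d) (p : P) (F : Filt P) : Prop :=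
  ∀ (w : Cond P) (f g : w ⟶ d), (f.1 * p = g.1 * p ∧ Eq' (y.res f) (y.res g)) ↔
    ∃ u ∈ F.S, f.1 * u = g.1 * u

/-- existence of normal forms -/
structure NormHyp (P : Type 1) [Monoid P] [IsGood P] : Prop where
  one : ∀ (q : Cond P) (x : Val (Cond P) q), ∃ (q2 : Cond P) (i : q2 ⟶ q), i.1 = 1 ∧ Nor (x.res i)
  two : ∀ (q : Cond P) (y : Val (Cond P) q) (p : P), ∃ (q2 : Cond P) (i : q2 ⟶ q) (F : Filt P),
    i.1 = 1 ∧ NorP (y.res i) p F ∧ ∀ u ∈ F.S, u ∣ p

/-- injective codes of finitely many conditions and elements -/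
def CodeHyp (P : Type 1) [Monoid P] : Prop :=
  ∃ st : (Cond P × P × Cond P × P × P) × Ordinal.{0} → Ordinal.{0}, Function.Injective st ∧
    ∀ k, k.2 ≤ st k


/-! ### locality -/

/-- monotone and dense predicates descend along arrows with full restriction -/
theorem local' (hA : Amal P) {e d : Cond P} (l : e ⟶ d) (hl : pul l.1 e.q ⊆ d.q)
    (Φ : ∀ (w : Cond P), (w ⟶ d) → Prop)
    (mono : ∀ (w w' : Cond P) (h : w ⟶ d) (g : w' ⟶ w), Φ w h → Φ w' (g ≫ h))
    (dense : ∀ (w : Cond P) (h : w ⟶ d), (∀ (w1 : Cond P) (g : w1 ⟶ w),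
      ∃ (w2 : Cond P) (m : w2 ⟶ w1), Φ w2 (m ≫ g ≫ h)) → Φ w h)
    (H : Φ e l) : Φ d (𝟙 d) := by
  refine dense d (𝟙 d) fun w1 g => ?_
  obtain ⟨e2, h, h', h1⟩ := hA e d w1 l g hl
  refine ⟨e2, h', ?_⟩
  rw [Category.comp_id, ← h1]
  exact mono _ _ l h H

/-- push-out of labels along `l` -/
theorem isCond_push {l : P} {e D R : Set (P × Lab)} (he : IsCond e) (hD : D = pul l e)
    (hDR : IsCond (D ∪ R)) : IsCond (e ∪ psh l (D ∪ R)) := by
  refine he.union (hDR.psh l) fun s b h1 h2 => ?_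
  obtain ⟨t, ht, rfl⟩ := mem_psh.1 h2
  have h3 : (t, b) ∈ D ∪ R := Or.inl (by rw [hD]; exact h1)
  exact hDR.con t b h3 ht

theorem pul_push {l : P} {e D R : Set (P × Lab)} (hD : D = pul l e) :
    pul l (e ∪ psh l (D ∪ R)) ⊆ D ∪ R := by
  rintro ⟨t, b⟩ h
  rw [mem_pul] at h
  rcases h with h | h
  · left
    rw [hD]
    exact h
  · rwa [mul_mem_psh] at h

/-! ### the main construction -/

section main

variable {c0 : Cond P} {X Y : Val (Cond P) c0} (f : FRel c0) {f0 : P}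

/-- maximal disjoint family of normal points -/
theorem exists_normal_family (hN : NormHyp P) (X : Val (Cond P) c0) :
    ∃ A : Set (Pt X), (∀ a ∈ A, Nor a.val) ∧ (∀ a ∈ A, ∀ b ∈ A, a.Meet b → a = b) ∧
      ∀ t : Pt X, ∃ a ∈ A, t.Meet a := by
  obtain ⟨B, hB1, hB2⟩ := exists_max (E := {t : Pt X // Nor t.val}) (fun a b => a.1.Meet b.1)
    (fun a => Pt.Meet.refl _) (fun a b h => h.symm)
  refine ⟨Subtype.val '' B, ?_, ?_, ?_⟩
  · rintro _ ⟨a, _, rfl⟩
    exact a.2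
  · rintro _ ⟨a, ha, rfl⟩ _ ⟨b, hb, rfl⟩ h
    rw [hB1 a ha b hb h]
  · intro t
    obtain ⟨q2, i, hi, hn⟩ := hN.one t.st t.val
    have hn' : Nor (t.rs i).val := by rw [Pt.val_rs]; exact hn
    obtain ⟨a, ha, e, k, k', h1, h2⟩ := hB2 ⟨t.rs i, hn'⟩
    have h1' : (k : e ⟶ q2) ≫ i ≫ t.ar = k' ≫ a.1.ar := h1
    have h2' : Eq' ((t.rs i).val.res (k : e ⟶ q2)) (a.1.val.res k') := h2
    refine ⟨a.1, ⟨a, ha, rfl⟩, e, (k : e ⟶ q2) ≫ i, k', ?_, ?_⟩
    · rw [Category.assoc]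
      exact h1'
    · rw [Pt.val_rs, Val.res_res] at h2'
      exact h2'

/-- every member of `X` meets the family -/
theorem cover {A : Set (Pt X)} (hA : ∀ t : Pt X, ∃ a ∈ A, t.Meet a) {d : Cond P} (h : d ⟶ c0)
    (x : Val (Cond P) d) (hx : Mem' x (X.res h)) : ∃ a ∈ A, ∃ (e : Cond P) (l1 : e ⟶ d)
      (l2 : e ⟶ a.st), l1 ≫ h = l2 ≫ a.ar ∧ Eq' (x.res l1) (a.val.res l2) := by
  obtain ⟨t, k, h1, h2⟩ := Pt.exists_pt h x hx
  obtain ⟨a, ha, e, k1, k2, h3, h4⟩ := hA t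
  refine ⟨a, ha, e, k1 ≫ k, k2, ?_, ?_⟩
  · rw [Category.assoc, h1, h3]
  · have h5 := (h2.res k1)
    rw [Val.res_res] at h5
    exact h5.trans h4

/-- support of a point of `X` is its base -/
def TypeA (a : Pt X) : Prop := ∀ (w : Cond P) (k k' : w ⟶ a.st), k ≫ a.ar = k' ≫ a.ar →
  Eq' (a.val.res k) (a.val.res k')

theorem typeB {a : Pt X} (ha : Nor a.val) (hb : ¬ TypeA a) : a.ar.1 ≠ 1 ∧ ∃ F : Filt P,
    a.ar.1 ∉ F.S ∧ ∀ (w : Cond P) (f g : w ⟶ a.st), Eq' (a.val.res f) (a.val.res g) →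
      ∃ u ∈ F.S, f.1 * u = g.1 * u := by
  constructor
  · intro h1
    apply hb
    intro w k k' h
    have h2 : k.1 * a.ar.1 = k'.1 * a.ar.1 := congrArg Subtype.val h
    rw [h1, mul_one, mul_one] at h2
    have h3 : k = k' := Subtype.ext h2
    rw [h3]
    exact Eq'.refl _
  · rcases ha with ha | ⟨F, hF⟩
    · exact absurd (fun w k k' _ => ha w k k') hb
    · refine ⟨F, fun h1 => hb fun w k k' h => ?_, fun w f g => (hF w f g).1⟩
      exact (hF w k k').2 ⟨_, h1, congrArg Subtype.val h⟩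

/-- codes -/
abbrev Code (P : Type 1) [Monoid P] : Type 1 := (Cond P × P × Cond P × P × P) × Ordinal.{0}

/-- the stage `f0 · c0` -/
def q1 (c0 : Cond P) (f0 : P) : Cond P := ⟨psh f0 c0.q, c0.h.psh f0⟩

/-- the arrow `f0 · c0 ⟶ c0` -/
def hf (c0 : Cond P) (f0 : P) : q1 c0 f0 ⟶ c0 := ⟨f0, subset_rfl⟩

/-- entries: see note 2194 -/
structure Ent (L : LetHyp P f0) (st : Code P → Ordinal.{0}) (f : FRel c0) (A : Set (Pt X))
    (Y : Val (Cond P) c0) : Type 1 where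
  pt : Pt (Y.res (hf c0 f0))
  xi : Pt X
  hxi : xi ∈ A
  eta : pt.st ⟶ xi.st
  heta : eta ≫ xi.ar = pt.ar ≫ hf c0 f0
  prop : (TypeA xi ∧ f.r (pt.ar ≫ hf c0 f0) (xi.val.res eta) pt.val) ∨
    (¬ TypeA xi ∧ ∃ (F : Filt P) (D e : Cond P) (l l2 : P) (β0 : Ordinal.{0}),
      NorP pt.val pt.ar.1 F ∧
      eta.1 = L.Let (st ((D, pt.ar.1, e, l, l2), β0)) F xi.ar.1 pt.ar.1 ∧
      L.good (st ((D, pt.ar.1, e, l, l2), β0)) F xi.ar.1 pt.ar.1 ∧
      pt.st.q = D.q ∪ psh eta.1 xi.st.q ∧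
      IsCond (e.q ∪ psh l pt.st.q) ∧
      psh l2 xi.st.q ⊆ e.q ∧
      l2 * xi.ar.1 = l * (pt.ar.1 * f0) ∧
      ∀ (w : Cond P) (l' : w ⟶ pt.st) (l2' : w ⟶ xi.st), l'.1 = l → l2'.1 = l2 → e.q ⊆ w.q →
        f.r (l' ≫ pt.ar ≫ hf c0 f0) (xi.val.res l2') (pt.val.res l'))


namespace Ent

variable {X Y : Val (Cond P) c0} {f : FRel c0} {L : LetHyp P f0} {st : Code P → Ordinal.{0}}
  {A : Set (Pt X)}

/-- two entries meet if their points meet -/
def Meet (a b : Ent L st f A Y) : Prop := a.pt.Meet b.pt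

/-- value in `X` of the entry -/
def xv (a : Ent L st f A Y) : Val (Cond P) a.pt.st := a.xi.val.res a.eta

theorem xv_mem (a : Ent L st f A Y) : Mem' a.xv (X.res (a.pt.ar ≫ hf c0 f0)) := by
  have h := a.xi.mem.res a.eta
  rw [Val.res_res, a.heta] at h
  exact h

/-- (J) `=>` inside one entry -/
theorem J_self (a : Ent L st f A Y) {w : Cond P} (k k' : w ⟶ a.pt.st)
    (hk : k ≫ a.pt.ar = k' ≫ a.pt.ar) (h : Eq' (a.pt.val.res k) (a.pt.val.res k')) :
    Eq' (a.xv.res k) (a.xv.res k') := by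
  unfold xv
  rw [Val.res_res, Val.res_res]
  rcases a.prop with ⟨hA, -⟩ | ⟨-, F, D, e, l, l2, β0, hN, heta, hgood, -⟩
  · apply hA
    rw [Category.assoc, Category.assoc, a.heta, ← Category.assoc, hk, Category.assoc]
  · have h1 : k.1 * a.pt.ar.1 = k'.1 * a.pt.ar.1 := congrArg Subtype.val hk
    obtain ⟨u, hu, hu'⟩ := (hN w k k').1 ⟨h1, h⟩
    obtain ⟨t, ht⟩ := L.mem _ _ _ _ hgood u hu
    have h2 : k ≫ a.eta = k' ≫ a.eta := by
      apply Subtype.ext
      rw [comp_val, comp_val, heta, ht, ← mul_assoc, ← mul_assoc, hu']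
    rw [h2]
    exact Eq'.refl _

/-- (J) `<=` : equal values of `X` -/
theorem J_inj (hst : Function.Injective st) (hA1 : ∀ a ∈ A, Nor a.val)
    (hA2 : ∀ a ∈ A, ∀ b ∈ A, a.Meet b → a = b)
    (hfn : ∀ {d : Cond P} (h : d ⟶ c0) (x y y' : Val (Cond P) d), Mem' x (X.res h) → f.r h x y →
      f.r h x y' → Eq' y y')
    (a b : Ent L st f A Y) (hab : a.Meet b → a = b) {w : Cond P} (k : w ⟶ a.pt.st)
    (k' : w ⟶ b.pt.st) (hk : k ≫ a.pt.ar = k' ≫ b.pt.ar) (h : Eq' (a.xv.res k) (b.xv.res k')) :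
    Eq' (a.pt.val.res k) (b.pt.val.res k') := by
  unfold xv at h
  rw [Val.res_res, Val.res_res] at h
  have h0 : (k ≫ a.eta) ≫ a.xi.ar = (k' ≫ b.eta) ≫ b.xi.ar := by
    rw [Category.assoc, Category.assoc, a.heta, b.heta, ← Category.assoc, hk, Category.assoc]
  have hpt : a.pt.Meet b.pt → a.pt = b.pt := fun h => by rw [hab h]
  clear hab
  have hxi : a.xi = b.xi := hA2 _ a.hxi _ b.hxi ⟨w, k ≫ a.eta, k' ≫ b.eta, h0, h⟩
  obtain ⟨pt, xi, hx, eta, heta, prop⟩ := a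
  obtain ⟨pt', xi', hx', eta', heta', prop'⟩ := b
  dsimp only at hxi hpt k k' hk h h0 ⊢
  subst hxi
  rcases prop with ⟨hA, hr⟩ | ⟨hB, F, D, e, l, l2, β0, hN, he, hgood, hq, hc, hl2, hbase, hrr⟩
  · rcases prop' with ⟨hA', hr'⟩ | ⟨hB', -⟩
    · have h1 := f.mono _ k _ _ hr
      have h2 := f.mono _ k' _ _ hr'
      rw [Val.res_res] at h1 h2
      rw [← Category.assoc, ← hk, Category.assoc] at h2
      refine hfn _ _ _ _ ?_ h1 (f.congr _ _ _ _ _ h.symm (Eq'.refl _) h2)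
      have h3 := xi.mem.res (k ≫ eta)
      rw [Val.res_res, Category.assoc, heta] at h3
      exact h3
    · exact absurd hA hB'
  · rcases prop' with ⟨hA', hr'⟩ | ⟨-, F', D', e', l', l2', β0', hN', he', hgood', hq', hc', hl2', -, hrr'⟩
    · exact absurd hA' hB
    · obtain ⟨-, Fx, haF, hFx⟩ := typeB (hA1 _ hx) hB
      obtain ⟨z, hz, hz'⟩ := hFx w _ _ h
      have haz : ¬ xi.ar.1 ∣ z := fun hd => haF (Fx.up _ _ hd hz)
      have hkk : k.1 * pt.ar.1 = k'.1 * pt'.ar.1 := congrArg Subtype.val hk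
      rw [comp_val, comp_val, he, he'] at hz'
      obtain ⟨hβ, hLL, u, hu, huu⟩ := L.T2 _ _ _ _ _ _ _ _ _ _ hgood hgood' hkk hz' haz
      have hcode := hst hβ
      simp only [Prod.mk.injEq] at hcode
      obtain ⟨⟨hD, hp, hee, hll, hll2⟩, -⟩ := hcode
      subst hD hee hll hll2
      -- the two entries meet
      have hq2 : pt'.st.q = pt.st.q := by rw [hq, hq', he, he', hLL]
      let w2 : Cond P := ⟨e.q ∪ psh l pt.st.q, hc⟩
      let m : w2 ⟶ pt.st := ⟨l, Set.subset_union_right⟩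
      let m' : w2 ⟶ pt'.st := ⟨l, by rw [hq2]; exact Set.subset_union_right⟩
      let n : w2 ⟶ xi.st := ⟨l2, hl2.trans Set.subset_union_left⟩
      have hmm : m ≫ pt.ar = m' ≫ pt'.ar := by
        apply Subtype.ext
        show l * pt.ar.1 = l * pt'.ar.1
        rw [hp]
      have hr1 := hrr w2 m n rfl rfl Set.subset_union_left
      have hr2 := hrr' w2 m' n rfl rfl Set.subset_union_left
      have hmm2 : m' ≫ pt'.ar ≫ hf c0 f0 = m ≫ pt.ar ≫ hf c0 f0 := by
        rw [← Category.assoc, ← hmm, Category.assoc]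
      rw [hmm2] at hr2
      have hn : n ≫ xi.ar = m ≫ pt.ar ≫ hf c0 f0 := Subtype.ext hbase
      have hmem := xi.mem.res n
      rw [Val.res_res, hn] at hmem
      obtain rfl := hpt ⟨w2, m, m', hmm, hfn _ _ _ _ hmem hr1 hr2⟩
      exact ((hN w k k').2 ⟨u, hu, huu⟩).2

end Ent

theorem NorP.mono {d d' : Cond P} {y : Val (Cond P) d} {p : P} {F : Filt P} (h : NorP y p F)
    (i : d' ⟶ d) (hi : i.1 = 1) : NorP (y.res i) p F := by
  intro w f g
  have h1 := h w (f ≫ i) (g ≫ i)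
  rw [comp_val, comp_val, hi, mul_one, mul_one] at h1
  rw [Val.res_res, Val.res_res]
  exact h1

/-- **entries are dense** -/
theorem dense_ent (f : FRel c0) {X Y : Val (Cond P) c0} (L : LetHyp P f0)
    {st : Code P → Ordinal.{0}} (hst : ∀ k, k.2 ≤ st k) (hG : Gen' P) (hA : Amal P)
    (hN : NormHyp P) (hf0 : f0 ≠ 1) {A : Set (Pt X)} (hA1 : ∀ a ∈ A, Nor a.val)
    (hA3 : ∀ t : Pt X, ∃ a ∈ A, t.Meet a)
    (honto : ∀ {d : Cond P} (h : d ⟶ c0) (y : Val (Cond P) d), Mem' y (Y.res h) →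
      ∃ (d2 : Cond P) (m : d2 ⟶ d) (x : Val (Cond P) d2), Mem' x (X.res (m ≫ h)) ∧
        f.r (m ≫ h) x (y.res m))
    (t : Pt (Y.res (hf c0 f0))) : ∃ (a : Ent L st f A Y) (d' : Cond P) (k : d' ⟶ t.st),
      a.pt = t.rs k := by
  have hy : Mem' t.val (Y.res (t.ar ≫ hf c0 f0)) := by
    have := t.mem
    rwa [Val.res_res] at this
  obtain ⟨d2, m, x, hx, hr⟩ := honto _ _ hy
  obtain ⟨xi, hxi, e1, l1, l2, h1, h2⟩ := cover hA3 _ x hx
  have hr1 := f.mono _ l1 _ _ hr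
  rw [Val.res_res] at hr1
  have hr2 := f.congr _ _ _ _ _ h2 (Eq'.refl _) hr1
  clear hr hr1
  obtain ⟨l, hl⟩ : ∃ l : e1 ⟶ t.st, l = l1 ≫ m := ⟨_, rfl⟩
  rw [← hl] at hr2
  have hbase : l ≫ t.ar ≫ hf c0 f0 = l2 ≫ xi.ar := by
    rw [← h1, hl, Category.assoc]
  have hr3 : f.r (l ≫ t.ar ≫ hf c0 f0) (xi.val.res l2) (t.val.res l) := by
    have h3 : l1 ≫ m ≫ t.ar ≫ hf c0 f0 = l ≫ t.ar ≫ hf c0 f0 := by rw [hl, Category.assoc]
    rw [← h3]
    exact hr2
  clear hr2 h1 h2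
  -- full restriction along `l`
  let D1 : Cond P := ⟨pul l.1 e1.q, e1.h.pul l.1⟩
  let i1 : D1 ⟶ t.st := ⟨1, by rw [psh_one]; exact psh_subset_iff_pul.1 l.2⟩
  obtain ⟨D, i2, F, hi2, hNP, hFp⟩ := hN.two D1 (t.val.res i1) t.ar.1
  have hD1 : pul l.1 e1.q ⊆ D.q := by
    have := i2.2
    rwa [hi2, psh_one] at this
  have he : IsCond (e1.q ∪ psh l.1 D.q) := by
    refine e1.h.union (D.h.psh l.1) fun s b h1 h2 => ?_
    obtain ⟨r, hr, rfl⟩ := mem_psh.1 h2
    exact D.h.con r b (hD1 h1) hr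
  let e : Cond P := ⟨e1.q ∪ psh l.1 D.q, he⟩
  have hDe : D.q = pul l.1 e.q := by
    apply Set.Subset.antisymm
    · exact psh_subset_iff_pul.1 Set.subset_union_right
    · rintro ⟨r, b⟩ h
      rw [mem_pul] at h
      rcases h with h | h
      · exact hD1 h
      · rwa [mul_mem_psh] at h
  have hl2e : psh l2.1 xi.st.q ⊆ e.q := l2.2.trans Set.subset_union_left
  have hbase1 : l2.1 * xi.ar.1 = l.1 * (t.ar.1 * f0) := (congrArg Subtype.val hbase).symm
  -- the surjection above `e`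
  have hfr : ∀ (w : Cond P) (l' : w ⟶ D) (l2' : w ⟶ xi.st), l'.1 = l.1 → l2'.1 = l2.1 →
      e.q ⊆ w.q → f.r (l' ≫ (i2 ≫ i1) ≫ t.ar ≫ hf c0 f0) (xi.val.res l2')
        ((t.val.res (i2 ≫ i1)).res l') := by
    intro w l' l2' hl' hl2' hw
    let j : w ⟶ e1 := ⟨1, by rw [psh_one]; exact Set.subset_union_left.trans hw⟩
    have h1 := f.mono _ j _ _ hr3
    rw [Val.res_res, Val.res_res] at h1
    have h2 : j ≫ l2 = l2' := Subtype.ext (by rw [comp_val, hl2']; exact one_mul _)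
    have h3 : j ≫ l = l' ≫ i2 ≫ i1 := Subtype.ext (by
      rw [comp_val, comp_val, comp_val, hl', hi2]
      show 1 * l.1 = l.1 * (1 * 1)
      simp)
    rw [h2, h3] at h1
    rw [Val.res_res]
    have h4 : l' ≫ (i2 ≫ i1) ≫ t.ar ≫ hf c0 f0 = j ≫ l ≫ t.ar ≫ hf c0 f0 := by
      rw [← Category.assoc, ← h3, Category.assoc]
    rw [h4]
    exact h1
  -- compatibility of generic copies
  have hcomp : ∀ η : P, η * xi.ar.1 = t.ar.1 * f0 →
      (∀ x, η * x ∈ Prod.fst '' D.q → (t.ar.1 * f0) ∣ η * x) →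
      IsCond (D.q ∪ psh η xi.st.q) := by
    intro η hη hgen
    refine D.h.union (xi.st.h.psh η) fun s b h1 h2 => ?_
    obtain ⟨r, hr, rfl⟩ := mem_psh.1 h2
    obtain ⟨v, hv⟩ := hgen r ⟨_, h1, rfl⟩
    have h3 : r = xi.ar.1 * v := by
      apply IsGood.lc η
      rw [hv, ← hη, mul_assoc]
    have h4 : (l2.1 * r, Lab.neg b) ∈ e.q := hl2e (mem_psh.2 ⟨r, hr, rfl⟩)
    have h5 : l2.1 * r = l.1 * (η * r) := by
      rw [hv, h3, ← mul_assoc, hbase1, mul_assoc]
    rw [h5] at h4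
    have h6 : (l.1 * (η * r), b) ∈ e.q := by
      have : (η * r, b) ∈ pul l.1 e.q := hDe ▸ h1
      exact this
    exact e.h.con _ _ h6 h4
  have hsm : Small.{0} (Prod.fst '' D.q) := by
    have := D.h.small
    infer_instance
  have hb1 : t.ar.1 * f0 ≠ 1 := by
    intro h
    have h1 := IsGood.unit _ _ h
    rw [h1, one_mul] at h
    exact hf0 h
  by_cases hT : TypeA xi
  · -- type A
    obtain ⟨η, hη, hgen⟩ := hG xi.ar.1 (t.ar.1 * f0) _ hsm hb1
    have hc := hcomp η hη hgen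
    let d'' : Cond P := ⟨D.q ∪ psh η xi.st.q, hc⟩
    let i3 : d'' ⟶ D := ⟨1, by rw [psh_one]; exact Set.subset_union_left⟩
    let et : d'' ⟶ xi.st := ⟨η, Set.subset_union_right⟩
    let e'' : Cond P := ⟨e.q ∪ psh l.1 d''.q, isCond_push e.h hDe hc⟩
    let l'' : e'' ⟶ d'' := ⟨l.1, Set.subset_union_right⟩
    have hpar : (t.rs (i3 ≫ i2 ≫ i1)).ar.1 = t.ar.1 := by
      show (1 * (i2.1 * 1)) * t.ar.1 = t.ar.1
      rw [hi2]; simp
    have heta : et ≫ xi.ar = (t.rs (i3 ≫ i2 ≫ i1)).ar ≫ hf c0 f0 := by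
      apply Subtype.ext
      show η * xi.ar.1 = (t.rs (i3 ≫ i2 ≫ i1)).ar.1 * f0
      rw [hpar, hη]
    have hloc : f.r (𝟙 d'' ≫ (i3 ≫ i2 ≫ i1) ≫ t.ar ≫ hf c0 f0) (xi.val.res (𝟙 d'' ≫ et))
        ((t.val.res (i3 ≫ i2 ≫ i1)).res (𝟙 d'')) := by
      refine local' hA l'' (pul_push hDe) (fun w g =>
        f.r (g ≫ (i3 ≫ i2 ≫ i1) ≫ t.ar ≫ hf c0 f0) (xi.val.res (g ≫ et))
          ((t.val.res (i3 ≫ i2 ≫ i1)).res g)) ?_ ?_ ?_
      · intro w w' h g H
        have := f.mono _ g _ _ H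
        simp only [Val.res_res, Category.assoc] at this ⊢
        exact this
      · intro w h H
        refine f.dense _ _ _ fun w1 g => ?_
        obtain ⟨w2, m', H'⟩ := H w1 g
        refine ⟨w2, m', ?_⟩
        simp only [Val.res_res, Category.assoc] at H' ⊢
        exact H'
      · have h1 := hfr e'' (l'' ≫ i3) ⟨l2.1, hl2e.trans Set.subset_union_left⟩
          (by show l.1 * 1 = l.1; rw [mul_one]) rfl Set.subset_union_left
        have h2 := hT e'' ⟨l2.1, hl2e.trans Set.subset_union_left⟩ (l'' ≫ et) (by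
          apply Subtype.ext
          show l2.1 * xi.ar.1 = (l.1 * η) * xi.ar.1
          rw [mul_assoc, hη, hbase1])
        have h3 := f.congr _ _ _ _ _ h2 (Eq'.refl _) h1
        simp only [Val.res_res, Category.assoc] at h3 ⊢
        exact h3
    refine ⟨⟨t.rs (i3 ≫ i2 ≫ i1), xi, hxi, et, heta, Or.inl ⟨hT, ?_⟩⟩, d'', i3 ≫ i2 ≫ i1, rfl⟩
    rw [Pt.val_rs]
    simp only [Category.id_comp, Val.res_id] at hloc
    have hassoc : (t.rs (i3 ≫ i2 ≫ i1)).ar ≫ hf c0 f0 = (i3 ≫ i2 ≫ i1) ≫ t.ar ≫ hf c0 f0 :=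
      Category.assoc _ _ _
    rw [hassoc]
    exact hloc
  · -- type B
    obtain ⟨ha1, -⟩ := typeB (hA1 _ hxi) hT
    obtain ⟨β0, hβ0⟩ := L.ev F xi.ar.1 t.ar.1 _ hsm ha1 hFp
    obtain ⟨hgood, hgen⟩ := hβ0 (st ((D, t.ar.1, e, l.1, l2.1), β0)) (hst _)
    obtain ⟨η, hηdef⟩ : ∃ η, η = L.Let (st ((D, t.ar.1, e, l.1, l2.1), β0)) F xi.ar.1 t.ar.1 :=
      ⟨_, rfl⟩
    rw [← hηdef] at hgen
    have hη : η * xi.ar.1 = t.ar.1 * f0 := by rw [hηdef]; exact L.rel _ _ _ _ hgood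
    have hc := hcomp η hη hgen
    let d'' : Cond P := ⟨D.q ∪ psh η xi.st.q, hc⟩
    let i3 : d'' ⟶ D := ⟨1, by rw [psh_one]; exact Set.subset_union_left⟩
    let et : d'' ⟶ xi.st := ⟨η, Set.subset_union_right⟩
    have hpar : (t.rs (i3 ≫ i2 ≫ i1)).ar.1 = t.ar.1 := by
      show (1 * (i2.1 * 1)) * t.ar.1 = t.ar.1
      rw [hi2]; simp
    have heta : et ≫ xi.ar = (t.rs (i3 ≫ i2 ≫ i1)).ar ≫ hf c0 f0 := by
      apply Subtype.ext
      show η * xi.ar.1 = (t.rs (i3 ≫ i2 ≫ i1)).ar.1 * f0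
      rw [hpar, hη]
    refine ⟨⟨t.rs (i3 ≫ i2 ≫ i1), xi, hxi, et, heta, Or.inr ⟨hT, F, D, e, l.1, l2.1, β0,
      ?_, ?_, ?_, rfl, isCond_push e.h hDe hc, hl2e, ?_, ?_⟩⟩, d'', i3 ≫ i2 ≫ i1, rfl⟩
    · rw [hpar, Pt.val_rs]
      have h1 := hNP.mono i3 rfl
      simp only [Val.res_res] at h1
      exact h1
    · rw [hpar]; exact hηdef
    · rw [hpar]; exact hgood
    · rw [hpar]; exact hbase1
    · intro w l' l2' hl' hl2' hw
      rw [Pt.val_rs]
      have h1 := hfr w (l' ≫ i3) l2' (by rw [comp_val, hl']; show l.1 * 1 = l.1; rw [mul_one]) hl2' hw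
      simp only [Val.res_res, Category.assoc] at h1 ⊢
      exact h1

end main

end Crest.Agent.R296.PPcx564
end

-- ▼ part R296/PP_564
section

/-!
# Row 296 (S0448), block C (helper564): `PPOut (Cond P)` from the hypotheses of `PPc_564`
-/

set_option autoImplicit false
set_option linter.unusedSectionVars false
set_option linter.unusedVariables false

open CategoryTheory

namespace Crest.Agent.R296.PPx564

open Crest.Agent.R296.IfAx378 Crest.Agent.R296.CondCx153 Crest.Agent.R296.CatFx365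
open Crest.Agent.R296.PPcx564 Crest.Agent.R296.PPBrx365

variable {P : Type 1} [Monoid P] [IsGood P]

/-- the forced relation of a `SurR` -/
def frelOf {q : Cond P} {X Y : Val (Cond P) q}
    {R : ∀ d : Cond P, (d ⟶ q) → Val (Cond P) d → Val (Cond P) d → Prop} (S : SurR X Y R) : FRel q where
  r h x y := R _ h x y
  mono h g x y H := S.mono h g x y H
  dense h x y H := S.dense h x y H
  congr h x x' y y' hx hy H := S.congr h x x' y y' hx hy H

theorem meet_rs {q : Cond P} {Z : Val (Cond P) q} {s t b : Pt Z} {d' : Cond P} {k : d' ⟶ t.st}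
    (h : s = t.rs k) (H : s.Meet b) : ∃ (e : Cond P) (k3 : e ⟶ d') (k4 : e ⟶ b.st),
      (k3 ≫ k) ≫ t.ar = k4 ≫ b.ar ∧ Eq' (t.val.res (k3 ≫ k)) (b.val.res k4) := by
  subst h
  obtain ⟨e, k3, k4, h1, h2⟩ := H
  refine ⟨e, k3, k4, ?_, ?_⟩
  · rw [Category.assoc]
    exact h1
  · rw [Pt.val_rs, Val.res_res] at h2
    exact h2

/-- **PP** -/
theorem ppOut {f0 : P} (hf0 : f0 ≠ 1) (L : LetHyp P f0) (hG : Gen' P) (hA : Amal P)
    (hN : NormHyp P) (hC : CodeHyp P) : PPOut (Cond P) := by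
  intro q X Y R S
  obtain ⟨st, hst, hst2⟩ := hC
  obtain ⟨A, hA1, hA2, hA3⟩ := exists_normal_family hN X
  let f : FRel q := frelOf S
  have hfn : ∀ {d : Cond P} (h : d ⟶ q) (x y y' : Val (Cond P) d), Mem' x (X.res h) → f.r h x y →
      f.r h x y' → Eq' y y' := fun h x y y' hx h1 h2 => S.fn h x y y' hx h1 h2
  have honto : ∀ {d : Cond P} (h : d ⟶ q) (y : Val (Cond P) d), Mem' y (Y.res h) →
      ∃ (d2 : Cond P) (m : d2 ⟶ d) (x : Val (Cond P) d2), Mem' x (X.res (m ≫ h)) ∧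
        f.r (m ≫ h) x (y.res m) := by
    intro d h y hy
    obtain ⟨d2, m, x, h1, h2⟩ := S.onto h y hy d (𝟙 d)
    rw [Category.comp_id] at h1 h2
    exact ⟨d2, m, x, h1, h2⟩
  obtain ⟨B, hB1, hB2⟩ := exists_max (E := Ent L st f A Y) Ent.Meet
    (fun a => Pt.Meet.refl _) (fun a b h => Pt.Meet.symm h)
  refine ⟨q1 q f0, hf q f0, ⟨⟨B, fun a => a.1.pt.st, fun a => a.1.pt.ar, fun a => a.1.pt.val,
    fun a => a.1.xv, ?_, ?_, ?_⟩⟩⟩
  · intro a
    have := a.1.xv_mem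
    rwa [Val.res_res]
  · intro d h z hz d1 l
    have hz' : Mem' (z.res l) ((Y.res (hf q f0)).res (l ≫ h)) := by
      have := hz.res l
      rwa [Val.res_res h l] at this
    obtain ⟨t, k, h1, h2⟩ := Pt.exists_pt (l ≫ h) (z.res l) hz'
    obtain ⟨a, d', k2, h3⟩ := dense_ent f L (st := st) hst2 hG hA hN hf0 hA1 hA3 honto t
    obtain ⟨b, hb, hab⟩ := hB2 a
    obtain ⟨e, k3, k4, h4, h5⟩ := meet_rs h3 hab
    refine ⟨e, (k3 ≫ k2) ≫ k, ⟨b, hb⟩, k4, ?_, ?_⟩
    · rw [Category.assoc _ l h, Category.assoc _ k (l ≫ h), h1]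
      exact h4
    · have h6 := h2.res (k3 ≫ k2)
      rw [Val.res_res, Val.res_res] at h6
      exact h6.trans h5
  · intro a a' d k k' hk
    constructor
    · intro H
      have h1 : a.1 = a'.1 := hB1 _ a.2 _ a'.2 ⟨d, k, k', hk, H⟩
      have h2 : a = a' := Subtype.ext h1
      subst h2
      exact a.1.J_self k k' hk H
    · intro H
      exact Ent.J_inj hst hA1 hA2 hfn a.1 a'.1 (fun h => hB1 _ a.2 _ a'.2 h) k k' hk H

end Crest.Agent.R296.PPx564
end

-- ▼ part R296/Lct_153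
section

/-!
# Row 296 (S0448), block C (helper153): PROOF of the labelled classification theorem (rigid form)

`lct : Kit P A → LCT P`.
-/

set_option autoImplicit false
set_option linter.unusedSectionVars false
set_option linter.unusedVariables false

open CategoryTheory

namespace Crest.Agent.R296.Lctx153

open Crest.Agent.R296.IfAx378 Crest.Agent.R296.CondCx153 Crest.Agent.R296.CatFx365
  Crest.Agent.R296.LctStx153

variable {P : Type 1} [Monoid P] [IsGood P] {A : Ordinal.{0} → Submonoid P}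

/-! ### generalities -/

theorem left_ne_one {a b : P} (h : a ≠ 1) : a * b ≠ 1 := fun h' => h (IsGood.unit _ _ h')


theorem lc {a b c : P} (h : a * b = a * c) : b = c := IsGood.lc _ _ _ h

/-- the points of a condition -/
def pts (w : Set (P × Lab)) : Set P := Prod.fst '' w

theorem small_pts {w : Set (P × Lab)} (h : IsCond w) : Small.{0} (pts w) := by
  have := h.small
  unfold pts
  infer_instance

theorem mem_pts {w : Set (P × Lab)} {p : P} {l : Lab} (h : (p, l) ∈ w) : p ∈ pts w :=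
  ⟨(p, l), h, rfl⟩

theorem isLcm_symm {f g u v : P} (h : IsLcm f g u v) : IsLcm g f v u := by
  refine ⟨h.1.symm, fun x y hxy => ?_⟩
  obtain ⟨t, h1, h2⟩ := h.2 y x hxy.symm
  exact ⟨t, h2, h1⟩

theorem isLcm_mul {f g u v : P} (h : IsLcm f g u v) (k : P) : IsLcm (k * f) (k * g) u v := by
  refine ⟨by rw [mul_assoc, mul_assoc, h.1], fun x y hxy => h.2 x y ?_⟩
  rw [mul_assoc, mul_assoc] at hxy
  exact lc hxy

theorem disj_mul {f g : P} (h : Disj f g) (k : P) : Disj (k * f) (k * g) := by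
  intro x y hxy
  rw [mul_assoc, mul_assoc] at hxy
  exact h x y (lc hxy)

theorem isLcm_of_partner {F z u : P} (hz : z * u = F * u) (H : ∀ x, F ∣ z * x → F * u ∣ z * x) :
    IsLcm F z u u := by
  refine ⟨hz.symm, fun x y hxy => ?_⟩
  obtain ⟨t, ht⟩ := H y ⟨x, hxy.symm⟩
  have h1 : y = u * t := by
    apply lc (a := z)
    rw [ht, ← hz, mul_assoc]
  refine ⟨t, ?_, h1⟩
  apply lc (a := F)
  rw [hxy, ht, mul_assoc]

theorem lcm_or_disj (f g : P) : Disj f g ∨ ∃ u v, IsLcm f g u v := by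
  by_cases h : Disj f g
  · exact Or.inl h
  · right
    unfold Disj at h
    push Not at h
    obtain ⟨x, y, hxy⟩ := h
    obtain ⟨u, v, h1, h2⟩ := IsGood.lcm _ _ _ _ hxy
    exact ⟨u, v, h1, h2⟩

/-- **generic partner** -/
theorem partner (K : Kit P A) {w q : Set (P × Lab)} (hw : IsCond w) (hq : IsCond q) {ρ b : P}
    (hρ : ρ ≠ 1) (hb : b ≠ 1) (S0 : Set P) (hS0 : Small.{0} S0)
    (hlab : ∀ y l, (ρ * y, l) ∈ q → (b * y, Lab.neg l) ∉ w) :
    ∃ z, z * ρ = b ∧ z ≠ 1 ∧ (∀ s ∈ S0, s ≠ 1 → ∀ x, s ∣ z * x → b ∣ z * x) ∧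
      IsCond (w ∪ psh z q) := by
  obtain ⟨k, hk1, hk⟩ := K.letr {b} inferInstance (by simpa using hb.symm)
  have hkb : Disj k b := hk b rfl
  have := small_pts hw
  obtain ⟨z, hz, hS⟩ := K.gen ρ b ((S0 ∪ pts w ∪ {k}) \ {1}) hρ hb
    (small_subset Set.sdiff_subset) (by simp)
  have hz1 : z ≠ 1 := by
    rintro rfl
    obtain ⟨t, ht⟩ := hS k ⟨Or.inr rfl, by simpa using hk1⟩ k (by rw [one_mul])
    rw [one_mul] at ht
    exact hkb 1 t (by rw [mul_one, ht])
  refine ⟨z, hz, hz1, fun s hs hs1 => hS s ⟨Or.inl (Or.inl hs), by simpa using hs1⟩, ?_⟩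
  refine hw.union (hq.psh z) fun p l hp hp' => ?_
  obtain ⟨s, hs, rfl⟩ := mem_psh.1 hp'
  have h1 : z * s ∈ (S0 ∪ pts w ∪ {k}) \ {1} :=
    ⟨Or.inl (Or.inr (mem_pts hp)), by simpa using left_ne_one hz1⟩
  obtain ⟨t, ht⟩ := hS _ h1 s dvd_rfl
  have h2 : s = ρ * t := by
    apply lc (a := z)
    rw [ht, ← hz, mul_assoc]
  rw [h2] at hs
  refine hlab t _ hs ?_
  rw [Lab.neg_neg, ← ht]
  exact hp

/-! ### local relations -/

section loc
variable {q1 : Cond P} (E : LocRel q1)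

theorem E_congr {w : Cond P} {f f' g g' : w ⟶ q1} (hf : f.1 = f'.1) (hg : g.1 = g'.1)
    (h : E.E w f g) : E.E w f' g' := by
  rwa [show f' = f from (hom_ext _ _ hf).symm, show g' = g from (hom_ext _ _ hg).symm]

/-- locality, restricted to arrows different from one -/
theorem loc2 (K : Kit P A) (w : Cond P) (f g : w ⟶ q1)
    (H : ∀ (w' : Cond P) (h : w' ⟶ w), h.1 ≠ 1 →
      ∃ (w'' : Cond P) (h' : w'' ⟶ w'), E.E w'' ((h' ≫ h) ≫ f) ((h' ≫ h) ≫ g)) : E.E w f g := by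
  obtain ⟨k, hk, _⟩ := K.letr ∅ inferInstance (by simp)
  refine E.loc w f g fun w' h => ?_
  let w2 : Cond P := ⟨psh k w'.q, w'.h.psh k⟩
  let a : w2 ⟶ w' := ⟨k, subset_rfl⟩
  obtain ⟨w3, h', h3⟩ := H w2 (a ≫ h) (left_ne_one hk)
  refine ⟨w3, h' ≫ a, ?_⟩
  exact E_congr E (by simp) (by simp) h3

/-- `u` supports the relation below the labels `q` -/
def Good (q : Set (P × Lab)) (u : P) : Prop := ∀ (w : Cond P) (f g : w ⟶ q1),
  psh f.1 q ⊆ w.q → psh g.1 q ⊆ w.q → f.1 * u = g.1 * u → E.E w f g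

/-- the relation is total below the labels `q` -/
def Tot (q : Set (P × Lab)) : Prop := ∀ (w : Cond P) (f g : w ⟶ q1),
  psh f.1 q ⊆ w.q → psh g.1 q ⊆ w.q → E.E w f g

theorem Good.mono {q q' : Set (P × Lab)} (h : q ⊆ q') {u : P} (H : Good E q u) : Good E q' u :=
  fun w f g hf hg he => H w f g ((psh_mono _ h).trans hf) ((psh_mono _ h).trans hg) he

theorem good_one (q : Set (P × Lab)) : Good E q 1 := by
  intro w f g _ _ he
  rw [mul_one, mul_one] at he
  rw [show f = g from hom_ext _ _ he]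
  exact E.refl w g

theorem Good.up {q : Set (P × Lab)} {x s : P} (h : x ∣ s) (H : Good E q s) : Good E q x := by
  obtain ⟨c, rfl⟩ := h
  intro w f g hf hg he
  exact H w f g hf hg (by rw [← mul_assoc, ← mul_assoc, he])

theorem arrow_sub {w : Cond P} (f : w ⟶ q1) : q1.q ⊆ pul f.1 w.q := psh_subset_iff_pul.1 f.2

/-- the arrow to `q1` with value `z` -/
def ar (w : Cond P) (z : P) (q : Set (P × Lab)) (hq : q1.q ⊆ q) (h : psh z q ⊆ w.q) : w ⟶ q1 :=
  ⟨z, (psh_mono z hq).trans h⟩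

theorem claim1_free (K : Kit P A) {w : Cond P} {f g : w ⟶ q1} (hE : E.E w f g) {u v : P}
    (hl : IsLcm f.1 g.1 u v) {w' : Cond P} {f' g' : w' ⟶ q1}
    (hf : psh f'.1 (pul f.1 w.q) ⊆ w'.q) (hg : psh g'.1 (pul f.1 w.q) ⊆ w'.q)
    (hl' : IsLcm f'.1 g'.1 u u) : E.E w' f' g' := by
  refine E.loc w' f' g' fun w2 h => ?_
  obtain ⟨k, h1, h2, e1, e2, e3, i1, i2, i3⟩ :=
    K.tri f.1 g.1 u v (h.1 * f'.1) (h.1 * g'.1) hl (isLcm_mul hl' h.1)
  have hf2 : psh (h.1 * f'.1) (pul f.1 w.q) ⊆ w2.q := psh_comp hf h.2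
  have hg2 : psh (h.1 * g'.1) (pul f.1 w.q) ⊆ w2.q := psh_comp hg h.2
  have c1 : IsCond (psh k w2.q ∪ psh h1 w.q) := by
    refine (w2.h.psh k).union (w.h.psh h1) fun p l hp hp' => ?_
    obtain ⟨s, hs, rfl⟩ := mem_psh.1 hp
    obtain ⟨t, ht, hst⟩ := mem_psh.1 hp'
    obtain ⟨r, rfl, rfl⟩ := i1 s t hst
    exact w2.h.con _ _ hs (psh_subset.1 hf2 _ _ ht)
  have c2 : IsCond (psh k w2.q ∪ psh h1 w.q ∪ psh h2 w.q) := by
    refine c1.union (w.h.psh h2) fun p l hp hp' => ?_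
    obtain ⟨t, ht, hst⟩ := mem_psh.1 hp'
    rcases hp with hp | hp
    · obtain ⟨s, hs, rfl⟩ := mem_psh.1 hp
      obtain ⟨r, rfl, rfl⟩ := i2 s t hst
      exact w2.h.con _ _ hs (psh_subset.1 hg2 _ _ ht)
    · obtain ⟨s, hs, rfl⟩ := mem_psh.1 hp
      obtain ⟨r, rfl, rfl⟩ := i3 s t hst
      exact w.h.con _ _ hs ht
  let w3 : Cond P := ⟨_, c2⟩
  let ak : w3 ⟶ w2 := ⟨k, fun x hx => Or.inl (Or.inl hx)⟩
  let a1 : w3 ⟶ w := ⟨h1, fun x hx => Or.inl (Or.inr hx)⟩
  let a2 : w3 ⟶ w := ⟨h2, fun x hx => Or.inr hx⟩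
  refine ⟨w3, ak, ?_⟩
  have E1 := E.res a1 f g hE
  have E2 := E.symm _ _ _ (E.res a2 f g hE)
  have E3 : E.E w3 (a1 ≫ f) (a2 ≫ f) :=
    E.trans _ _ _ _ E1 (E_congr E (by simp [a1, a2, e3]) rfl E2)
  refine E_congr E ?_ ?_ E3
  · simp [ak, a1, e1]
  · simp [ak, a2, e2]

theorem claim1 (K : Kit P A) {w : Cond P} {f g : w ⟶ q1} (hE : E.E w f g) {u v : P}
    (hl : IsLcm f.1 g.1 u v) : Good E (pul f.1 w.q) u := by
  intro w' f' g' hf hg he
  by_cases hu : u = 1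
  · subst hu
    exact good_one E _ w' f' g' hf hg he
  refine loc2 E K w' f' g' fun w2 h hh => ?_
  have hf2 : psh (h.1 * f'.1) (pul f.1 w.q) ⊆ w2.q := psh_comp hf h.2
  have hg2 : psh (h.1 * g'.1) (pul f.1 w.q) ⊆ w2.q := psh_comp hg h.2
  have hF1 : h.1 * f'.1 ≠ 1 := left_ne_one hh
  have hG1 : h.1 * g'.1 ≠ 1 := left_ne_one hh
  have he2 : h.1 * g'.1 * u = h.1 * f'.1 * u := by rw [mul_assoc, mul_assoc, he]
  obtain ⟨z, hz, hz1, hS, hc⟩ := partner K w2.h (w.h.pul f.1) hu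
    (b := h.1 * f'.1 * u) (left_ne_one hF1) {h.1 * f'.1, h.1 * g'.1} inferInstance
    (fun y l hy => by
      have h1 := psh_subset.1 hf2 _ _ hy
      rw [← mul_assoc] at h1
      exact w2.h.con _ _ h1)
  let w3 : Cond P := ⟨_, hc⟩
  let a : w3 ⟶ w2 := ⟨1, by rw [psh_one]; exact fun x hx => Or.inl hx⟩
  have hz3 : psh z (pul f.1 w.q) ⊆ w3.q := fun x hx => Or.inr hx
  let b : w3 ⟶ q1 := ar w3 z _ (arrow_sub f) hz3
  refine ⟨w3, a, ?_⟩
  have ef : ((a ≫ h) ≫ f').1 = h.1 * f'.1 := by simp [a]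
  have eg : ((a ≫ h) ≫ g').1 = h.1 * g'.1 := by simp [a]
  have L1 : IsLcm (h.1 * f'.1) z u u :=
    isLcm_of_partner hz (hS _ (Or.inl rfl) hF1)
  have L2 : IsLcm (h.1 * g'.1) z u u :=
    isLcm_of_partner (by rw [hz, he2]) (by rw [he2]; exact hS _ (Or.inr rfl) hG1)
  have hw23 : w2.q ⊆ w3.q := fun x hx => Or.inl hx
  have E1 : E.E w3 ((a ≫ h) ≫ f') b :=
    claim1_free E K hE hl (by rw [ef]; exact hf2.trans hw23) hz3 (by rw [ef]; exact L1)
  have E2 : E.E w3 ((a ≫ h) ≫ g') b :=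
    claim1_free E K hE hl (by rw [eg]; exact hg2.trans hw23) hz3 (by rw [eg]; exact L2)
  exact E.trans _ _ _ _ E1 (E.symm _ _ _ E2)

theorem tot_free (K : Kit P A) {w : Cond P} {f g : w ⟶ q1} (hE : E.E w f g)
    (hl : Disj f.1 g.1) {w' : Cond P} {f' g' : w' ⟶ q1}
    (hf : psh f'.1 (pul f.1 w.q) ⊆ w'.q) (hg : psh g'.1 (pul f.1 w.q) ⊆ w'.q)
    (hl' : Disj f'.1 g'.1) : E.E w' f' g' := by
  refine E.loc w' f' g' fun w2 h => ?_
  obtain ⟨k, h1, h2, e1, e2, e3, i1, i2, i3⟩ :=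
    K.triD f.1 g.1 (h.1 * f'.1) (h.1 * g'.1) hl (disj_mul hl' h.1)
  have hf2 : psh (h.1 * f'.1) (pul f.1 w.q) ⊆ w2.q := psh_comp hf h.2
  have hg2 : psh (h.1 * g'.1) (pul f.1 w.q) ⊆ w2.q := psh_comp hg h.2
  have c1 : IsCond (psh k w2.q ∪ psh h1 w.q) := by
    refine (w2.h.psh k).union (w.h.psh h1) fun p l hp hp' => ?_
    obtain ⟨s, hs, rfl⟩ := mem_psh.1 hp
    obtain ⟨t, ht, hst⟩ := mem_psh.1 hp'
    obtain ⟨r, rfl, rfl⟩ := i1 s t hst
    exact w2.h.con _ _ hs (psh_subset.1 hf2 _ _ ht)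
  have c2 : IsCond (psh k w2.q ∪ psh h1 w.q ∪ psh h2 w.q) := by
    refine c1.union (w.h.psh h2) fun p l hp hp' => ?_
    obtain ⟨t, ht, hst⟩ := mem_psh.1 hp'
    rcases hp with hp | hp
    · obtain ⟨s, hs, rfl⟩ := mem_psh.1 hp
      obtain ⟨r, rfl, rfl⟩ := i2 s t hst
      exact w2.h.con _ _ hs (psh_subset.1 hg2 _ _ ht)
    · obtain ⟨s, hs, rfl⟩ := mem_psh.1 hp
      obtain ⟨r, rfl, rfl⟩ := i3 s t hst
      exact w.h.con _ _ hs ht
  let w3 : Cond P := ⟨_, c2⟩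
  let ak : w3 ⟶ w2 := ⟨k, fun x hx => Or.inl (Or.inl hx)⟩
  let a1 : w3 ⟶ w := ⟨h1, fun x hx => Or.inl (Or.inr hx)⟩
  let a2 : w3 ⟶ w := ⟨h2, fun x hx => Or.inr hx⟩
  refine ⟨w3, ak, ?_⟩
  have E1 := E.res a1 f g hE
  have E2 := E.symm _ _ _ (E.res a2 f g hE)
  have E3 : E.E w3 (a1 ≫ f) (a2 ≫ f) :=
    E.trans _ _ _ _ E1 (E_congr E (by simp [a1, a2, e3]) rfl E2)
  refine E_congr E ?_ ?_ E3
  · simp [ak, a1, e1]
  · simp [ak, a2, e2]

theorem tot_of_disj (K : Kit P A) {w : Cond P} {f g : w ⟶ q1} (hE : E.E w f g)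
    (hl : Disj f.1 g.1) : Tot E (pul f.1 w.q) := by
  intro w' f' g' hf hg
  refine loc2 E K w' f' g' fun w2 h hh => ?_
  have hf2 : psh (h.1 * f'.1) (pul f.1 w.q) ⊆ w2.q := psh_comp hf h.2
  have hg2 : psh (h.1 * g'.1) (pul f.1 w.q) ⊆ w2.q := psh_comp hg h.2
  have hF1 : h.1 * f'.1 ≠ 1 := left_ne_one hh
  have hG1 : h.1 * g'.1 ≠ 1 := left_ne_one hh
  have := small_pts w2.h
  obtain ⟨z, hz1, hz⟩ := K.letr (({h.1 * f'.1, h.1 * g'.1} ∪ pts w2.q) \ {1})
    (small_subset Set.sdiff_subset) (by simp)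
  have hc : IsCond (w2.q ∪ psh z (pul f.1 w.q)) := by
    refine w2.h.union ((w.h.pul f.1).psh z) fun p l hp hp' => ?_
    obtain ⟨s, hs, rfl⟩ := mem_psh.1 hp'
    exact hz _ ⟨Or.inr (mem_pts hp), by simpa using left_ne_one hz1⟩ s 1 (by rw [mul_one])
  let w3 : Cond P := ⟨_, hc⟩
  let a : w3 ⟶ w2 := ⟨1, by rw [psh_one]; exact fun x hx => Or.inl hx⟩
  have hz3 : psh z (pul f.1 w.q) ⊆ w3.q := fun x hx => Or.inr hx
  let b : w3 ⟶ q1 := ar w3 z _ (arrow_sub f) hz3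
  refine ⟨w3, a, ?_⟩
  have ef : ((a ≫ h) ≫ f').1 = h.1 * f'.1 := by simp [a]
  have eg : ((a ≫ h) ≫ g').1 = h.1 * g'.1 := by simp [a]
  have L1 : Disj (h.1 * f'.1) z := fun x y hxy =>
    hz _ ⟨Or.inl (Or.inl rfl), by simpa using hF1⟩ y x hxy.symm
  have L2 : Disj (h.1 * g'.1) z := fun x y hxy =>
    hz _ ⟨Or.inl (Or.inr rfl), by simpa using hG1⟩ y x hxy.symm
  have hw23 : w2.q ⊆ w3.q := fun x hx => Or.inl hx
  have E1 : E.E w3 ((a ≫ h) ≫ f') b :=
    tot_free E K hE hl (by rw [ef]; exact hf2.trans hw23) hz3 (by rw [ef]; exact L1)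
  have E2 : E.E w3 ((a ≫ h) ≫ g') b :=
    tot_free E K hE hl (by rw [eg]; exact hg2.trans hw23) hz3 (by rw [eg]; exact L2)
  exact E.trans _ _ _ _ E1 (E.symm _ _ _ E2)

end loc

end Crest.Agent.R296.Lctx153
end

-- ▼ part R296/Lct2_153
section

/-!
# Row 296 (S0448), block C (helper153): PROOF of the labelled classification theorem, part 2

filter of supports, stability, rigid labels, `lct : Kit P A → LCT P`.
-/

set_option autoImplicit false
set_option linter.unusedSectionVars false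
set_option linter.unusedVariables false

open CategoryTheory

namespace Crest.Agent.R296.Lctx153

open Crest.Agent.R296.IfAx378 Crest.Agent.R296.CondCx153 Crest.Agent.R296.CatFx365
  Crest.Agent.R296.LctStx153

variable {P : Type 1} [Monoid P] [IsGood P] {A : Ordinal.{0} → Submonoid P}

/-! ### every filter is generated by some `A α` -/

theorem gen_some (K : Kit P A) (F : Filt P) : ∃ α, GenByA P A F α := by
  classical
  choose st hst using K.exh
  -- witness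
  have hw : ∀ w : P, ∃ s, (∃ u ∈ F.S, ¬ u ∣ w) → s ∈ F.S ∧ ¬ s ∣ w := fun w => by
    by_cases h : ∃ u ∈ F.S, ¬ u ∣ w
    · obtain ⟨u, h1, h2⟩ := h
      exact ⟨u, fun _ => ⟨h1, h2⟩⟩
    · exact ⟨1, fun h' => absurd h' h⟩
  choose wi hwi using hw
  have hg : ∀ α : Ordinal.{0}, ∃ β, α < β ∧ ∀ w ∈ A α, st (wi w) ≤ β := fun α => by
    have := K.small α
    obtain ⟨γ, hγ⟩ := Ordinal.bddAbove_of_small (s := (fun w => st (wi w)) '' (A α : Set P))
    exact ⟨max (Order.succ α) γ, lt_max_of_lt_left (Order.lt_succ α),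
      fun w hw => le_max_of_le_right (hγ ⟨w, hw, rfl⟩)⟩
  choose g hg1 hg2 using hg
  let a : ℕ → Ordinal.{0} := fun n => g^[n] 0
  have ha : ∀ n, a n < a (n + 1) := fun n => by
    simp only [a, Function.iterate_succ_apply']
    exact hg1 _
  have hbd : BddAbove (Set.range a) := Ordinal.bddAbove_of_small
  let α := ⨆ n, a n
  have hle : ∀ n, a n < α := fun n => lt_of_lt_of_le (ha n) (le_ciSup hbd (n + 1))
  have hlim : Order.IsSuccLimit α := by
    refine ⟨?_, ?_⟩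
    · rw [isMin_iff_eq_bot]
      exact (lt_of_le_of_lt bot_le (hle 0)).ne'
    · intro b hb
      have hb1 : b < α := hb.lt
      obtain ⟨n, hn⟩ := exists_lt_of_lt_ciSup hb1
      exact hb.2 hn (hle n)
  refine ⟨α, K.cap F α fun w hw hin s hs => ?_⟩
  by_contra hcon
  obtain ⟨γ, hγ, hwγ⟩ := K.lim α hlim w hw
  obtain ⟨n, hn⟩ := exists_lt_of_lt_ciSup hγ
  have h1 := hwi w ⟨s, hs, hcon⟩
  have h2 : st (wi w) ≤ a (n + 1) := by
    simp only [a, Function.iterate_succ_apply']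
    exact hg2 _ w (K.mono hn.le hwγ)
  exact h1.2 (hin _ (K.mono ((h2.trans_lt (hle _)).le) (hst _)) h1.1)

section loc
variable {q1 : Cond P} (E : LocRel q1)

/-- supports are closed under intersection -/
theorem good_dir (K : Kit P A) (hnt : ∀ q, IsCond q → q1.q ⊆ q → ¬ Tot E q) {q : Set (P × Lab)}
    (hq : IsCond q) (hq1 : q1.q ⊆ q) {u1 u2 : P} (h1 : Good E q u1) (h2 : Good E q u2) :
    ∃ m, Good E q m ∧ u1 ∣ m ∧ u2 ∣ m := by
  by_cases e1 : u1 = 1
  · exact ⟨u2, h2, by rw [e1]; exact one_dvd _, dvd_rfl⟩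
  by_cases e2 : u2 = 1
  · exact ⟨u1, h1, dvd_rfl, by rw [e2]; exact one_dvd _⟩
  obtain ⟨k, hk, _⟩ := K.letr ∅ inferInstance (by simp)
  have hw0 := hq.psh k
  obtain ⟨g1, hg1, hg11, hS1, hc1⟩ := partner K hw0 hq e1 (b := k * u1) (left_ne_one hk) {k}
    inferInstance (fun y l hy => by
      rw [mul_assoc, mul_mem_psh]
      exact hq.con _ _ hy)
  have hS1' := hS1 k rfl hk
  obtain ⟨g2, hg2, hg21, hS2, hc2⟩ := partner K hc1 hq e2 (b := g1 * u2) (left_ne_one hg11) {k, g1}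
    inferInstance (fun y l hy hy' => by
      refine hc1.con _ _ (Or.inr ?_) hy'
      rw [mul_assoc, mul_mem_psh]
      exact hy)
  have hS2' := hS2 k (Or.inl rfl) hk
  let w2 : Cond P := ⟨_, hc2⟩
  have sk : psh k q ⊆ w2.q := fun x hx => Or.inl (Or.inl hx)
  have sg1 : psh g1 q ⊆ w2.q := fun x hx => Or.inl (Or.inr hx)
  have sg2 : psh g2 q ⊆ w2.q := fun x hx => Or.inr hx
  let ak : w2 ⟶ q1 := ar w2 k q hq1 sk
  let a1 : w2 ⟶ q1 := ar w2 g1 q hq1 sg1
  let a2 : w2 ⟶ q1 := ar w2 g2 q hq1 sg2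
  have E1 : E.E w2 ak a1 := h1 w2 ak a1 sk sg1 hg1.symm
  have E2 : E.E w2 a1 a2 := h2 w2 a1 a2 sg1 sg2 hg2.symm
  have E3 := E.trans _ _ _ _ E1 E2
  -- chain of factorizations
  have key : ∀ s t, k * s = g2 * t → ∃ r, s = u1 * r ∧ t = u1 * r ∧ ∃ r', t = u2 * r' := by
    intro s t hst
    obtain ⟨r, hr⟩ := hS2' t ⟨s, hst.symm⟩
    have ht : t = u2 * r := by
      apply lc (a := g2)
      rw [hr, ← hg2, mul_assoc]
    have h5 : k * s = g1 * (u2 * r) := by rw [hst, hr, mul_assoc]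
    obtain ⟨r', hr'⟩ := hS1' (u2 * r) ⟨s, h5.symm⟩
    have h6 : u2 * r = u1 * r' := by
      apply lc (a := g1)
      rw [hr', ← hg1, mul_assoc]
    refine ⟨r', ?_, by rw [ht, h6], r, ht⟩
    apply lc (a := k)
    rw [h5, hr', mul_assoc]
  have hpul : pul k w2.q ⊆ q := by
    rintro ⟨s, l⟩ hs
    rcases hs with (hs | hs) | hs
    · exact mul_mem_psh.1 hs
    · obtain ⟨t, ht, hst⟩ := mem_psh.1 hs
      have hst' : k * s = g1 * t := hst
      obtain ⟨r, hr⟩ := hS1' t ⟨s, hst'.symm⟩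
      have h6 : t = u1 * r := by
        apply lc (a := g1)
        rw [hr, ← hg1, mul_assoc]
      have h7 : s = t := by
        rw [h6]
        apply lc (a := k)
        rw [hst', hr, mul_assoc]
      rw [h7]
      exact ht
    · obtain ⟨t, ht, hst⟩ := mem_psh.1 hs
      obtain ⟨r, h6, h7, _⟩ := key s t hst
      rw [h6, ← h7]
      exact ht
  rcases lcm_or_disj k g2 with hd | ⟨u, v, hl⟩
  · exact absurd (tot_of_disj E K E3 hd) (hnt _ (w2.h.pul _) (arrow_sub ak))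
  · obtain ⟨r, h6, h7, r', h8⟩ := key u v hl.1
    refine ⟨u, (claim1 E K E3 hl).mono E hpul, ⟨r, h6⟩, r', ?_⟩
    rw [h6, ← h7]
    exact h8

/-- the filter of supports -/
def FQ (K : Kit P A) (hnt : ∀ q, IsCond q → q1.q ⊆ q → ¬ Tot E q) (q : Set (P × Lab))
    (hq : IsCond q) (hq1 : q1.q ⊆ q) : Filt P where
  S := {u | Good E q u}
  one := good_one E q
  up x s h hs := Good.up E h hs
  dir s t hs ht := by
    obtain ⟨m, h1, h2, h3⟩ := good_dir E K hnt hq hq1 hs ht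
    exact ⟨m, h1, h2, h3⟩

/-! ### stability -/

/-- transfinite iteration -/
noncomputable def chain (step : Set (P × Lab) → Set (P × Lab)) (i : Ordinal.{0}) :
    Set (P × Lab) := step (⋃ j : Set.Iio i, chain step j.1)
termination_by i
decreasing_by exact j.2

theorem chain_eq (step : Set (P × Lab) → Set (P × Lab)) (i : Ordinal.{0}) :
    chain step i = step (⋃ j : Set.Iio i, chain step j.1) := by
  rw [chain]

theorem exists_stable (K : Kit P A) (hnt : ∀ q, IsCond q → q1.q ⊆ q → ¬ Tot E q) :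
    ∃ q, IsCond q ∧ q1.q ⊆ q ∧ ∀ q', IsCond q' → q ⊆ q' → ∀ u, Good E q' u → Good E q u := by
  classical
  by_contra hcon
  push Not at hcon
  -- strictly increasing
  have hstep : ∀ q, ∃ q', (IsCond q ∧ q1.q ⊆ q) →
      (IsCond q' ∧ q ⊆ q' ∧ ∃ u, Good E q' u ∧ ¬ Good E q u) := fun q => by
    by_cases h : IsCond q ∧ q1.q ⊆ q
    · obtain ⟨q', h1, h2, u, h3, h4⟩ := hcon q h.1 h.2
      exact ⟨q', fun _ => ⟨h1, h2, u, h3, h4⟩⟩
    · exact ⟨∅, fun h' => absurd h' h⟩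
  choose st hst using hstep
  let step : Set (P × Lab) → Set (P × Lab) := fun q => st (q1.q ∪ q)
  let c : Ordinal.{0} → Set (P × Lab) := chain step
  let U : Ordinal.{0} → Set (P × Lab) := fun i => q1.q ∪ ⋃ j : Set.Iio i, c j.1
  have hc : ∀ i, c i = st (U i) := fun i => by
    show chain step i = _
    rw [chain_eq]
  have main : ∀ i, IsCond (U i) ∧ (IsCond (c i) ∧ U i ⊆ c i ∧ ∃ u, Good E (c i) u ∧ ¬ Good E (U i) u) := by
    intro i
    induction i using WellFoundedLT.induction with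
    | _ i ih =>
      have hU : IsCond (U i) := by
        have hdir : ∀ a b : Set.Iio i, ∃ k : Set.Iio i, c a.1 ⊆ c k.1 ∧ c b.1 ⊆ c k.1 := by
          have aux : ∀ a b : Set.Iio i, a.1 ≤ b.1 → c a.1 ⊆ c b.1 := by
            intro a b hab
            rcases hab.eq_or_lt with h | h
            · rw [h]
            · refine Set.Subset.trans ?_ (ih b.1 b.2).2.2.1
              intro x hx
              exact Or.inr (Set.mem_iUnion.2 ⟨⟨a.1, h⟩, hx⟩)
          intro a b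
          rcases le_total a.1 b.1 with h | h
          · exact ⟨b, aux a b h, subset_rfl⟩
          · exact ⟨a, subset_rfl, aux b a h⟩
        have hV : IsCond (⋃ j : Set.Iio i, c j.1) := isCond_iUnion (fun j => (ih j.1 j.2).2.1) hdir
        refine q1.h.union hV fun s l h1 h2 => ?_
        obtain ⟨j, hj⟩ := Set.mem_iUnion.1 h2
        exact (ih j.1 j.2).2.1.con _ _ ((ih j.1 j.2).2.2.1 (Or.inl h1)) hj
      refine ⟨hU, ?_⟩
      rw [hc]
      exact hst _ ⟨hU, Set.subset_union_left⟩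
  have hmono : ∀ i j, i ≤ j → c i ⊆ c j := by
    intro i j hij
    rcases hij.eq_or_lt with h | h
    · rw [h]
    · refine Set.Subset.trans ?_ (main j).2.2.1
      intro x hx
      exact Or.inr (Set.mem_iUnion.2 ⟨⟨i, h⟩, hx⟩)
  have hq1c : ∀ i, q1.q ⊆ c i := fun i => Set.subset_union_left.trans (main i).2.2.1
  -- the union filter
  let F : Filt P :=
    { S := {u | ∃ i, Good E (c i) u}
      one := ⟨0, good_one E _⟩
      up := fun x s h ⟨i, hi⟩ => ⟨i, Good.up E h hi⟩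
      dir := by
        rintro s t ⟨i, hi⟩ ⟨j, hj⟩
        obtain ⟨m, h1, h2, h3⟩ := good_dir E K hnt (main (max i j)).2.1 (hq1c _)
          (hi.mono E (hmono _ _ (le_max_left i j))) (hj.mono E (hmono _ _ (le_max_right i j)))
        exact ⟨m, ⟨_, h1⟩, h2, h3⟩ }
  obtain ⟨α, hα⟩ := gen_some K F
  have hsm := K.small α
  have hpick : ∀ m : P, ∃ i, m ∈ F.S → Good E (c i) m := fun m => by
    by_cases h : m ∈ F.S
    · obtain ⟨i, hi⟩ := h
      exact ⟨i, fun _ => hi⟩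
    · exact ⟨0, fun h' => absurd h' h⟩
  choose ix hix using hpick
  obtain ⟨γ, hγ⟩ := Ordinal.bddAbove_of_small (s := ix '' (A α : Set P))
  obtain ⟨u, h1, h2⟩ := (main (Order.succ γ)).2.2.2
  apply h2
  obtain ⟨m, hm1, hm2, hm3⟩ := hα u ⟨_, h1⟩
  have h3 : Good E (c γ) m := (hix m hm2).mono E (hmono _ _ (hγ ⟨m, hm1, rfl⟩))
  refine (Good.up E hm3 h3).mono E ?_
  intro x hx
  exact Or.inr (Set.mem_iUnion.2 ⟨⟨γ, Order.lt_succ γ⟩, hx⟩)

end loc

end Crest.Agent.R296.Lctx153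
end

-- ▼ part R296/Lct3_153
section

/-!
# Row 296 (S0448), block C (helper153): PROOF of the labelled classification theorem, part 3

rigid labels, `lct : Kit P A → LCT P`.
-/

set_option autoImplicit false
set_option linter.unusedSectionVars false
set_option linter.unusedVariables false

open CategoryTheory

namespace Crest.Agent.R296.Lctx153

open Crest.Agent.R296.IfAx378 Crest.Agent.R296.CondCx153 Crest.Agent.R296.CatFx365
  Crest.Agent.R296.LctStx153

universe u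

variable {P : Type 1} [Monoid P] [IsGood P] {A : Ordinal.{0} → Submonoid P}

/-- a small type injects into the ordinals above `μ` -/
theorem small_inj (ι : Type*) [Small.{0} ι] (μ : Ordinal.{0}) :
    ∃ f : ι → Ordinal.{0}, Function.Injective f ∧ ∀ i, μ ≤ f i := by
  refine ⟨fun i => μ + Ordinal.typein (WellOrderingRel (α := Shrink.{0} ι)) (equivShrink ι i), ?_,
    fun i => le_self_add⟩
  intro i j hij
  have h1 := (add_right_injective μ).eq_iff.1 hij
  have h2 := (Ordinal.typein_injective _).eq_iff.1 h1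
  exact (equivShrink ι).injective h2

/-- **rigid labels**: a condition above `q` whose labels separate all pairs of points of a small set -/
theorem rigid {q : Set (P × Lab)} (hq : IsCond q) (X : Set P) (hX : Small.{0} X) :
    ∃ q', IsCond q' ∧ q ⊆ q' ∧ ∀ x ∈ X, ∀ y ∈ X, x ≠ y →
      ∃ l : Lab, (x, l) ∈ q' ∧ (y, Lab.neg l) ∈ q' := by
  have hs := hq.small
  obtain ⟨μ, hμ⟩ := Ordinal.bddAbove_of_small (s := (fun z : P × Lab => z.2.1) '' q)
  let I := {a : X × X // a.1 ≠ a.2}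
  obtain ⟨f, hf, hfμ⟩ := small_inj I (Order.succ μ)
  let N : Set (P × Lab) := Set.range (fun a : I => ((a.1.1 : P), ((f a, false) : Lab))) ∪
    Set.range (fun a : I => ((a.1.2 : P), ((f a, true) : Lab)))
  have hN : IsCond N := by
    refine ⟨small_union _ _, fun s l h1 h2 => ?_⟩
    rcases h1 with ⟨a, ha⟩ | ⟨a, ha⟩ <;> rcases h2 with ⟨b, hb⟩ | ⟨b, hb⟩ <;>
      simp only [Prod.mk.injEq] at ha hb
    · rw [← ha.2] at hb
      simp [Lab.neg] at hb
    · have h3 := hb.2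
      rw [← ha.2] at h3
      simp only [Lab.neg, Bool.not_false, Prod.mk.injEq, and_true] at h3
      have h4 := hf h3
      subst h4
      exact b.2 (Subtype.ext (ha.1.trans hb.1.symm))
    · have h3 := hb.2
      rw [← ha.2] at h3
      simp only [Lab.neg, Bool.not_true, Prod.mk.injEq, and_true] at h3
      have h4 := hf h3
      subst h4
      exact b.2 (Subtype.ext (hb.1.trans ha.1.symm))
    · rw [← ha.2] at hb
      simp [Lab.neg] at hb
  refine ⟨q ∪ N, hq.union hN fun s l h1 h2 => ?_, Set.subset_union_left, fun x hx y hy hxy => ?_⟩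
  · have h3 : l.1 ≤ μ := hμ ⟨_, h1, rfl⟩
    rcases h2 with ⟨a, ha⟩ | ⟨a, ha⟩ <;> simp only [Prod.mk.injEq] at ha
    · have h4 : f a = l.1 := by
        have := congrArg Prod.fst ha.2
        simpa [Lab.neg] using this
      have h5 := hfμ a
      rw [h4] at h5
      exact absurd (Order.succ_le_iff.1 h5) (not_lt.2 h3)
    · have h4 : f a = l.1 := by
        have := congrArg Prod.fst ha.2
        simpa [Lab.neg] using this
      have h5 := hfμ a
      rw [h4] at h5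
      exact absurd (Order.succ_le_iff.1 h5) (not_lt.2 h3)
  · let a : I := ⟨(⟨x, hx⟩, ⟨y, hy⟩), fun h => hxy (congrArg Subtype.val h)⟩
    refine ⟨(f a, false), Or.inr (Or.inl ⟨a, rfl⟩), Or.inr (Or.inr ⟨a, rfl⟩)⟩

section loc
variable {q1 : Cond P} (E : LocRel q1)

/-- `θ = g⁻¹ f` maps supports to supports -/
theorem germ_pres (K : Kit P A) {q : Set (P × Lab)} (hq : IsCond q) (hq1 : q1.q ⊆ q)
    (hst : ∀ q', IsCond q' → q ⊆ q' → ∀ u, Good E q' u → Good E q u)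
    {w : Cond P} {f g : w ⟶ q1} (hf : psh f.1 q ⊆ w.q) (hg : psh g.1 q ⊆ w.q) (hf1 : f.1 ≠ 1)
    (hg1 : g.1 ≠ 1) (hE : E.E w f g) {u v : P} (hl : IsLcm f.1 g.1 u v) (hv : Good E q v) {t : P}
    (ht : Good E q (u * t)) : Good E q (v * t) := by
  by_cases hut : u * t = 1
  · have h1 : t = 1 := by
      have h2 : u = 1 := IsGood.unit _ _ hut
      rw [h2, one_mul] at hut
      exact hut
    rw [h1, mul_one]
    exact hv
  obtain ⟨z, hz, hz1, hS, hc⟩ := partner K w.h hq hut (b := f.1 * (u * t)) (left_ne_one hf1)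
    {g.1} inferInstance (fun y l hy => by
      have h1 := psh_subset.1 hf _ _ hy
      rw [← mul_assoc] at h1
      exact w.h.con _ _ h1)
  have hS' := hS g.1 rfl hg1
  let w1 : Cond P := ⟨_, hc⟩
  have sz : psh z q ⊆ w1.q := fun x hx => Or.inr hx
  let a : w1 ⟶ w := ⟨1, by rw [psh_one]; exact fun x hx => Or.inl hx⟩
  let b : w1 ⟶ q1 := ar w1 z q hq1 sz
  have hww : w.q ⊆ w1.q := fun x hx => Or.inl hx
  have ef : (a ≫ f).1 = f.1 := by simp [a]
  have eg : (a ≫ g).1 = g.1 := by simp [a]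
  have E1 : E.E w1 (a ≫ f) b := ht w1 _ _ (by rw [ef]; exact hf.trans hww) sz
    (by rw [ef]; exact hz.symm)
  have E2 : E.E w1 (a ≫ g) b :=
    E.trans _ _ _ _ (E.symm _ _ _ (E.res a f g hE)) E1
  have L : IsLcm (a ≫ g).1 b.1 (v * t) (u * t) := by
    rw [eg]
    show IsLcm g.1 z (v * t) (u * t)
    refine ⟨by rw [hz, ← mul_assoc, ← mul_assoc, hl.1], fun x y hxy => ?_⟩
    obtain ⟨r, hr⟩ := hS' y ⟨x, hxy.symm⟩
    refine ⟨r, ?_, ?_⟩
    · apply lc (a := g.1)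
      rw [hxy, hr, ← mul_assoc, hl.1]
      simp only [mul_assoc]
    · apply lc (a := z)
      rw [hr, ← hz, mul_assoc]
  have h3 := claim1 E K E2 L
  refine hst _ (w1.h.pul _) ?_ _ h3
  rw [eg]
  exact psh_subset_iff_pul.1 (hg.trans hww)

theorem Good.of_lcm_stable (K : Kit P A) {q : Set (P × Lab)}
    (hst : ∀ q', IsCond q' → q ⊆ q' → ∀ u, Good E q' u → Good E q u)
    {w : Cond P} {f g : w ⟶ q1} (hf : psh f.1 q ⊆ w.q) (hE : E.E w f g) {u v : P}
    (hl : IsLcm f.1 g.1 u v) : Good E q u :=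
  hst _ (w.h.pul _) (psh_subset_iff_pul.1 hf) _ (claim1 E K hE hl)

end loc

/-- **THEOREM (labelled classification, rigid form)** -/
theorem lct (K : Kit P A) : LCT P := by
  classical
  intro q1 E
  by_cases hnt : ∀ q, IsCond q → q1.q ⊆ q → ¬ Tot E q
  · obtain ⟨q, hq, hq1, hst⟩ := exists_stable E K hnt
    let F := FQ E K hnt q hq hq1
    obtain ⟨α, hα⟩ := gen_some K F
    obtain ⟨q2, hq2, hqq2, hrig⟩ := rigid hq (A α : Set P) (K.small α)
    have h12 : q1.q ⊆ q2 := hq1.trans hqq2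
    refine ⟨⟨q2, hq2⟩, h12, RForm.filt F ?_⟩
    intro w f g
    have hf : psh f.1 q2 ⊆ w.q := f.2
    have hg : psh g.1 q2 ⊆ w.q := g.2
    constructor
    · intro hE
      -- move away from one
      obtain ⟨k, hk, _⟩ := K.letr ∅ inferInstance (by simp)
      let w' : Cond P := ⟨psh k w.q, w.h.psh k⟩
      let a : w' ⟶ w := ⟨k, subset_rfl⟩
      let i1 : (⟨q2, hq2⟩ : Cond P) ⟶ q1 := incl (q1 := q1) (q2 := ⟨q2, hq2⟩) h12
      have hE' : E.E w' (a ≫ (f ≫ i1)) (a ≫ (g ≫ i1)) := E.res a _ _ hE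
      have ef : (a ≫ (f ≫ i1)).1 = k * f.1 := by simp [a, i1]
      have eg : (a ≫ (g ≫ i1)).1 = k * g.1 := by simp [a, i1]
      have hf1 : psh (k * f.1) q2 ⊆ w'.q := psh_comp hf (subset_rfl : psh k w.q ⊆ psh k w.q)
      have hg1 : psh (k * g.1) q2 ⊆ w'.q := psh_comp hg (subset_rfl : psh k w.q ⊆ psh k w.q)
      have hf3 : psh (a ≫ (f ≫ i1)).1 q ⊆ w'.q := by
        rw [ef]; exact (psh_mono _ hqq2).trans hf1
      have hg3 : psh (a ≫ (g ≫ i1)).1 q ⊆ w'.q := by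
        rw [eg]; exact (psh_mono _ hqq2).trans hg1
      rcases lcm_or_disj (a ≫ (f ≫ i1)).1 (a ≫ (g ≫ i1)).1 with hd | ⟨u, v, hl⟩
      · exact absurd (tot_of_disj E K hE' hd) (hnt _ (w'.h.pul _) (arrow_sub _))
      · have hu : Good E q u := Good.of_lcm_stable E K hst hf3 hE' hl
        have hv : Good E q v := Good.of_lcm_stable E K hst hg3 (E.symm _ _ _ hE') (isLcm_symm hl)
        have n1 : (a ≫ (f ≫ i1)).1 ≠ 1 := by rw [ef]; exact left_ne_one hk
        have n2 : (a ≫ (g ≫ i1)).1 ≠ 1 := by rw [eg]; exact left_ne_one hk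
        have hp : ∀ t, u * t ∈ F.S ↔ v * t ∈ F.S := fun t =>
          ⟨fun h => germ_pres E K hq hq1 hst hf3 hg3 n1 n2 hE' hl hv h,
            fun h => germ_pres E K hq hq1 hst hg3 hf3 n2 n1 (E.symm _ _ _ hE') (isLcm_symm hl) hu h⟩
        obtain ⟨t, h1, h2, h3⟩ := K.germ F α hα u v hu hp
        refine ⟨u * t, h3, ?_⟩
        have hlt : k * f.1 * (u * t) = k * g.1 * (v * t) := by
          have := hl.1
          rw [ef, eg] at this
          rw [← mul_assoc, this, mul_assoc]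
        have huv : u * t = v * t := by
          by_contra hne
          obtain ⟨l, hl1, hl2⟩ := hrig _ h1 _ h2 hne
          have h4 := psh_subset.1 hf1 _ _ hl1
          have h5 := psh_subset.1 hg1 _ _ hl2
          rw [← hlt] at h5
          exact w'.h.con _ _ h4 h5
        rw [← huv, mul_assoc, mul_assoc] at hlt
        exact lc hlt
    · rintro ⟨t, ht, he⟩
      refine ht w _ _ ?_ ?_ (by simpa using he)
      · simpa using (psh_mono _ hqq2).trans hf
      · simpa using (psh_mono _ hqq2).trans hg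
  · push Not at hnt
    obtain ⟨q, hq, hq1, hT⟩ := hnt
    refine ⟨⟨q, hq⟩, hq1, RForm.total ?_⟩
    intro w f g
    exact hT w _ _ (by simpa using f.2) (by simpa using g.2)

end Crest.Agent.R296.Lctx153
end

-- ▼ part R296/Norm_153
section

/-!
# Row 296 (S0448), block C (helper153): normal forms of values (from `lct`)

* `norm1` : a value `x` over `q1` becomes total or rigid over some `q2 ⊇ q1`;
* `norm2` : a pair (point `p`, value `x`) becomes rigid over some `q2 ⊇ q1`, the filter contains only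
  divisors of `p`;
* `RForm.mono` : stability under extension of the labels / under arrows `q3 ⟶ q2` with value one.
-/

set_option autoImplicit false
set_option linter.unusedSectionVars false
set_option linter.unusedVariables false

open CategoryTheory

namespace Crest.Agent.R296.Normx153

open Crest.Agent.R296.IfAx378 Crest.Agent.R296.CondCx153 Crest.Agent.R296.CatFx365
  Crest.Agent.R296.LctStx153 Crest.Agent.R296.Lctx153

variable {P : Type 1} [Monoid P] [IsGood P] {A : Ordinal.{0} → Submonoid P}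

@[simp] theorem incl_comp {q1 q2 q3 : Cond P} (h : q1.q ⊆ q2.q) (h' : q2.q ⊆ q3.q) :
    incl h' ≫ incl h = incl (h.trans h') := by
  apply hom_ext
  simp

/-- rigid form of a value: `w ⊩ f x = g x` iff `f = g` on a member of `F` -/
def Rigid1 {q : Cond P} (x : Val (Cond P) q) (F : Filt P) : Prop :=
  ∀ (w : Cond P) (f g : w ⟶ q), Eq' (x.res f) (x.res g) ↔ ∃ t ∈ F.S, f.1 * t = g.1 * t

/-- constant value -/
def Const1 {q : Cond P} (x : Val (Cond P) q) : Prop :=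
  ∀ (w : Cond P) (f g : w ⟶ q), Eq' (x.res f) (x.res g)

/-- rigid form of a pair (point, value) -/
def Rigid2 {q : Cond P} (p : P) (x : Val (Cond P) q) (F : Filt P) : Prop :=
  ∀ (w : Cond P) (f g : w ⟶ q), (f.1 * p = g.1 * p ∧ Eq' (x.res f) (x.res g)) ↔
    ∃ t ∈ F.S, f.1 * t = g.1 * t

theorem Rigid1.mono {q q' : Cond P} (h : q.q ⊆ q'.q) {x : Val (Cond P) q} {F : Filt P}
    (H : Rigid1 x F) : Rigid1 (x.res (incl h)) F := by
  intro w f g
  have := H w (f ≫ incl h) (g ≫ incl h)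
  simpa using this

theorem Const1.mono {q q' : Cond P} (h : q.q ⊆ q'.q) {x : Val (Cond P) q}
    (H : Const1 x) : Const1 (x.res (incl h)) := by
  intro w f g
  have := H w (f ≫ incl h) (g ≫ incl h)
  simpa using this

theorem Rigid2.mono {q q' : Cond P} (h : q.q ⊆ q'.q) {p : P} {x : Val (Cond P) q} {F : Filt P}
    (H : Rigid2 p x F) : Rigid2 p (x.res (incl h)) F := by
  intro w f g
  have := H w (f ≫ incl h) (g ≫ incl h)
  simpa using this

theorem norm1 (K : Kit P A) {q1 : Cond P} (x : Val (Cond P) q1) :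
    ∃ (q2 : Cond P) (h : q1.q ⊆ q2.q),
      Const1 (x.res (incl h)) ∨ ∃ F : Filt P, Rigid1 (x.res (incl h)) F := by
  obtain ⟨q2, h, H⟩ := lct K q1 (valRel x)
  refine ⟨q2, h, ?_⟩
  cases H with
  | total H =>
    left
    intro w f g
    have := H w f g
    simpa [valRel] using this
  | filt F H =>
    right
    refine ⟨F, fun w f g => ?_⟩
    have := H w f g
    simpa [valRel] using this

/-- two different arrows into `q` which are free over `s` (`s ≠ 1`) -/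
theorem free_pair (K : Kit P A) (q : Cond P) {s : P} (hs : s ≠ 1) :
    ∃ (w : Cond P) (f g : w ⟶ q), f.1 * s = g.1 * s ∧ IsLcm f.1 g.1 s s := by
  obtain ⟨k, hk, _⟩ := K.letr ∅ inferInstance (by simp)
  obtain ⟨z, hz, hz1, hS, hc⟩ := partner K (q.h.psh k) q.h hs (b := k * s) (left_ne_one hk) {k}
    inferInstance (fun y l hy => by
      rw [mul_assoc, mul_mem_psh]
      exact q.h.con _ _ hy)
  refine ⟨⟨_, hc⟩, ⟨k, fun x hx => Or.inl hx⟩, ⟨z, fun x hx => Or.inr hx⟩, hz.symm, ?_⟩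
  exact isLcm_of_partner hz (hS k rfl hk)

/-- two disjoint arrows into `q` -/
theorem disj_pair (K : Kit P A) (q : Cond P) :
    ∃ (w : Cond P) (f g : w ⟶ q), Disj f.1 g.1 := by
  obtain ⟨k, hk, _⟩ := K.letr ∅ inferInstance (by simp)
  have := small_pts (q.h.psh k)
  obtain ⟨z, hz1, hz⟩ := K.letr (({k} ∪ pts (psh k q.q)) \ {1})
    (small_subset Set.sdiff_subset) (by simp)
  have hc : IsCond (psh k q.q ∪ psh z q.q) := by
    refine (q.h.psh k).union (q.h.psh z) fun p l hp hp' => ?_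
    obtain ⟨s, hs, rfl⟩ := mem_psh.1 hp'
    exact hz _ ⟨Or.inr (mem_pts hp), by simpa using left_ne_one hz1⟩ s 1 (by rw [mul_one])
  refine ⟨⟨_, hc⟩, ⟨k, fun x hx => Or.inl hx⟩, ⟨z, fun x hx => Or.inr hx⟩, ?_⟩
  intro x y hxy
  exact hz k ⟨Or.inl rfl, by simpa using hk⟩ y x hxy.symm

theorem norm2 (K : Kit P A) {q1 : Cond P} (p : P) (x : Val (Cond P) q1) :
    ∃ (q2 : Cond P) (h : q1.q ⊆ q2.q) (F : Filt P),
      Rigid2 p (x.res (incl h)) F ∧ ∀ s ∈ F.S, s ∣ p := by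
  obtain ⟨q2, h, H⟩ := lct K q1 (ptRel p x)
  refine ⟨q2, h, ?_⟩
  cases H with
  | total H =>
    exfalso
    obtain ⟨w, f, g, hd⟩ := disj_pair K q2
    have h1 := (H w f g).1
    simp only [comp_val, incl_val, mul_one] at h1
    exact hd p p h1
  | filt F H =>
    have HR : Rigid2 p (x.res (incl h)) F := fun w f g => by
      have := H w f g
      simpa [ptRel] using this
    refine ⟨F, HR, fun s hs => ?_⟩
    by_cases hs1 : s = 1
    · rw [hs1]; exact one_dvd _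
    obtain ⟨w, f, g, he, hl⟩ := free_pair K q2 hs1
    have h1 := ((HR w f g).2 ⟨s, hs, he⟩).1
    obtain ⟨t, ht, _⟩ := hl.2 _ _ h1
    exact ⟨t, ht⟩


end Crest.Agent.R296.Normx153
end

-- ▼ part R296/Beta_365
section

/-!
Row 296 (S0448), helper365.  **Injective stage functions**: codes with small initial parts can be
assigned different odd stages above any bound.
-/

set_option autoImplicit false

namespace Crest.Agent.R296.Betax365

open Ordinal

universe v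

/-- an injective pairing of ordinals above the first coordinate -/
noncomputable def pr (γ δ : Ordinal.{v}) : Ordinal.{v} := ω ^ (γ + δ) * 2 + ω ^ γ

lemma le_pr (γ δ : Ordinal.{v}) : γ ≤ pr γ δ :=
  (right_le_opow γ one_lt_omega0).trans le_add_self

lemma pr_lt (γ δ : Ordinal.{v}) : pr γ δ < ω ^ Order.succ (γ + δ) := by
  have h1 : pr γ δ ≤ ω ^ (γ + δ) * 3 := by
    have : (3 : Ordinal.{v}) = 2 + 1 := by norm_num
    rw [pr, this, mul_add, mul_one]
    exact add_le_add_right (opow_le_opow_right omega0_pos le_self_add) _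
  refine h1.trans_lt ?_
  rw [opow_succ]
  exact mul_lt_mul_of_pos_left (by exact_mod_cast natCast_lt_omega0 3) (opow_pos _ omega0_pos)

lemma pow_le_pr (γ δ : Ordinal.{v}) : ω ^ (γ + δ) ≤ pr γ δ := by
  rw [pr]
  refine le_trans ?_ le_self_add
  exact le_mul_left _ (by norm_num : (0 : Ordinal.{v}) < 2)

lemma pr_inj {γ δ γ' δ' : Ordinal.{v}} (h : pr γ δ = pr γ' δ') : γ = γ' ∧ δ = δ' := by
  have key : ∀ γ δ γ' δ' : Ordinal.{v}, pr γ δ = pr γ' δ' → ¬ γ + δ < γ' + δ' := by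
    intro γ δ γ' δ' h hlt
    have h1 := pr_lt γ δ
    have h2 : (ω : Ordinal.{v}) ^ Order.succ (γ + δ) ≤ ω ^ (γ' + δ') :=
      opow_le_opow_right omega0_pos (Order.succ_le_of_lt hlt)
    have h3 := pow_le_pr γ' δ'
    rw [h] at h1
    exact absurd (h1.trans_le (h2.trans h3)) (lt_irrefl _)
  have h1 : γ + δ = γ' + δ' :=
    le_antisymm (not_lt.1 (key _ _ _ _ h.symm)) (not_lt.1 (key _ _ _ _ h))
  unfold pr at h
  rw [h1] at h
  have h2 : (ω : Ordinal.{v}) ^ γ = ω ^ γ' := add_left_cancel h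
  have h3 : γ = γ' := (opow_right_inj one_lt_omega0).1 h2
  subst h3
  exact ⟨rfl, add_left_cancel h1⟩

/-- a small type injects into the ordinals -/
lemma exists_inj_small (K : Type*) [Small.{v} K] : ∃ j : K → Ordinal.{v}, Function.Injective j := by
  obtain ⟨e⟩ := (nonempty_embedding_to_cardinal (α := Shrink.{v} K))
  refine ⟨fun k => (e (equivShrink K k)).ord, fun a b h => ?_⟩
  exact (equivShrink K).injective (e.injective (Cardinal.ord_injective h))

/-- **injective odd stage function above `need`** -/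
theorem exists_beta {K : Type*} (need : K → Ordinal.{v})
    (hs : ∀ γ, Small.{v} {k | need k = γ}) :
    ∃ β : K → Ordinal.{v}, Function.Injective β ∧ ∀ k, need k ≤ β k ∧ β k % 2 = 1 := by
  have h1 : ∀ γ, ∃ j : {k | need k = γ} → Ordinal.{v}, Function.Injective j := fun γ => by
    have := hs γ
    exact exists_inj_small _
  choose j hj using h1
  let g : K → Ordinal.{v} := fun k => pr (need k) (j (need k) ⟨k, rfl⟩)
  have hg : Function.Injective g := by
    intro a b h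
    obtain ⟨h2, h3⟩ := pr_inj h
    have h4 : ∀ (γ : Ordinal.{v}) (hb : need b = γ), j (need b) ⟨b, rfl⟩ = j γ ⟨b, hb⟩ := by
      intro γ hb
      subst hb
      rfl
    rw [h4 (need a) h2.symm] at h3
    exact congrArg Subtype.val (hj (need a) h3)
  refine ⟨fun k => 2 * g k + 1, fun a b h => hg ?_, fun k => ⟨?_, ?_⟩⟩
  · have h2 : 2 * g a = 2 * g b := by
      have h3 : Order.succ (2 * g a) = Order.succ (2 * g b) := by simpa using h
      exact Order.succ_injective h3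
    rcases lt_trichotomy (g a) (g b) with h4 | h4 | h4
    · exact absurd h2 (mul_lt_mul_of_pos_left h4 (by norm_num : (0 : Ordinal.{v}) < 2)).ne
    · exact h4
    · exact absurd h2 (mul_lt_mul_of_pos_left h4 (by norm_num : (0 : Ordinal.{v}) < 2)).ne'
  · have h2 : need k ≤ g k := le_pr _ _
    refine h2.trans ?_
    change g k ≤ 2 * g k + 1
    exact (le_mul_right (g k) (by norm_num : (0 : Ordinal.{v}) < 2)).trans le_self_add
  · rw [mul_add_mod_self]
    exact mod_eq_of_lt (by norm_num)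

end Crest.Agent.R296.Betax365
end

-- ▼ part R296/Code_365
section

/-!
Row 296 (S0448), helper365.  **Code stages** for the PP graph (form of helper564): every entry
`(q, y, r, z, p, γ)` gets its own stage `≥ γ`.
-/

set_option autoImplicit false

namespace Crest.Agent.R296.Codex365

open Crest.Agent.R296.IfAx378 Crest.Agent.R296.CondCx153 Crest.Agent.R296.LctStx153
open Crest.Agent.R296.Betax365

universe v

/-- `K` is an increasing union of small sets -/
def Rk (K : Type*) : Prop := ∃ rk : K → Ordinal.{v}, ∀ γ, Small.{v} {k | rk k ≤ γ}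

theorem rk_ord : Rk.{v} Ordinal.{v} :=
  ⟨fun γ => γ, fun γ => (inferInstance : Small.{v} (Set.Iic γ))⟩

theorem Rk.prod {K L : Type*} (h : Rk.{v} K) (h' : Rk.{v} L) : Rk.{v} (K × L) := by
  obtain ⟨r, hr⟩ := h
  obtain ⟨s, hs⟩ := h'
  refine ⟨fun x => max (r x.1) (s x.2), fun γ => ?_⟩
  have := hr γ
  have := hs γ
  have : Small.{v} ({k | r k ≤ γ} ×ˢ {l | s l ≤ γ} : Set (K × L)) := inferInstance
  have h2 : {x : K × L | max (r x.1) (s x.2) ≤ γ} ⊆ {k | r k ≤ γ} ×ˢ {l | s l ≤ γ} :=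
    fun x (hx : max (r x.1) (s x.2) ≤ γ) =>
      ⟨(le_max_left (r x.1) (s x.2)).trans hx, (le_max_right (r x.1) (s x.2)).trans hx⟩
  exact small_subset h2

/-- injective stage function above `need` -/
theorem Rk.stage {K : Type*} (h : Rk.{v} K) (need : K → Ordinal.{v}) :
    ∃ β : K → Ordinal.{v}, Function.Injective β ∧ ∀ k, need k ≤ β k := by
  obtain ⟨r, hr⟩ := h
  obtain ⟨β, h1, h2⟩ := exists_beta (fun k => max (need k) (r k)) (fun γ => by
    have := hr γ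
    have h2 : {k | max (need k) (r k) = γ} ⊆ {k | r k ≤ γ} :=
      fun k (hk : max (need k) (r k) = γ) => (le_max_right (need k) (r k)).trans hk.le
    exact small_subset h2)
  exact ⟨β, h1, fun k => (le_max_left _ _).trans (h2 k).1⟩


variable {P : Type 1}

/-- small subsets -/
theorem rk_cond [Monoid P] [IsGood P] (h : Rk.{0} P) : Rk.{0} (Cond P) := by
  obtain ⟨r, hr⟩ := (h.prod (rk_ord.prod (⟨fun _ => 0, fun _ => inferInstance⟩ : Rk.{0} Bool)) :
    Rk.{0} (P × Lab))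
  have hb : ∀ q : Cond P, ∃ γ, ∀ x ∈ q.q, r x ≤ γ := by
    intro q
    have := q.h.small
    obtain ⟨γ, hγ⟩ := Ordinal.bddAbove_of_small (s := r '' q.q)
    exact ⟨γ, fun x hx => hγ ⟨x, hx, rfl⟩⟩
  choose rk hrk using hb
  refine ⟨rk, fun γ => ?_⟩
  have := hr γ
  refine small_of_injective (β := Set {x | r x ≤ γ})
    (f := fun q : {q | rk q ≤ γ} => {x | x.1 ∈ q.1.q}) (fun q q' hq => ?_)
  have h1 : ∀ x, x ∈ q.1.q ↔ x ∈ q'.1.q := by
    intro x
    constructor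
    · intro hx
      have : (⟨x, (hrk _ _ hx).trans q.2⟩ : {x | r x ≤ γ}) ∈ {x : {x | r x ≤ γ} | x.1 ∈ q.1.q} := hx
      rw [show ({x : {x | r x ≤ γ} | x.1 ∈ q.1.q}) = {x | x.1 ∈ q'.1.q} from hq] at this
      exact this
    · intro hx
      have : (⟨x, (hrk _ _ hx).trans q'.2⟩ : {x | r x ≤ γ}) ∈ {x : {x | r x ≤ γ} | x.1 ∈ q'.1.q} := hx
      rw [← show ({x : {x | r x ≤ γ} | x.1 ∈ q.1.q}) = {x | x.1 ∈ q'.1.q} from hq] at this
      exact this
  apply Subtype.ext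
  obtain ⟨⟨q, hq1⟩, hq2⟩ := q
  obtain ⟨⟨q', hq1'⟩, hq2'⟩ := q'
  have h3 : q = q' := Set.ext h1
  subst h3
  rfl

theorem rk_of_kit [Monoid P] {A : Ordinal.{0} → Submonoid P} (K : Kit P A) : Rk.{0} P := by
  choose rk hrk using K.exh
  refine ⟨rk, fun γ => ?_⟩
  have := K.small γ
  have h2 : {p | rk p ≤ γ} ⊆ (A γ : Set P) := fun p (hp : rk p ≤ γ) => K.mono hp (hrk p)
  exact small_subset h2

/-- codes of the entries of the PP graph -/
abbrev Code (P : Type 1) : Type 1 := (Cond P × P × Cond P × P × P) × Ordinal.{0}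

theorem exists_code [Monoid P] {A : Ordinal.{0} → Submonoid P} (K : Kit P A) :
    ∃ st : Code P → Ordinal.{0}, Function.Injective st ∧ ∀ k, k.2 ≤ st k := by
  have := K.good
  have h := rk_of_kit K
  have h' := rk_cond h
  exact ((h'.prod (h.prod (h'.prod (h.prod h)))).prod rk_ord).stage fun k => k.2

end Crest.Agent.R296.Codex365
end

-- ▼ part R296/Hyp_365
section

/-!
Row 296 (S0448), helper365.  **The hypotheses of `PPc_564` from `Kit P A`** (all except the letters).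
-/

set_option autoImplicit false

open CategoryTheory

namespace Crest.Agent.R296.Hypx365

open Crest.Agent.R296.IfAx378 Crest.Agent.R296.CondCx153 Crest.Agent.R296.CatFx365
open Crest.Agent.R296.LctStx153 Crest.Agent.R296.PPcx564

variable {P : Type 1} [Monoid P] {A : Ordinal.{0} → Submonoid P}

theorem genL (K : Kit P A) : Locx929.GenS P := fun a b S h1 h2 h3 h4 => K.gen a b S h2 h3 h1 h4

theorem letL (K : Kit P A) : Locx929.LetS P := K.letr

theorem gen' (K : Kit P A) : Gen' P := by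
  intro a b S hS hb
  have := K.good
  by_cases ha : a = 1
  · exact ⟨b, by rw [ha, mul_one], fun x _ => ⟨x, rfl⟩⟩
  obtain ⟨k, hk, hd⟩ := K.letr {b} inferInstance (by simpa using fun h => hb h.symm)
  have h1 : Small.{0} ((S ∪ {k}) \ {1} : Set P) := by
    have : Small.{0} (S ∪ {k} : Set P) := inferInstance
    exact small_subset Set.sdiff_subset
  obtain ⟨y, hy, hg⟩ := K.gen a b ((S ∪ {k}) \ {1}) ha hb h1 (by simp)
  have hy1 : y ≠ 1 := by
    rintro rfl
    obtain ⟨r, hr⟩ := hg k ⟨Or.inr rfl, by simpa using hk⟩ k (by rw [one_mul])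
    rw [one_mul] at hr
    exact hd b rfl 1 r (by rw [mul_one]; exact hr)
  refine ⟨y, hy, fun x hx => hg (y * x) ⟨Or.inl hx, ?_⟩ x dvd_rfl⟩
  intro h
  exact hy1 (IsGood.unit _ _ h)

theorem amal [IsGood P] (K : Kit P A) : Amal P := by
  intro e d e1 l j hl
  obtain ⟨e2, m, m', h⟩ := Locx929.am (genL K) (letL K) l (fun s b h => hl h) j
  exact ⟨e2, m', m, h.symm⟩

theorem normHyp [IsGood P] (K : Kit P A) : NormHyp P where
  one q x := by
    obtain ⟨q2, h, H⟩ := Normx153.norm1 K x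
    refine ⟨q2, incl h, rfl, ?_⟩
    rcases H with H | ⟨F, H⟩
    · exact Or.inl H
    · exact Or.inr ⟨F, H⟩
  two q y p := by
    obtain ⟨q2, h, F, H1, H2⟩ := Normx153.norm2 K p y
    exact ⟨q2, incl h, F, rfl, H1, H2⟩

theorem codeHyp (K : Kit P A) : CodeHyp P := Codex365.exists_code K

end Crest.Agent.R296.Hypx365
end

-- ▼ part R296/LetH_365
section

/-!
Row 296 (S0448), helper365.  **The letters of `PPc_564` from the output of block A** (`OutA_378`).
-/

set_option autoImplicit false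

open CategoryTheory

namespace Crest.Agent.R296.LetHx365

open Crest.Agent.R296.IfAx378 Crest.Agent.R296.CondCx153 Crest.Agent.R296.CatFx365
open Crest.Agent.R296.LctStx153 Crest.Agent.R296.PPcx564 Crest.Agent.R296.OutAx378

variable {P : Type 1} [Monoid P] {A : Ordinal.{0} → Submonoid P}

theorem small_bdd (K : Kit P A) (S : Set P) (hS : Small.{0} S) : ∃ β, ∀ x ∈ S, x ∈ A β := by
  choose st hst using K.exh
  obtain ⟨γ, hγ⟩ := Ordinal.bddAbove_of_small (s := st '' S)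
  exact ⟨γ, fun x hx => K.mono (hγ ⟨x, hx, rfl⟩) (hst x)⟩

theorem genByA_mono (K : Kit P A) {F : Filt P} {α β : Ordinal.{0}} (h : α ≤ β)
    (hF : GenByA P A F α) : GenByA P A F β := fun s hs => by
  obtain ⟨m, h1, h2, h3⟩ := hF s hs
  exact ⟨m, K.mono h h1, h2, h3⟩

theorem le_odd (β : Ordinal.{0}) : β ≤ 2 * β + 1 :=
  (Ordinal.le_mul_right β (by norm_num : (0 : Ordinal.{0}) < 2)).trans le_self_add

theorem odd_inj {β γ : Ordinal.{0}} (h : 2 * β + 1 = 2 * γ + 1) : β = γ := by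
  have h2 : 2 * β = 2 * γ := by
    have h3 : Order.succ (2 * β) = Order.succ (2 * γ) := by simpa using h
    exact Order.succ_injective h3
  rcases lt_trichotomy β γ with h4 | h4 | h4
  · exact absurd h2 (mul_lt_mul_of_pos_left h4 (by norm_num : (0 : Ordinal.{0}) < 2)).ne
  · exact h4
  · exact absurd h2 (mul_lt_mul_of_pos_left h4 (by norm_num : (0 : Ordinal.{0}) < 2)).ne'

theorem odd_mod (β : Ordinal.{0}) : (2 * β + 1) % 2 = 1 := by
  rw [Ordinal.mul_add_mod_self]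
  exact Ordinal.mod_eq_of_lt (by norm_num)

/-- the datum of `(β, F, a, p)` -/
structure Dt (A : Ordinal.{0} → Submonoid P) (f0 : P) (β : Ordinal.{0}) (F : Filt P) (a p : P)
    (D : TDat A) : Prop where
  eβ : D.β = 2 * β + 1
  eF : D.F = F
  ea : D.a = a
  ep : D.p = p
  eb : D.b = p * f0

theorem Dt.uniq {f0 : P} {β : Ordinal.{0}} {F : Filt P} {a p : P} {D D' : TDat A}
    (h : Dt A f0 β F a p D) (h' : Dt A f0 β F a p D') : D = D' :=
  TDat.ext (h.eβ.trans h'.eβ.symm) (h.eF.trans h'.eF.symm) (h.ea.trans h'.ea.symm)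
    (h.eb.trans h'.eb.symm) (h.ep.trans h'.ep.symm)

open Classical in
/-- the letter -/
noncomputable def LL (η : TDat A → P) (f0 : P) (β : Ordinal.{0}) (F : Filt P) (a p : P) : P :=
  if h : ∃ D : TDat A, Dt A f0 β F a p D then η h.choose else 1

theorem LL_eq (η : TDat A → P) {f0 : P} {β : Ordinal.{0}} {F : Filt P} {a p : P} {D : TDat A}
    (h : Dt A f0 β F a p D) : LL η f0 β F a p = η D := by
  have h1 : ∃ D : TDat A, Dt A f0 β F a p D := ⟨D, h⟩
  rw [LL, dif_pos h1]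
  rw [h1.choose_spec.uniq h]

theorem letHyp [IsGood P] (K : Kit P A) (η : TDat A → P) (T : TLem η) {f0 : P} (hf0 : f0 ≠ 1) :
    Nonempty (LetHyp P f0) := by
  refine ⟨{ Let := LL η f0, good := fun β F a p => ∃ D : TDat A, Dt A f0 β F a p D, ev := ?_,
            rel := ?_, mem := ?_, T2 := ?_ }⟩
  · intro F a p S hS ha hF
    obtain ⟨α, hα⟩ := Lctx153.gen_some K F
    obtain ⟨γ, hγ⟩ := small_bdd K (S ∪ {a, p, p * f0})
      (by
        have : Small.{0} ({a, p, p * f0} : Set P) := inferInstance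
        exact small_union _ _)
    refine ⟨max α γ, fun β hβ => ?_⟩
    have h1 : max α γ ≤ 2 * β + 1 := hβ.trans (le_odd β)
    have h2 : ∀ x ∈ S ∪ {a, p, p * f0}, x ∈ A (2 * β + 1) :=
      fun x hx => K.mono ((le_max_right _ _).trans h1) (hγ x hx)
    let D : TDat A :=
      { β := 2 * β + 1, F := F, a := a, b := p * f0, p := p, odd := odd_mod β
        gen := genByA_mono K ((le_max_left _ _).trans h1) hα
        ha := h2 a (Or.inr (by simp))
        hb := h2 (p * f0) (Or.inr (by simp))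
        hp := h2 p (Or.inr (by simp))
        a_ne := ha, mem := hF, dvd := ⟨f0, rfl⟩
        ndvd := by
          rintro ⟨c, hc⟩
          have h3 : p * 1 = p * (f0 * c) := by rw [mul_one, ← mul_assoc]; exact hc
          exact hf0 (IsGood.unit _ _ (IsGood.lc _ _ _ h3).symm) }
    have hD : Dt A f0 β F a p D := ⟨rfl, rfl, rfl, rfl, rfl⟩
    refine ⟨⟨D, hD⟩, fun x hx => ?_⟩
    have h3 : LL η f0 β F a p * x ∈ A (2 * β + 1) := h2 _ (Or.inl hx)
    rw [LL_eq η hD] at h3 ⊢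
    obtain ⟨z, rfl⟩ := T.t0 D 1 x (one_mem _) (by rw [one_mul]; exact h3)
    refine ⟨z, ?_⟩
    change η D * (D.a * z) = _
    rw [← mul_assoc, T.rel D]
  · rintro β F a p ⟨D, hD⟩
    rw [LL_eq η hD]
    have := T.rel D
    rw [hD.ea, hD.eb] at this
    exact this
  · rintro β F a p ⟨D, hD⟩ u hu
    rw [LL_eq η hD]
    exact T.t3 D u (by rw [hD.eF]; exact hu)
  · rintro β β' F F' a p p' s s' z ⟨D, hD⟩ ⟨D', hD'⟩ h1 h2 h3
    rw [LL_eq η hD, LL_eq η hD'] at h2 ⊢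
    obtain ⟨h4, -, u, hu, h5⟩ := T.t2 D D' s s' z z (by rw [hD.ep, hD'.ep]; exact h1) h2
      (by rw [hD.ea]; exact h3) (by rw [hD'.ea]; exact h3)
    refine ⟨odd_inj (hD.eβ.symm.trans ((congrArg TDat.β h4).trans hD'.eβ)), congrArg η h4, u, ?_, h5⟩
    rw [← hD.eF]
    exact hu

end Crest.Agent.R296.LetHx365
end

-- ▼ part R296/Fin_365

/-!
Row 296 (S0448), helper365.  **Assembly**: `PPOut (Cond P)` for the monoid of a tower.
-/

set_option autoImplicit false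

open CategoryTheory FirstOrder FirstOrder.Language Crest.LogicCS.SetTheory

namespace Crest.Agent.R296.Finx365

open Crest.Agent.R296 Crest.Agent.R296.IfAx378

variable {P : Type 1} [Monoid P]

/-- translation of the data -/
def tr (T : Tower P) (D : OutAx378.TDat T.A) : FiltCx70.TDat T :=
  { β := D.β, odd := D.odd, F := D.F, a := D.a, b := D.b, p := D.p, gen := D.gen, ha := D.ha,
    hb := D.hb, hp := D.hp, a_ne := D.a_ne, mem := D.mem, dvd := D.dvd, ndvd := D.ndvd }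

theorem tr_inj (T : Tower P) {D D' : OutAx378.TDat T.A} (h : tr T D = tr T D') : D = D' :=
  OutAx378.TDat.ext (congrArg FiltCx70.TDat.β h) (congrArg FiltCx70.TDat.F h)
    (congrArg FiltCx70.TDat.a h) (congrArg FiltCx70.TDat.b h) (congrArg FiltCx70.TDat.p h)

theorem tlem (T : Tower P) : OutAx378.TLem (A := T.A) (fun D => FiltCx70.etaF T (tr T D)) := by
  have h := FiltCx70.tlem T
  exact
    { succ := fun D => h.succ (tr T D)
      new := fun D => h.new (tr T D)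
      rel := fun D => h.rel (tr T D)
      t3 := fun D => h.t3 (tr T D)
      t0 := fun D => h.t0 (tr T D)
      t1 := fun D => h.t1 (tr T D)
      t1' := fun D => h.t1' (tr T D)
      t2 := fun D D' s s' z z' h1 h2 h3 h4 => by
        obtain ⟨h5, h6, h7⟩ := h.t2 (tr T D) (tr T D') s s' z z' h1 h2 h3 h4
        exact ⟨tr_inj T h5, h6, h7⟩ }

theorem pp_out [IsGood P] (T : Tower P) : PPBrx365.PPOut (CondCx153.Cond P) := by
  have K := Wirex378.kit T
  obtain ⟨L⟩ := LetHx365.letHyp K _ (tlem T) T.f0_ne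
  exact PPx564.ppOut T.f0_ne L (Hypx365.gen' K) (Hypx365.amal K) (Hypx365.normHyp K)
    (Hypx365.codeHyp K)

/-- **`Con(ZF + PP + AC_WO + ¬AC)`** -/
theorem main : Theory.IsSatisfiable (ZF ∪ {ppAx, acwoAx, ∼acAx}) :=
  Wirex378.s0448_of_pp fun _ _ _ T => pp_out T

end Crest.Agent.R296.Finx365
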